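import Vale.Agent.P011NE.G2Top
import Vale.Agent.P011.H900.BrgEFin
import Vale.Agent.P011.H742.E3N

/-!
The groups of type `E₆` in the new letters: every normal subgroup is central or everything.
-/

open Module

namespace Vale.Agent.P011.NE

open Vale.Agent.P011.MPQ Vale.Agent.P011.D4 Vale.Agent.P011.E6 Vale.Agent.P011.E6H
open Vale.Agent.P011.H900 Vale.Agent.P011.NM

theorem onlyC_equiv {G G' : Type} [Group G] [Group G'] (e : G ≃* G') (h : OnlyC G') :
    OnlyC G := by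
  intro N hN
  refine (h (N.comap e.symm.toMonoidHom) (hN.comap _)).imp (fun h1 x hx => ?_) fun h1 => ?_
  · have h2 : e x ∈ N.comap e.symm.toMonoidHom := by simpa using hx
    refine Subgroup.mem_center_iff.2 fun y => e.injective ?_
    rw [map_mul, map_mul, Subgroup.mem_center_iff.1 (h1 h2)]
  · refine eq_top_iff.2 fun x _ => ?_
    have h2 : e x ∈ N.comap e.symm.toMonoidHom := h1 ▸ Subgroup.mem_top _
    simpa using h2

/-- A noncentral normal subgroup contains the automorphisms of the octonion algebra. -/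
def MeetE : Prop :=
  ∀ {k E : Type} [Field k] [NumberField k] [Field E] [NumberField E] [Algebra k E]
    {ρ σ : E ≃ₐ[k] E} {kap a b c : kˣ} {lam : Eˣ} {g : Fin 3 → Eˣ}, IsSextic ρ σ kap →
    Oct.Division a b c → IsForm ρ σ lam g → (Oct.Division (up E a) (up E b) (up E c) ∨
      ∀ x : AlbL E a b c, E6O.her σ g x x = 0 → x = 0) →
    ∀ N : Subgroup (E6O.GO ρ σ lam g a b c), N.Normal → ¬ N ≤ Subgroup.center _ →
      ∀ f, E6O.autO ρ σ lam g a b c f ∈ N

variable {F : Type} [Field F] [NumberField F]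

/-- **Outer groups with trivial Tits class.** -/
theorem e1m {s : F → F} {a b c : F} {g : Fin 3 → F} (hs : Aut 2 s)
    (hd : Dvn [s] [] a b c) (hg : ∀ i, s (g i) = g i)
    (ha : ∀ x : Al a b, her c s g x x = 0 → x = 0) :
    OnlyC (grp fun f : Al a b → Al a b => Cub c f ∧ Her c s g f) := by
  have hA : IsA s := hs.isA two_ne_zero
  obtain ⟨k, _, _, _, hfin, hgal, hfix, haut, hcl⟩ := exists_base [s] (by simpa using hA)
  obtain ⟨ha0, hb0, hc0⟩ := hd.ne (by simp)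
  have hg0 := g_ne hA ha
  obtain ⟨a, rfl⟩ := unit_of hfix (by simpa using (hd.1 s (by simp)).1) ha0
  obtain ⟨b, rfl⟩ := unit_of hfix (by simpa using (hd.1 s (by simp)).2.1) hb0
  obtain ⟨c, rfl⟩ := unit_of hfix (by simpa using (hd.1 s (by simp)).2.2) hc0
  have hg1 : ∀ i, ∃ u : kˣ, ((up F u : Fˣ) : F) = g i := fun i =>
    unit_of hfix (by simpa using hg i) (hg0 i)
  choose g' hg' using hg1
  obtain rfl : (fun i => ((upG F g' i : Fˣ) : F)) = g := funext hg'
  obtain ⟨σ, rfl⟩ := haut s (by simp)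
  have h2 : finrank k F = 2 := rank2 hcl hs.exists_ne hs.two
  refine onlyC_equiv (gEquiv (aeL a b c) _ _ (her_iff σ (upG F g'))) ?_
  rw [gp_eq]
  refine fun N => (gp_main' h2 (ne_one hs.exists_ne) (div_of_nil hd) (fun x hx => ?_) N).2
  obtain ⟨x, rfl⟩ := (aeL a b c).surjective x
  rw [ha x ((her_eq σ _ x x).trans hx)]
  rfl

/-- **Inner groups.** -/
theorem e2m {r : F → F} {a b c e : F} (hr : Aut 3 r) (hd : Dvn [r] [r] a b c) (he : Nnm r e) :
    OnlyC (grp fun f : Al a b → Al a b => Cub c f ∧ Ph r e f) := by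
  have hA : IsA r := hr.isA three_ne_zero
  obtain ⟨k, _, _, _, hfin, hgal, hfix, haut, hcl⟩ := exists_base [r] (by simpa using hA)
  obtain ⟨ha0, hb0, hc0⟩ := hd.ne (by simpa using hA)
  have he0 : e ≠ 0 := fun h => he.2 0 (by rw [h, zero_mul, zero_mul])
  obtain ⟨a, rfl⟩ := unit_of hfix (by simpa using (hd.1 r (by simp)).1) ha0
  obtain ⟨b, rfl⟩ := unit_of hfix (by simpa using (hd.1 r (by simp)).2.1) hb0
  obtain ⟨c, rfl⟩ := unit_of hfix (by simpa using (hd.1 r (by simp)).2.2) hc0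
  obtain ⟨e, rfl⟩ := unit_of hfix (by simpa using he.1) he0
  obtain ⟨ρ, rfl⟩ := haut r (by simp)
  have h3 : finrank k F = 3 := rank3 hcl hr.exists_ne hr.three
  have hn : ∀ x : F, Algebra.norm k x ≠ e := by
    intro x hx
    apply he.2 x
    have h4 := congrArg (algebraMap k F) hx
    rw [Vale.Agent.P011.E6I.norm_rho h3 (ne_one hr.exists_ne)] at h4
    exact h4
  refine onlyC_equiv (gEquiv (aeL a b c) _ _ (ph_iff ρ (up F e))) ?_
  rw [gpi_eq]
  exact fun N => (E6I.gpi_main h3 (ne_one hr.exists_ne) hn (div_of haut hd) N).2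

/-- **Outer groups with nontrivial Tits class.** -/
theorem e3m_of (hH : HypE) (H : MeetE) {r s : F → F} {a b c e t : F} {g : Fin 3 → F}
    (hr : Aut 3 r) (hs : Aut 2 s) (hc : ∀ x, r (s x) = s (r x)) (hd : Dvn [r, s] [r, s] a b c)
    (he : Nnm r e) (hw : Wei r s e t g)
    (ha : Dvn [] [] a b c ∨ ∀ x : Al a b, her c s g x x = 0 → x = 0) :
    OnlyC (grp fun f : Al a b → Al a b => Cub c f ∧ Her c s g f ∧ Ph r e f) := by
  have hA : IsA r := hr.isA three_ne_zero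
  have hB : IsA s := hs.isA two_ne_zero
  obtain ⟨k, _, _, _, hfin, hgal, hfix, haut, hcl⟩ := exists_base [r, s] (by simpa using ⟨hA, hB⟩)
  obtain ⟨ha0, hb0, hc0⟩ := hd.ne (by simpa using ⟨hA, hB⟩)
  have he0 : e ≠ 0 := fun h => he.2 0 (by rw [h, zero_mul, zero_mul])
  have hr' := hd.1 r (by simp)
  have hs' := hd.1 s (by simp)
  obtain ⟨a, rfl⟩ := unit_of hfix (by simpa using ⟨hr'.1, hs'.1⟩) ha0
  obtain ⟨b, rfl⟩ := unit_of hfix (by simpa using ⟨hr'.2.1, hs'.2.1⟩) hb0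
  obtain ⟨c, rfl⟩ := unit_of hfix (by simpa using ⟨hr'.2.2, hs'.2.2⟩) hc0
  obtain ⟨e, rfl⟩ : ∃ u : Fˣ, (u : F) = e := ⟨Units.mk0 e he0, rfl⟩
  obtain ⟨ρ, rfl⟩ := haut r (by simp)
  obtain ⟨σ, rfl⟩ := haut s (by simp)
  obtain ⟨w1, w2, w3, w4, w5, w6⟩ := hw
  have hg0 : ∀ i, g i ≠ 0 := by
    have h2 : g 2 ≠ 0 := by
      intro h
      rw [h, map_zero, mul_zero] at w6
      exact w2 w6
    have ht : t ≠ 0 := by
      rintro rfl
      rw [zero_mul] at w5
      exact h2 w5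
    have h1 : g 1 ≠ 0 := by
      rw [w4]
      exact mul_ne_zero ht ((map_ne_zero ρ).2 w2)
    intro i
    fin_cases i
    · exact w2
    · exact h1
    · exact h2
  obtain ⟨g, rfl⟩ : ∃ g' : Fin 3 → Fˣ, (fun i => (g' i : F)) = g :=
    ⟨fun i => Units.mk0 (g i) (hg0 i), rfl⟩
  have h6 : finrank k F = 6 := rank6 hcl hr.exists_ne hr.three hs.exists_ne hs.two hc
  obtain ⟨kap, hk⟩ : ∃ kap : kˣ, ∃ x : F, x ^ 2 = algebraMap k F kap ∧ ρ x = x ∧ σ x = -x := by
    obtain ⟨y, hy⟩ := hs.exists_ne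
    have hu : y - σ y ≠ 0 := fun h => hy (sub_eq_zero.1 h).symm
    have hσu : σ (y - σ y) = -(y - σ y) := by
      rw [map_sub, hs.two]
      ring
    have hx0 : (y - σ y) * ρ (y - σ y) * ρ (ρ (y - σ y)) ≠ 0 :=
      mul_ne_zero (mul_ne_zero hu ((map_ne_zero ρ).2 hu))
        ((map_ne_zero ρ).2 ((map_ne_zero ρ).2 hu))
    have hρx : ρ ((y - σ y) * ρ (y - σ y) * ρ (ρ (y - σ y))) =
        (y - σ y) * ρ (y - σ y) * ρ (ρ (y - σ y)) := by
      rw [map_mul, map_mul, hr.three]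
      ring
    have hσx : σ ((y - σ y) * ρ (y - σ y) * ρ (ρ (y - σ y))) =
        -((y - σ y) * ρ (y - σ y) * ρ (ρ (y - σ y))) := by
      rw [map_mul, map_mul, ← hc, ← hc, ← hc, hσu, map_neg, map_neg]
      ring
    generalize (y - σ y) * ρ (y - σ y) * ρ (ρ (y - σ y)) = x at hx0 hρx hσx
    obtain ⟨u, hu⟩ := unit_of hfix (x := x ^ 2) (by
      simp only [List.mem_cons, List.not_mem_nil, or_false, forall_eq_or_imp, forall_eq]
      exact ⟨by rw [map_pow, hρx], by rw [map_pow, hσx, neg_sq]⟩) (pow_ne_zero 2 hx0)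
    exact ⟨u, x, hu.symm, hρx, hσx⟩
  have hS : IsSextic ρ σ kap := ⟨h6, hr.exists_ne, hr.three, hs.two, hc, hk⟩
  have hF : IsForm ρ σ e g := ⟨he.1, he.2, w1, ⟨t, w3, w4, w5, w6⟩⟩
  have hC := div_of haut hd
  refine onlyC_equiv (gEquiv (aeL a b c) _ _ (her_ph_iff σ ρ g e))
    (onlyC_equiv (MulEquiv.ofBijective _ H261.Rl.toG3_bij).symm fun N hN => ?_)
  refine or_iff_not_imp_left.2 fun h => E6O.g2_top hH hS hC hF N hN
    (H hS hC hF (ha.imp div_of_nil fun ha x hx => ?_) N hN h)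
  obtain ⟨x, rfl⟩ := (aeL a b c).surjective x
  rw [ha x ((her_eq σ _ x x).trans hx)]
  rfl

end Vale.Agent.P011.NE
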