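import Vale.Agent.P011.E6O.H408.Sp
import Vale.Agent.P011.E6O.H24.Bas
import Vale.Agent.P011.E6H.XDefs
import Vale.Agent.P011.E6H.Hyp

/-!
Invariant polynomials without common zero.
-/

namespace Vale.Agent.P011.E6O.Ani

open Vale.Agent.P011.MPQ Vale.Agent.P011.D4 Vale.Agent.P011.D4.Oct Vale.Agent.P011.E6
open Vale.Agent.P011.E6.Alb Vale.Agent.P011.E6O.H408
open Vale.Agent.P011.E6H (IsSextic IsForm)

section alb

variable {F : Type} [Field F] {a b c : Fˣ}

theorem adj_cross_sing [NeZero (2 : F)] {q : Alb a b c} (hq : adj q = 0) (y : Alb a b c) :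
    adj (cross q y) = tf q (adj y) • q := by
  have h := adj_cross q y
  rwa [hq, cross_zero_left, tf_zero_left, zero_smul, add_zero, zero_add] at h

theorem cross_cross [NeZero (2 : F)] {q : Alb a b c} (hq : adj q = 0)
    (p r : Alb a b c) : cross (cross q p) (cross q r) = tf (cross q p) r • q := by
  have h := adj_cross_sing hq (p + r)
  rw [cross_add_right, adj_add, adj_add, adj_cross_sing hq, adj_cross_sing hq, tf_add_right,
    tf_add_right, add_smul, add_smul, add_left_inj, add_right_inj] at h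
  rw [h, tf_cross]

/-- The cyclic permutation. -/
def rot (x : Alb a b c) : Alb a b c := ⟨x.d2, x.d3, x.d1, x.x2, x.x3, x.x1⟩

theorem zero_of_d1 (hd : Division a b c) {l u : Alb a b c} (hl : l.d1 ≠ 0) (hu : adj u = 0)
    (h : cross l u = 0) (h1 : u.d1 = 0) : u = 0 := by
  have a2 : u.x2 = 0 := hd _ (by simpa [adj, h1] using congrArg d2 hu)
  have a3 : u.x3 = 0 := hd _ (by simpa [adj, h1] using congrArg d3 hu)
  have b1 : u.x1 = 0 := by simpa [cross, h1, a2, a3, hl] using congrArg x1 h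
  have b2 : u.d3 = 0 := by simpa [cross, h1, a2, a3, hl] using congrArg d2 h
  have b3 : u.d2 = 0 := by simpa [cross, h1, a2, a3, hl] using congrArg d3 h
  exact Alb.ext h1 b3 b2 b1 a2 a3

theorem prop_d1 (hd : Division a b c) {l u : Alb a b c} (hl : l.d1 ≠ 0) (h0 : adj l = 0)
    (hu : adj u = 0) (h : cross l u = 0) : ∃ t : F, u = t • l := by
  refine ⟨u.d1 / l.d1, sub_eq_zero.1 (zero_of_d1 hd hl ?_ ?_ ?_)⟩
  · rw [sub_eq_add_neg, ← neg_smul, adj_add, adj_smul, cross_smul_right, cross_comm, h, h0, hu]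
    simp
  · rw [sub_eq_add_neg, ← neg_smul, cross_add_right, cross_smul_right, Alb.cross_self, h, h0]
    simp
  · simp [hl]

theorem adj_rot (x : Alb a b c) : adj (rot x) = rot (adj x) := rfl

theorem cross_rot (x y : Alb a b c) : cross (rot x) (rot y) = rot (cross x y) := rfl

theorem rot_prop {l u : Alb a b c} (h : ∃ t : F, rot u = t • rot l) : ∃ t : F, u = t • l := by
  obtain ⟨t, e⟩ := h
  exact ⟨t, (congrArg (fun x : Alb a b c => rot (rot x)) e :)⟩

/-- Two different points are not in a singular position. -/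
theorem prop_of_cross (hd : Division a b c) {l u : Alb a b c} (hl : l ≠ 0) (h0 : adj l = 0)
    (hu : adj u = 0) (h : cross l u = 0) : ∃ t : F, u = t • l := by
  have r1 : ∀ {x : Alb a b c}, adj x = 0 → adj (rot x) = 0 := fun hx => by rw [adj_rot, hx]; rfl
  have r2 : ∀ {x y : Alb a b c}, cross x y = 0 → cross (rot x) (rot y) = 0 := fun hx => by
    rw [cross_rot, hx]; rfl
  by_cases h1 : l.d1 = 0
  · by_cases h2 : l.d2 = 0
    · by_cases h3 : l.d3 = 0
      · exact absurd (Alb.ext h1 h2 h3 (hd _ (by simpa [adj, h2] using congrArg d1 h0))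
          (hd _ (by simpa [adj, h1] using congrArg d2 h0))
          (hd _ (by simpa [adj, h1] using congrArg d3 h0))) hl
      · exact rot_prop (rot_prop (prop_d1 hd h3 (r1 (r1 h0)) (r1 (r1 hu)) (r2 (r2 h))))
    · exact rot_prop (prop_d1 hd h2 (r1 h0) (r1 hu) (r2 h))
  · exact prop_d1 hd h1 h0 hu h

end alb

variable {k E : Type} [Field k] [Field E] [Algebra k E]
  {ρ σ : E ≃ₐ[k] E} {lam : Eˣ} {g : Fin 3 → Eˣ} {kap a b c : kˣ}

theorem ph3 (hρ3 : ∀ t, ρ (ρ (ρ t)) = t) (hl : ρ lam = lam) (x : AlbL E a b c) :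
    ph ρ lam (ph ρ lam (ph ρ lam x)) = (lam : E) • x := by
  have h3 : ∀ x : OctL E a b c, omap ρ (omap ρ (omap ρ x)) = x := fun x => by
    apply Oct.ext8 <;> exact hρ3 _
  have hli : ρ ((lam⁻¹ : Eˣ) : E) = (lam⁻¹ : Eˣ) := by
    rw [Units.val_inv_eq_inv_val, map_inv₀, hl]
  apply Alb.ext <;> simp only [ph, map_mul, hl, hli, hρ3, d1_smul, d2_smul, d3_smul, x1_smul,
    x2_smul, x3_smul, Units.inv_mul_cancel_left, Units.mul_inv_cancel_left, omap_smul, h3]

theorem no_eigen (hρ3 : ∀ t, ρ (ρ (ρ t)) = t) (hl : ρ lam = lam)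
    (h : ∀ x, x * ρ x * ρ (ρ x) ≠ lam) {x : AlbL E a b c} {t : E} (hx : ph ρ lam x = t • x) :
    x = 0 := by
  have h1 := ph3 hρ3 hl x
  rw [hx, ph_smul, hx, ph_smul, ph_smul, hx, smul_smul, smul_smul, ← sub_eq_zero, ← sub_smul,
    smul_eq_zero] at h1
  exact h1.resolve_left fun e => h t (by linear_combination e)

theorem cross_ph (x y : AlbL E a b c) :
    cross (ph ρ lam x) (ph ρ lam y) = (lam : E) • ph ρ lam⁻¹ (cross x y) := by
  have h0 : (lam : E) ≠ 0 := lam.ne_zero
  rw [ph, ph, ph, inv_inv, Units.val_inv_eq_inv_val]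
  apply Alb.ext
  · simp only [cross, d1_smul, map_sub, map_add, map_mul, bil_smul_left, bil_smul_right, bil_om]
    ring
  · simp only [cross, d2_smul, map_sub, map_add, map_mul, bil_om]
    field_simp
  · simp only [cross, d3_smul, map_sub, map_add, map_mul, bil_om]
    field_simp
  · simp only [cross, x1_smul, omap_sub, omap_add, omap_smul, omap_star, omap_mul, smul_smul]
    have e : ∀ t : E, (lam : E)⁻¹ * t * lam = t := fun t => by field_simp
    rw [mul_inv_cancel₀ h0, one_smul, e, e]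
  · simp only [cross, x2_smul, omap_sub, omap_add, omap_smul, omap_star, omap_mul, mul_smul_comm,
      star_add, star_smul_oct, smul_sub, smul_add, smul_smul]
  · simp only [cross, x3_smul, omap_sub, omap_add, omap_smul, omap_star, omap_mul, smul_mul_assoc,
      star_add, star_smul_oct, smul_sub, smul_add, smul_smul]

theorem her_sp (hg : ∀ i, σ (g i) = g i) (x y z : AlbL E a b c) :
    her σ g (sp σ g x y) z = σ (tf (cross x y) z) := by
  have h : ∀ w : AlbL E a b c, wt g (amap σ w) = amap σ (wt g w) := fun w => by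
    apply Alb.ext <;> simp only [wt, amap, map_mul, map_pow, hg, omap_smul]
  rw [her, sp, h, wt_wt_inv, tf_amap]

theorem sing_zero [NeZero (2 : E)] (hS : IsSextic ρ σ kap) (hg : IsForm ρ σ lam g)
    (hd : Division (up E a) (up E b) (up E c)) {p : AlbL E a b c} (hp : adj p = 0)
    (h : tf (cross p (ph ρ lam p)) (ph ρ lam (ph ρ lam p)) = 0) : p = 0 := by
  have h2 : (2 : E) ≠ 0 := NeZero.ne _
  have s1 : ∀ {x : AlbL E a b c}, adj x = 0 → adj (ph ρ lam x) = 0 := fun {x} hx => by
    have e := cross_ph (ρ := ρ) (lam := lam) x x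
    rw [Alb.cross_self, Alb.cross_self, hx, smul_zero, ← zero_smul E (0 : AlbL E a b c), ph_smul,
      map_zero, zero_smul, smul_zero, smul_eq_zero] at e
    exact e.resolve_left h2
  by_contra h0
  have hl : cross p (ph ρ lam p) ≠ 0 := fun e => by
    obtain ⟨t, ht⟩ := prop_of_cross hd h0 hp (s1 hp) e
    exact h0 (no_eigen hS.ρ3 hg.ρlam hg.hlam ht)
  have h3 := cross_cross (s1 hp) p (ph ρ lam (ph ρ lam p))
  rw [cross_comm _ p, h, zero_smul] at h3
  obtain ⟨t, ht⟩ := prop_of_cross hd hl (by rw [adj_cross_sing hp, s1 hp, tf_zero_right, zero_smul])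
    (by rw [adj_cross_sing (s1 hp), s1 (s1 hp), tf_zero_right, zero_smul]) h3
  rw [cross_ph] at ht
  refine hl (no_eigen (lam := lam⁻¹) (t := (lam : E)⁻¹ * t) hS.ρ3 ?_ (fun x hx => ?_) ?_)
  · rw [Units.val_inv_eq_inv_val, map_inv₀, hg.ρlam]
  · refine hg.hlam x⁻¹ ?_
    rw [map_inv₀, map_inv₀, ← mul_inv, ← mul_inv, hx, Units.val_inv_eq_inv_val, inv_inv]
  · rw [mul_smul, ← ht, smul_smul, inv_mul_cancel₀ lam.ne_zero, one_smul]

/-- **Anisotropy.** -/
theorem aniE [CharZero E] (hS : IsSextic ρ σ kap) (hg : IsForm ρ σ lam g)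
    (hA : Division (up E a) (up E b) (up E c) ∨
      ∀ x : AlbL E a b c, her σ g x x = 0 → x = 0) (v : AlbL E a b c)
    (h1 : her σ g v v = 0) (h2 : her σ g (sp σ g v v) v = 0)
    (h3 : ∀ p, p = v ∨ p = sp σ g v v →
      her σ g (sp σ g p (ph ρ lam p)) (ph ρ lam (ph ρ lam p)) = 0) : v = 0 := by
  rcases hA with hd | hA
  · have k1 : ∀ p, p = v ∨ p = sp σ g v v → adj p = 0 → p = 0 := fun p hp h =>
      sing_zero hS hg hd h (by simpa only [her_sp hg.σg, map_eq_zero] using h3 p hp)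
    rw [her_sp hg.σg, map_eq_zero, Alb.cross_self, tf_smul_left, tf_adj_self] at h2
    have h4 : cub v = 0 := by simpa using h2
    have h5 := k1 _ (Or.inr rfl) (by
      rw [sp, adj_amap, adj_wt, Alb.cross_self, adj_smul, adj_adj, h4, zero_smul, smul_zero,
        wt_zero, smul_zero, amap_zero])
    rw [sp_eq_zero hS.σ2, Alb.cross_self, smul_eq_zero] at h5
    exact k1 v (Or.inl rfl) (h5.resolve_left two_ne_zero)
  · exact hA v h1

end Vale.Agent.P011.E6O.Ani
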