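import Vale.Agent.P011NE.Base
import Vale.Agent.P011.E6.Act

/-!
Scalar matrices of quaternions of norm one.
-/

open NumberField Matrix

namespace Vale.Agent.P011.E6O

open Vale.Agent.P011.MPQ hiding mat
open Vale.Agent.P011.D4 Vale.Agent.P011.D4.Oct Vale.Agent.P011.E6
open Vale.Agent.P011.E6.Alb
open Vale.Agent.P011.E6I (MQ toMQ)

theorem not_le_center {U G : Type} [Group U] [Group G] (Φ : U →* G) {N : Subgroup G} {x y : U}
    (hx : Φ x ∈ N) (h : Φ x * Φ y ≠ Φ y * Φ x) : ¬ N.comap Φ ≤ Subgroup.center U := fun hc =>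
  h (by rw [← map_mul, ← map_mul, Subgroup.mem_center_iff.1 (hc hx) y])

theorem exists_noncomm {k : Type} [Field k] [CharZero k] {a b : kˣ} (hab : Aniso a b) :
    ∃ s t : SL1 a b, s * t ≠ t * s := by
  have h1 : (1 : k) - a ≠ 0 := fun h => by
    have := congrArg QuaternionAlgebra.re (hab ⟨1, 1, 0, 0⟩ (by
      simp only [nrd]
      linear_combination h))
    simp at this
  have h2 : (1 : k) - b ≠ 0 := fun h => by
    have := congrArg QuaternionAlgebra.re (hab ⟨1, 0, 1, 0⟩ (by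
      simp only [nrd]
      linear_combination h))
    simp at this
  have h4 : nrd (⟨(1 + a) / (1 - a), 2 / (1 - a), 0, 0⟩ : Qt a b) = 1 := by
    simp only [nrd]
    field_simp
    ring
  have h5 : nrd (⟨(1 + b) / (1 - b), 0, 2 / (1 - b), 0⟩ : Qt a b) = 1 := by
    simp only [nrd]
    field_simp
    ring
  refine ⟨H24.mkSL _ h4, H24.mkSL _ h5, fun hc => ?_⟩
  have h6 := congrArg (fun x : SL1 a b => ((x : (Qt a b)ˣ) : Qt a b).imK) hc
  simp only [Subgroup.coe_mul, Units.val_mul, H24.coe_mkSL, QuaternionAlgebra.imK_mul] at h6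
  apply mul_ne_zero (two_ne_zero (α := k))
    (mul_ne_zero (div_ne_zero two_ne_zero h1) (div_ne_zero two_ne_zero h2))
  linear_combination h6

variable {k E : Type} [Field k] [Field E] [Algebra k E] {ρ σ : E ≃ₐ[k] E} {lam : Eˣ}
  {g : Fin 3 → Eˣ} {a b c : kˣ}

/-- The scalar matrix of a quaternion. -/
def scU (E : Type) [Field E] [Algebra k E] (q : (Qt a b)ˣ) : (MQ E a b)ˣ :=
  ⟨Matrix.diagonal fun _ => qup E q, Matrix.diagonal fun _ => qup E ((q⁻¹ : (Qt a b)ˣ) : Qt a b),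
    by rw [diagonal_mul_diagonal, ← qup_mul, Units.mul_inv, qup_one, diagonal_one],
    by rw [diagonal_mul_diagonal, ← qup_mul, Units.inv_mul, qup_one, diagonal_one]⟩

theorem scU_map (τ : E ≃ₐ[k] E) (q : (Qt a b)ˣ) :
    (scU E q : MQ E a b).map (qmap τ) = scU E q := by
  change (Matrix.diagonal fun _ => qup E (q : Qt a b)).map (qmap τ) = Matrix.diagonal _
  rw [diagonal_map (qmap_zero τ)]
  simp only [qmap_qup]

theorem inD_scU (q : (Qt a b)ˣ) : InD ρ lam (scU E q : MQ E a b) := by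
  rw [InD, scU_map]
  ext i j : 1
  change ((Matrix.diagonal fun _ => qup E (q : Qt a b)) * _ : MQ E a b) i j =
    (_ * (Matrix.diagonal fun _ => qup E (q : Qt a b)) : MQ E a b) i j
  rw [diagonal_mul, mul_diagonal]
  exact (Algebra.commutes (um lam i j) (qup E (q : Qt a b))).symm

theorem star_SL1 (q : SL1 a b) :
    star ((q : (Qt a b)ˣ) : Qt a b) = (((q : (Qt a b)ˣ)⁻¹ : (Qt a b)ˣ) : Qt a b) := by
  refine Units.eq_inv_of_mul_eq_one_left ?_
  rw [H64.mul_star_qt, q.2]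
  rfl

theorem isUn_scU (q : SL1 a b) : IsUn σ g 1 (scU E q.1 : MQ E a b) := by
  rw [IsUn, scU_map, one_smul]
  change (Matrix.diagonal fun _ => qup E ((q : (Qt a b)ˣ) : Qt a b))ᴴ * Matrix.diagonal _ *
    Matrix.diagonal _ = Matrix.diagonal _
  rw [diagonal_conjTranspose, diagonal_mul_diagonal, diagonal_mul_diagonal]
  congr 1
  funext i
  rw [Pi.star_apply, ← Algebra.commutes, mul_assoc, ← qup_star, ← qup_mul, star_SL1,
    Units.inv_mul, qup_one, mul_one]

theorem nu_scU (q : SL1 a b) : nu (scU E q.1 : MQ E a b) = 1 := by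
  have h : nrd ((q : (Qt a b)ˣ) : Qt a b) = 1 := q.2
  change nu (Matrix.diagonal _) = 1
  rw [nu_diag, nrd_qup, h, map_one, mul_one, mul_one]

theorem act_scU (q : SL1 a b) (x : AlbL E a b c) : act (scU E q) 1 x =
    omapA (fun y => ⟨qup E ((q : (Qt a b)ˣ) : Qt a b) * y.fst *
      qup E (((q : (Qt a b)ˣ)⁻¹ : (Qt a b)ˣ) : Qt a b),
      y.snd * qup E (((q : (Qt a b)ˣ)⁻¹ : (Qt a b)ˣ) : Qt a b)⟩) x := by
  have h1 : ∀ i j, ((scU E q.1 : MQ E a b) * mat x * (scU E q.1 : MQ E a b)ᴴ) i j =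
      qup E ((q : (Qt a b)ˣ) : Qt a b) * mat x i j *
        qup E (((q : (Qt a b)ˣ)⁻¹ : (Qt a b)ˣ) : Qt a b) := by
    intro i j
    change ((Matrix.diagonal fun _ => qup E ((q : (Qt a b)ˣ) : Qt a b)) * mat x *
      (Matrix.diagonal fun _ => qup E ((q : (Qt a b)ˣ) : Qt a b))ᴴ : MQ E a b) i j = _
    rw [diagonal_conjTranspose, mul_diagonal, diagonal_mul, Pi.star_apply, ← qup_star, star_SL1]
  have h2 : ∀ i, Matrix.vecMul (vec x) (((scU E q)⁻¹ : (MQ E a b)ˣ) : MQ E a b) i =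
      vec x i * qup E (((q : (Qt a b)ˣ)⁻¹ : (Qt a b)ˣ) : Qt a b) := fun i =>
    vecMul_diagonal _ _ i
  have h3 : ∀ d : E, (qup E ((q : (Qt a b)ˣ) : Qt a b) * algebraMap E _ d *
      qup E (((q : (Qt a b)ˣ)⁻¹ : (Qt a b)ˣ) : Qt a b)).re = d := by
    intro d
    rw [← Algebra.commutes, mul_assoc, ← qup_mul, Units.mul_inv, qup_one, mul_one]
    rfl
  simp only [act, ofMV, h1, h2, one_mul]
  apply Alb.ext
  · exact h3 _
  · exact h3 _
  · exact h3 _
  · rfl
  · rfl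
  · rfl

theorem isAu_scU (q : SL1 a b) {φ : AlbL E a b c ≃ₗ[E] AlbL E a b c}
    (hφ : ∀ x, φ x = act (scU E q) 1 x) : IsAu φ := by
  refine ⟨long a b c q⁻¹ * conjC c q, fun x => ?_⟩
  have h : ∀ y : Oct a b c, oup E ((long a b c q⁻¹ * conjC c q).1 y) =
      ⟨qup E ((q : (Qt a b)ˣ) : Qt a b) * (oup E y).fst *
        qup E (((q : (Qt a b)ˣ)⁻¹ : (Qt a b)ˣ) : Qt a b),
        (oup E y).snd * qup E (((q : (Qt a b)ˣ)⁻¹ : (Qt a b)ˣ) : Qt a b)⟩ := by
    intro y
    apply Oct.ext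
    · change qup E (_ * y.fst * _) = _
      rw [qup_mul, qup_mul]
      rfl
    · change qup E ((((q : (Qt a b)ˣ)⁻¹ : (Qt a b)ˣ) : Qt a b) * (_ * y.snd * _)) = _
      rw [← mul_assoc, ← mul_assoc, Units.inv_mul, one_mul, qup_mul]
      rfl
  rw [hφ, act_scU]
  simp only [omapA, aup, h]

theorem scU_comm {s t : SL1 a b}
    (h : ∀ x : AlbL E a b c, act (scU E s) 1 (act (scU E t) 1 x) =
      act (scU E t) 1 (act (scU E s) 1 x)) : s * t = t * s := by
  have h1 := congrArg (fun x => x.x1.snd) (h ⟨0, 0, 0, ⟨0, 1⟩, 0, 0⟩)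
  simp only [act_scU, omapA, one_mul, ← qup_mul] at h1
  have h3 := Alb.qup_injective h1
  rw [← _root_.inv_inj, _root_.mul_inv_rev, _root_.mul_inv_rev]
  exact Subtype.ext (Units.ext h3)

/-- A subgroup which contains the automorphisms meets the unitary group noncentrally. -/
theorem BigE.not_le [CharZero k] (hab : Aniso a b) {N : Subgroup (GO ρ σ lam g a b c)}
    (hN : BigE N) {U : Type} [Group U] (Φ : U →* GO ρ σ lam g a b c)
    (h : ∀ m : (MQ E a b)ˣ, InD ρ lam (m : MQ E a b) → IsUn σ g 1 (m : MQ E a b) →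
      nu (m : MQ E a b) = 1 → ∃ u, ∀ x, (Φ u).1 x = act m 1 x) :
    ¬ N.comap Φ ≤ Subgroup.center U := by
  obtain ⟨s, t, hst⟩ := exists_noncomm hab
  obtain ⟨x, hx⟩ := h _ (inD_scU _) (isUn_scU s) (nu_scU s)
  obtain ⟨y, hy⟩ := h _ (inD_scU _) (isUn_scU t) (nu_scU t)
  refine not_le_center Φ (y := y) (hN.2.2 _ (isAu_scU s hx)) fun e => hst (scU_comm (E := E)
    (c := c) fun z => ?_)
  rw [← hx, ← hy, ← hx, ← hy]
  exact congrArg (fun f : GO ρ σ lam g a b c => f.1 z) e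

theorem act_one_omap {F : Type} [Field F] {a b c : Fˣ} (κ : Qt a b) (x : Alb a b c) :
    act 1 κ x = omapA (fun y => ⟨y.fst, κ * y.snd⟩) x := by
  unfold Alb.act
  rw [inv_one, Units.val_one, Matrix.one_mul, conjTranspose_one, Matrix.mul_one, vecMul_one]
  rfl

theorem autO_long [CharZero k] [NumberField E] (t : SL1 a b) (x : AlbL E a b c) :
    (autO ρ σ lam g a b c (long a b c t)).1 x =
      omapA (fun y => ⟨y.fst, qup E ((t : (Qt a b)ˣ) : Qt a b) * y.snd⟩) x := by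
  let u : (Qt (up E a) (up E b))ˣ := ⟨qup E ((t : (Qt a b)ˣ) : Qt a b),
    qup E (((t : (Qt a b)ˣ)⁻¹ : (Qt a b)ˣ) : Qt a b), by rw [← qup_mul, Units.mul_inv, qup_one],
    by rw [← qup_mul, Units.inv_mul, qup_one]⟩
  have h : (autO ρ σ lam g a b c (long a b c t)).1 = H64.actL two_ne_zero 1 u := by
    apply Rl.alb_unique'
    intro x
    have e : ∀ y : Oct a b c, oup E ((long a b c t).1 y) =
        ⟨(oup E y).fst, qup E ((t : (Qt a b)ˣ) : Qt a b) * (oup E y).snd⟩ := fun y =>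
      Oct.ext rfl (qup_mul _ _)
    rw [autO_aup, H64.actL_apply, act_one_omap]
    simp only [omapA, aup, e]
    rfl
  rw [h, H64.actL_apply, act_one_omap]

theorem long_noncomm [CharZero k] [NumberField E] (hab : Aniso a b) : ∃ s t : SL1 a b,
    autO ρ σ lam g a b c (long a b c s) * autO ρ σ lam g a b c (long a b c t) ≠
      autO ρ σ lam g a b c (long a b c t) * autO ρ σ lam g a b c (long a b c s) := by
  obtain ⟨s, t, hst⟩ := exists_noncomm hab
  refine ⟨s, t, fun h => hst ?_⟩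
  rw [← map_mul, ← map_mul, ← map_mul, ← map_mul] at h
  have h1 := congrArg (fun f : GO ρ σ lam g a b c => (f.1 ⟨0, 0, 0, ⟨0, 1⟩, 0, 0⟩).x1.snd) h
  simp only [autO_long, omapA, mul_one] at h1
  exact Subtype.ext (Units.ext (Alb.qup_injective h1))

theorem long_fix [CharZero k] [NumberField E] (t : SL1 a b) (m : (MQ E a b)ˣ)
    (κ : Qt (up E a) (up E b)) (T : Matrix (Fin 3) (Fin 3) E) :
    (autO ρ σ lam g a b c (long a b c t)).1 (act m κ (ofF T)) = act m κ (ofF T) := by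
  have h : vec (ofF T : AlbL E a b c) = 0 := by
    funext i
    fin_cases i <;> exact smul_zero _
  rw [autO_long]
  simp only [act, h, zero_vecMul, Pi.zero_apply, mul_zero, omapA, ofMV]

end Vale.Agent.P011.E6O
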