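import Vale.Agent.P011NM.Defs
import Vale.Agent.P011.H925.Full.DefsA
import Vale.Agent.P011.E6O.H69.Res
import Vale.Agent.P011.E6O.H24.Conj

/-!
The outer groups of type `E₆` with nontrivial Tits class: the intersection of the normal subgroups
which contain the automorphisms of the octonion algebra.
-/

open NumberField Matrix

namespace Vale.Agent.P011.NE

open Vale.Agent.P011.H925.Full

/-- Noncentral normal subgroups of anisotropic special unitary groups have finite index. -/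
def CProp : Prop :=
  ∀ (k K A Ω : Type) [Field k] [Field K] [Algebra k K] [StarRing K] [Ring A] [StarRing A]
    [Algebra k A] [Algebra K A] [IsScalarTower k K A] [StarModule K A] [Field Ω] [Algebra K Ω]
    (n : ℕ) (f : A →ₐ[K] Matrix (Fin n) (Fin n) Ω), NumberField k → Anis k K A n →
    ∀ N : Subgroup (GK f), N.Normal → ¬ N ≤ Subgroup.center _ → N.index ≠ 0

/-- The inputs. -/
def HypE : Prop := NM.Hyp ∧ CProp

end Vale.Agent.P011.NE

namespace Vale.Agent.P011.E6O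

open Vale.Agent.P011.MPQ Vale.Agent.P011.D4 Vale.Agent.P011.D4.Oct Vale.Agent.P011.E6
open Vale.Agent.P011.E6.Alb

section res

variable {k E : Type} [Field k] [Field E] [Algebra k E]

/-- The map is induced by an automorphism of the octonion algebra. -/
def IsAu {a b c : kˣ} (φ : AlbL E a b c ≃ₗ[E] AlbL E a b c) : Prop :=
  ∃ f : AutC a b c, ∀ x : Alb a b c, φ (aup E x) = aup E (Alb.omapA f.1 x)

/-- Normal subgroups which contain the automorphisms of the octonion algebra. -/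
def BigE {ρ σ : E ≃ₐ[k] E} {lam : Eˣ} {γ : Fin 3 → Eˣ} {a b c : kˣ}
    (N : Subgroup (GO ρ σ lam γ a b c)) : Prop :=
  NE.HypE ∧ N.Normal ∧ ∀ φ : GO ρ σ lam γ a b c, IsAu φ.1 → φ ∈ N

/-- The intersection of these subgroups, as a group of linear maps. -/
def Res_m (ρ σ : E ≃ₐ[k] E) (lam : Eˣ) (g : Fin 3 → Eˣ) (a b c : kˣ) :
    Subgroup (AlbL E a b c ≃ₗ[E] AlbL E a b c) :=
  (sInf {N : Subgroup (GO ρ σ lam g a b c) | BigE N}).map (GO ρ σ lam g a b c).subtype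

variable {ρ σ : E ≃ₐ[k] E} {lam : Eˣ} {γ : Fin 3 → Eˣ} {a b c : kˣ}

theorem mem_Res_m {φ : AlbL E a b c ≃ₗ[E] AlbL E a b c} (hφ : φ ∈ GO ρ σ lam γ a b c) :
    φ ∈ Res_m ρ σ lam γ a b c ↔
      ∀ N : Subgroup (GO ρ σ lam γ a b c), BigE N → ⟨φ, hφ⟩ ∈ N := by
  rw [Res_m, Subgroup.mem_map]
  constructor
  · rintro ⟨x, hx, hxφ⟩ N hN
    have h1 : x = ⟨φ, hφ⟩ := Subtype.ext hxφ
    rw [← h1]
    exact Subgroup.mem_sInf.1 hx N hN
  · intro h
    exact ⟨_, Subgroup.mem_sInf.2 h, rfl⟩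

theorem Res_le_m : Res_m ρ σ lam γ a b c ≤ GO ρ σ lam γ a b c := by
  rintro φ ⟨x, -, rfl⟩
  exact x.2

theorem Res_conj_m {φ ψ : AlbL E a b c ≃ₗ[E] AlbL E a b c} (hφ : φ ∈ GO ρ σ lam γ a b c)
    (hψ : ψ ∈ Res_m ρ σ lam γ a b c) : φ * ψ * φ⁻¹ ∈ Res_m ρ σ lam γ a b c := by
  have h1 := Res_le_m hψ
  have h4 : φ * ψ * φ⁻¹ ∈ GO ρ σ lam γ a b c := mul_mem (mul_mem hφ h1) (inv_mem hφ)
  rw [mem_Res_m h4]
  intro N hN
  exact hN.2.1.conj_mem _ ((mem_Res_m h1).1 hψ N hN) ⟨φ, hφ⟩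

end res

section main

variable {k E : Type} [Field k] [NumberField k] [Field E] [NumberField E] [Algebra k E]
  {ρ σ : E ≃ₐ[k] E} {lam : Eˣ} {γ : Fin 3 → Eˣ} {a b c : kˣ}

omit [NumberField k] in
theorem isAu_iff {φ : GO ρ σ lam γ a b c} [NeZero (2 : k)] :
    IsAu φ.1 ↔ ∃ f, autO ρ σ lam γ a b c f = φ := by
  constructor
  · rintro ⟨f, hf⟩
    exact ⟨f, Subtype.ext (Rl.alb_unique' fun x => by rw [hf, autO_aup])⟩
  · rintro ⟨f, rfl⟩
    exact ⟨f, autO_aup f⟩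

theorem BigE.aut {N : Subgroup (GO ρ σ lam γ a b c)} (h : BigE N) (f : AutC a b c) :
    autO ρ σ lam γ a b c f ∈ N := h.2.2 _ (isAu_iff.2 ⟨f, rfl⟩)

theorem aut_Res'_m (_ : Division a b c) (f : AutC a b c) {φ : AlbL E a b c ≃ₗ[E] AlbL E a b c}
    (hφ : ∀ x : Alb a b c, φ (aup E x) = aup E (Alb.omapA f.1 x)) :
    φ ∈ Res_m ρ σ lam γ a b c := by
  have h : φ = (autO ρ σ lam γ a b c f).1 := Rl.alb_unique' fun x => by rw [hφ, autO_aup]
  rw [h, mem_Res_m (autO ρ σ lam γ a b c f).2]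
  exact fun N hN => hN.aut f

omit [NumberField k] [NumberField E] in
theorem conj_Res_m {a' b' c' : kˣ} {Ψ : AlbL E a' b' c' ≃ₗ[E] AlbL E a b c}
    (h : ∀ φ, φ ∈ GO ρ σ lam γ a' b' c' ↔ E6I.conjE Ψ φ ∈ GO ρ σ lam γ a b c)
    (h1 : ∀ φ, IsAu φ ↔ IsAu (E6I.conjE Ψ φ))
    {φ : AlbL E a' b' c' ≃ₗ[E] AlbL E a' b' c'} :
    φ ∈ Res_m ρ σ lam γ a' b' c' ↔ E6I.conjE Ψ φ ∈ Res_m ρ σ lam γ a b c := by
  constructor
  · intro h3
    have h4 := Res_le_m h3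
    rw [mem_Res_m h4] at h3
    rw [mem_Res_m ((h φ).mp h4)]
    intro N hN
    exact h3 (N.comap (conjO h).toMonoidHom) ⟨hN.1, hN.2.1.comap _, fun ψ hψ =>
      hN.2.2 (conjO h ψ) ((h1 _).1 hψ)⟩
  · intro h3
    have h4 := (h φ).mpr (Res_le_m h3)
    rw [mem_Res_m ((h φ).mp h4)] at h3
    rw [mem_Res_m h4]
    intro N hN
    have h5 := h3 (N.comap (conjO h).symm.toMonoidHom) ⟨hN.1, hN.2.1.comap _, fun ψ hψ =>
      hN.2.2 ((conjO h).symm ψ) ((h1 _).2 (by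
        have e : E6I.conjE Ψ ((conjO h).symm ψ).1 = ψ.1 :=
          congrArg Subtype.val ((conjO h).apply_symm_apply ψ)
        rwa [e]))⟩
    have h6 : (conjO h).symm (conjO h ⟨φ, h4⟩) ∈ N := h5
    rwa [MulEquiv.symm_apply_apply] at h6

theorem isAu_trip {a' b' c' : kˣ} {i j l : Oct a b c} (ht : Trip a' b' c' i j l)
    (φ : AlbL E a' b' c' ≃ₗ[E] AlbL E a' b' c') :
    IsAu φ ↔ IsAu (E6I.conjE (tripA E ht) φ) := by
  obtain ⟨Φ, hΦ, hΦm, -, -⟩ := exists_emb ht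
  have e0 : ∀ x : Alb a' b' c', tripA E ht (aup E x) = aup E (Alb.omapA Φ x) := by
    intro x
    rw [tripA_aup]
    simp only [Alb.omapA, hΦ]
  have e1 : ∀ x : Alb a b c, (tripA E ht).symm (aup E x) = aup E (Alb.omapA Φ.symm x) := by
    intro x
    rw [LinearEquiv.symm_apply_eq, e0]
    simp only [Alb.omapA, LinearEquiv.apply_symm_apply]
  have hs : ∀ x y, Φ.symm (x * y) = Φ.symm x * Φ.symm y := by
    intro x y
    apply Φ.injective
    rw [hΦm, LinearEquiv.apply_symm_apply, LinearEquiv.apply_symm_apply,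
      LinearEquiv.apply_symm_apply]
  constructor
  · rintro ⟨f, hf⟩
    refine ⟨⟨(Φ.symm.trans f.1).trans Φ, fun x y => ?_⟩, fun x => ?_⟩
    · change Φ (f.1 (Φ.symm (x * y))) = Φ (f.1 (Φ.symm x)) * Φ (f.1 (Φ.symm y))
      rw [hs, f.2, hΦm]
    · change tripA E ht (φ ((tripA E ht).symm (aup E x))) = _
      rw [e1, hf, e0]
      rfl
  · rintro ⟨f, hf⟩
    refine ⟨⟨(Φ.trans f.1).trans Φ.symm, fun x y => ?_⟩, fun x => ?_⟩
    · change Φ.symm (f.1 (Φ (x * y))) = Φ.symm (f.1 (Φ x)) * Φ.symm (f.1 (Φ y))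
      rw [hΦm, f.2, hs]
    · have h1 := hf (Alb.omapA Φ x)
      change tripA E ht (φ ((tripA E ht).symm (aup E _))) = _ at h1
      rw [← e0, LinearEquiv.symm_apply_apply, ← LinearEquiv.eq_symm_apply, e1] at h1
      rw [h1]
      rfl

/-- Change of the quaternion subalgebra. -/
theorem trip_Res'_m {a' b' c' : kˣ} {i j l : Oct a b c} (ht : Trip a' b' c' i j l)
    {Ψ : AlbL E a' b' c' ≃ₗ[E] AlbL E a b c}
    (hΨ : ∀ x, Ψ x = Alb.omapA (emb (oup E i) (oup E j) (oup E l)) x)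
    {φ : AlbL E a' b' c' ≃ₗ[E] AlbL E a' b' c'} :
    (φ ∈ GO ρ σ lam γ a' b' c' ↔ (Ψ.symm.trans φ).trans Ψ ∈ GO ρ σ lam γ a b c) ∧
      (φ ∈ Res_m ρ σ lam γ a' b' c' ↔ (Ψ.symm.trans φ).trans Ψ ∈ Res_m ρ σ lam γ a b c) := by
  obtain rfl : Ψ = tripA E ht := by
    apply LinearEquiv.ext
    intro x
    rw [hΨ, tripA_apply]
  obtain ⟨h1, h2, h3⟩ := trip_str (ρ := ρ) (σ := σ) (lam := lam) (γ := γ) ht
  exact ⟨conj_mem_GO h1 h2 h3 φ, conj_Res_m (conj_mem_GO h1 h2 h3) (isAu_trip ht)⟩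

end main

end Vale.Agent.P011.E6O
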