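import Vale.Agent.P011NM.D4c
import Vale.Agent.P011.E6W.H684.Gs
import Vale.Agent.P011.E6W.H684.GsTop
import Vale.Agent.P011.E6W.H7.TiAll
import Vale.Agent.P011.E6W.H7.Kl5
import Vale.Agent.P011.E6W.H7.Kl6
import Vale.Agent.P011.E6W.H7.Kl7
import Vale.Agent.P011.E6W.H684.PDefs
import Vale.Agent.P011.E6W.H196.KTd
import Vale.Agent.P011.E6W.H196.KTe
import Vale.Agent.P011.E6W.H196.KTg
import Vale.Agent.P011.E6W.H196.KTh

/-!
The stabilizers of the frames, for noncentral normal subgroups.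
-/

set_option linter.unusedSectionVars false

section

open Vale.Agent.P011.MPQ Vale.Agent.P011.D4 Vale.Agent.P011.D4.Oct Vale.Agent.P011.D4.H24
  Vale.Agent.P011.D4X Vale.Agent.P011.D4Y Vale.Agent.P011.E6 Vale.Agent.P011.D4X.H62

set_option linter.unusedSectionVars false

namespace Vale.Agent.P011.E6W.H684

section main

variable {k L M E1 O : Type} [Field k] [Field L] [Field M] [Field E1] [Field O] [Algebra k L]
  [Algebra k M] [Algebra L M] [Algebra k E1] [Algebra L E1] [Algebra k O] [Algebra L O]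
  [Algebra M O] [Algebra E1 O] [IsScalarTower k L M] [IsScalarTower k L E1]
  [IsScalarTower k M O] [IsScalarTower k E1 O] [IsScalarTower L M O] [IsScalarTower L E1 O]
  {a b c : kˣ}

variable {ρ σ ι : M ≃ₐ[k] M} {ρ1 σ1 ι1 : E1 ≃ₐ[k] E1} {ρ' σ' τ' ι' : O ≃ₐ[k] O} {α1 : E1}
  {q : Lˣ} {S : Qt (up M a) (up M b)} {t : M} {u : OctL O a b c ≃ₗ[O] OctL O a b c}

/-- The groups have no proper subgroups of finite index at the same time. -/
theorem KG.top_m (h : KG ρ σ ι ρ1 σ1 ι1 ρ' σ' τ' ι' α1 q S t u)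
    (htop : ∀ N : Subgroup (GTI ρ1 σ1 ι1 α1 a b c q), NM.Big N → N = ⊤)
    (N : Subgroup (GS ρ σ ι c S t)) (hN : NM.Big N) : N = ⊤ := by
  choose g hg hg' using fun y : GTI ρ1 σ1 ι1 α1 a b c q => h.exists_z y.2
  have huniq : ∀ {y : OctL E1 a b c ≃ₗ[E1] OctL E1 a b c}
      {z z' : OctL M a b c ≃ₗ[M] OctL M a b c}, Rel u z y → Rel u z' y → z = z' :=
    fun h1 h2 => h1.symm.unique h2.symm
  let Λ : GTI ρ1 σ1 ι1 α1 a b c q →* GS ρ σ ι c S t :=
    MonoidHom.mk' (fun y => ⟨g y, hg y⟩) (fun y y' => Subtype.ext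
      (huniq (hg' (y * y')) ((hg' y).mul (hg' y'))))
  have hΛ : Function.Surjective Λ := fun z => by
    obtain ⟨y, hy, h1⟩ := h.exists_y z.2
    exact ⟨⟨y, hy⟩, Subtype.ext (huniq (hg' ⟨y, hy⟩) h1)⟩
  have h1 : N.comap Λ = ⊤ := htop _ (hN.comap_surj _ hΛ)
  rw [eq_top_iff]
  intro z _
  obtain ⟨y, rfl⟩ := hΛ z
  have h2 : y ∈ N.comap Λ := h1 ▸ Subgroup.mem_top y
  exact h2

end main

end Vale.Agent.P011.E6W.H684

end

section

open NumberField

namespace Vale.Agent.P011.E6W.H684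

open Vale.Agent.P011.MPQ Vale.Agent.P011.D4 Vale.Agent.P011.D4.Oct Vale.Agent.P011.E6

open Vale.Agent.P011.D4X Vale.Agent.P011.D4Y Vale.Agent.P011.D4X.H62

/-- The trialitarian groups of noncyclic cubic extensions have no proper subgroup of finite
index. -/
def TIAll_m (k L : Type) [Field k] [NumberField k] [Field L] [NumberField L] [Algebra k L] : Prop :=
  ∀ (E : Type) [Field E] [NumberField E] [Algebra k E] [Algebra L E] [IsScalarTower k L E]
    (ρ σ ι : E ≃ₐ[k] E) (α : E) (a b c : kˣ) (q : Lˣ), HyI ρ σ ι α a b c q →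
    (∀ τ : k →+* ℝ, τ a < 0 → τ b < 0 ∧ τ c < 0) →
    ∀ N : Subgroup (GTI ρ σ ι α a b c q), NM.Big N → N = ⊤

section main

variable {k L M : Type} [Field k] [NumberField k] [Field L] [NumberField L] [Field M]
  [NumberField M] [Algebra k L] [Algebra k M] [Algebra L M] [IsScalarTower k L M]
  {ρ σ ι : M ≃ₐ[k] M} {a b c : kˣ} {s0 s1 : M} {n : kˣ} {Φ : Lˣ}

/-- **The group `GS` has no proper subgroup of finite index.** -/
theorem gs_top_m (hTI : TIAll_m k L) (H : MH (L := L) ρ σ ι) (hdiv : Division a b c)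
    (hdef : ∀ τ : k →+* ℝ, τ a < 0 → τ b < 0 ∧ τ c < 0)
    (ha : ∀ x : M, x * x ≠ algebraMap k M a) (hS : SD ρ σ ι a b s0 s1 n Φ)
    (hcp : ∃ τ : k →+* ℝ, τ a < 0 ∧ ∀ w : L →+* ℝ, w.comp (algebraMap k L) = τ → 0 < w (Φ : L))
    (N : Subgroup (GS ρ σ ι c (qS a b s0 s1) (algebraMap k M n / ρ (algebraMap L M Φ))))
    (hN : NM.Big N) : N = ⊤ := by
  have h2M : NeZero (2 : M) := ⟨two_ne_zero⟩
  obtain ⟨E1, O, _, _, _, _, _, _, _, _, _, _, _, _, _, _, _, _, ρ1, σ1, ι1, α1, ρ', σ', τ', ι',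
    T⟩ := exists_tow (L := L) H ha
  have h2O : NeZero (2 : O) := ⟨two_ne_zero⟩
  have hMO : Function.Injective (algebraMap M O) := (algebraMap M O).injective
  -- the data over `O`
  obtain ⟨α, hα⟩ : ∃ α : O, α = algebraMap E1 O α1 := ⟨_, rfl⟩
  obtain ⟨φ, hφ⟩ : ∃ φ : O, φ = algebraMap M O s0 + algebraMap M O s1 * α := ⟨_, rfl⟩
  obtain ⟨φ', hφ'⟩ : ∃ φ' : O, φ' = algebraMap M O s0 - algebraMap M O s1 * α := ⟨_, rfl⟩
  obtain ⟨n', hn'⟩ : ∃ n' : O, n' = algebraMap k O n := ⟨_, rfl⟩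
  have hαα : α * α = algebraMap k O a := by
    rw [hα, ← map_mul, T.α12, ← IsScalarTower.algebraMap_apply k E1 O]
  have hkO : ∀ x : k, algebraMap k O x = algebraMap M O (algebraMap k M x) := fun x =>
    IsScalarTower.algebraMap_apply k M O x
  have hρα : ρ' α = α := by rw [hα, T.ρE1, T.ρα1]
  have hσα : σ' α = α := by rw [hα, T.σE1]
  have hτα : τ' α = -α := by rw [hα, T.τE1, T.σα1, map_neg]
  have hια : ι' α = α := by rw [hα, T.ιE1, T.ια1]
  have hT : HT ρ' σ' τ' ι' a α φ φ' n' :=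
    { al := hαα
      ρα := hρα
      σα := hσα
      τα := hτα
      ια := hια
      ρ3 := T.ρ3
      ι2 := T.ι2
      τ2 := T.τ2
      σ2 := T.σ2
      σρ := T.σρ
      τρ := T.τρ
      στ := T.στ
      ιρ := T.ιρ
      ισ := T.ισ
      ιτ := T.ιτ
      σφ := by rw [hφ, hφ', map_add, map_mul, T.σE, T.σE, hσα, hS.σ0, hS.σ1, map_neg]; ring
      τφ := by rw [hφ, hφ', map_add, map_mul, T.τE, T.τE, hτα]; ring
      ιφ := by
        rw [hφ, map_add, map_mul, T.ιE, T.ιE, hια, hS.ι0, hS.ι1, map_add, map_add, map_mul,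
          map_mul, T.ρE, T.ρE, T.ρE, T.ρE, hρα, hρα]
      N := by
        have h1 := congrArg (algebraMap M O) hS.re
        have h2 := congrArg (algebraMap M O) hS.im
        simp only [map_add, map_mul, map_zero, ← hkO, ← hαα] at h1 h2
        rw [hφ, hn', map_add, map_mul, map_add, map_mul, T.ρE, T.ρE, T.ρE, T.ρE, hρα, hρα]
        linear_combination h1 + α * h2
      ρn := by rw [hn', AlgEquiv.commutes]
      σn := by rw [hn', AlgEquiv.commutes]
      τn := by rw [hn', AlgEquiv.commutes]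
      ιn := by rw [hn', AlgEquiv.commutes]
      n0 := by
        rw [hn']
        exact (map_ne_zero _).2 n.ne_zero }
  have hΦ : algebraMap L O Φ = φ * φ' := by
    rw [IsScalarTower.algebraMap_apply L M O, hS.Φ, hφ, hφ', map_sub, map_mul, map_pow, map_pow,
      ← hkO, ← hαα]
    ring
  -- the parameter
  let q : Lˣ := (up L n) ^ 2 / Φ ^ 3
  have hq : algebraMap L O (q : L) = n' ^ 2 / (φ * φ') ^ 3 := by
    change algebraMap L O (((up L n) ^ 2 / Φ ^ 3 : Lˣ) : L) = _
    rw [Units.val_div_eq_div_val, Units.val_pow_eq_pow_val, Units.val_pow_eq_pow_val, map_div₀,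
      map_pow, map_pow, hΦ, hn']
    congr 2
    exact (IsScalarTower.algebraMap_apply k L O _).symm
  have e1 := hT.φ0
  have e2 := hT.φ0'
  have e3 := hT.n0
  have hq1 : gam φ φ' n' * τ' (gam φ φ' n') * algebraMap L O (q : L) = 1 := by
    rw [hT.τ_gam, hq, gam]
    field_simp
  have hqE : algebraMap L E1 (q : L) * ρ1 (algebraMap L E1 (q : L)) *
      ρ1 (ρ1 (algebraMap L E1 (q : L))) = 1 := by
    apply (algebraMap E1 O).injective
    rw [map_mul, map_mul, ← T.ρE1, ← T.ρE1, ← T.ρE1, ← IsScalarTower.algebraMap_apply L E1 O, hq,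
      map_one]
    simp only [map_div₀, map_pow, map_mul, hT.ρn]
    have e4 : ρ' φ ≠ 0 := (map_ne_zero ρ').2 e1
    have e5 : ρ' φ' ≠ 0 := (map_ne_zero ρ').2 e2
    have e6 : ρ' (ρ' φ) ≠ 0 := (map_ne_zero ρ').2 e4
    have e7 : ρ' (ρ' φ') ≠ 0 := (map_ne_zero ρ').2 e5
    have h1 := hT.N
    have h2 := hT.N'
    have h3 : (φ * ρ' φ * ρ' (ρ' φ)) ^ 3 * (φ' * ρ' φ' * ρ' (ρ' φ')) ^ 3 = n' ^ 6 := by
      rw [h1, h2]; ring
    field_simp
    linear_combination -h3
  have hH1 : HyI ρ1 σ1 ι1 α1 a b c q :=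
    { h3 := H.h3
      ρL := T.ρ1L
      ρ3 := T.ρ13
      σ2 := T.σ12
      ι2 := T.ι12
      comm := T.comm1
      σι := T.σι1
      ιρ := T.ιρ1
      σL := T.σ1L
      ιL := T.ι1L
      fixL := T.fixL1
      fixk := T.fixk1
      α2 := T.α12
      ρα := T.ρα1
      σα := T.σα1
      ια := T.ια1
      hq := hqE
      hdiv := hdiv
      hcp := by
        obtain ⟨τ, h1, h2⟩ := hcp
        refine ⟨τ, h1, fun w hw => ?_⟩
        have h3 := h2 w hw
        have h4 : w (q : L) = w (algebraMap k L n) ^ 2 / w (Φ : L) ^ 3 := by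
          change w (((up L n) ^ 2 / Φ ^ 3 : Lˣ) : L) = _
          rw [Units.val_div_eq_div_val, Units.val_pow_eq_pow_val, Units.val_pow_eq_pow_val,
            map_div₀, map_pow, map_pow]
          rfl
        have h5 : w (algebraMap k L n) ≠ 0 :=
          (map_ne_zero w).2 ((map_ne_zero _).2 n.ne_zero)
        rw [h4]
        positivity
      hre := fun τ h1 _ => hdef τ h1 }
  have hg := hT.gam_ne
  have hg1 := hT.ρgam_ne
  have hKG : KG ρ σ ι ρ1 σ1 ι1 ρ' σ' τ' ι' α1 q (qS a b s0 s1)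
      (algebraMap k M n / ρ (algebraMap L M Φ))
      (zE (a := a) (b := b) (c := c) ρ' (mq a b α (gam φ φ' n')) 1 (ρ' (gam φ φ' n'))⁻¹
        (by rw [nrd_mq hT.al]; exact hg) (by rw [nrd_one]; exact one_ne_zero)
        (inv_ne_zero hg1)) :=
    { hρ := T.ρE
      hσ := T.σE
      hτ := T.τE
      hι := T.ιE
      fτ := T.fixτ
      hρ1 := T.ρE1
      hσ1 := T.σE1
      hτ1 := T.τE1
      hι1 := T.ιE1
      fσ := T.fixσ
      hu := ⟨_, hg1, fun x y => hT.tri x y⟩
      hJ := by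
        refine ⟨_, mul_ne_zero e2 ((map_ne_zero ρ').2 ((map_ne_zero ρ').2 e2)), fun x => ?_⟩
        have h1 : qin O (qS a b s0 s1) = mk4 (up O a) (up O b) α φ φ' 0 0 := by
          have hα0 : α ≠ 0 := al_ne (a := up O a) hαα
          apply QuaternionAlgebra.ext
          · change algebraMap M O s0 = (φ + φ') / 2
            rw [hφ, hφ']
            field_simp
            ring
          · change algebraMap M O s1 = (φ - φ') / (2 * α)
            rw [hφ, hφ']
            field_simp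
            ring
          · change algebraMap M O 0 = (0 + 0) / 2
            simp
          · change algebraMap M O 0 = (0 - 0) / (2 * α)
            simp
        have h2 : algebraMap M O (algebraMap k M n / ρ (algebraMap L M Φ)) =
            n' / ρ' (φ * φ') := by
          rw [map_div₀, ← T.ρE, ← IsScalarTower.algebraMap_apply L M O, hΦ, hn', ← hkO]
        rw [h1, h2]
        exact hT.hJS x
      hJ1 := by
        have hq0 : algebraMap L O (q : L) ≠ 0 := (map_ne_zero _).2 q.ne_zero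
        refine ⟨_, div_ne_zero hg1 hq0, fun x => ?_⟩
        rw [← hα]
        exact hT.hJq hq1 x
      hI := ⟨1, one_ne_zero, fun x => by
        rw [one_smul]
        exact hT.Im x⟩ }
  exact hKG.top_m (hTI E1 ρ1 σ1 ι1 α1 a b c q hH1 hdef) N hN

end main

end Vale.Agent.P011.E6W.H684

end

section

open NumberField

namespace Vale.Agent.P011.E6W.H7

open Vale.Agent.P011.MPQ Vale.Agent.P011.D4 Vale.Agent.P011.D4.Oct Vale.Agent.P011.D4W
  Vale.Agent.P011.D4W.H7

/-- The trialitarian groups of noncyclic cubic extensions have no proper subgroup of finite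
index. -/
theorem tiAll_m (k L : Type) [Field k] [NumberField k] [Field L] [NumberField L] [Algebra k L] :
    H684.TIAll_m k L := by
  intro E _ _ _ _ _ ρ σ ι α a b c q H hdef N hN
  have h2 : NeZero (2 : E) := ⟨two_ne_zero⟩
  have hS : ShortAll_m k L := shortAll_m k L
  have hT : LeAll_m k L := le_of_swap_m (H619.leSwap_m hS)
  refine eq_top_iff.2 fun x _ => D4H.mem_of_RsI_m hN ?_
  exact gt_topI_m H hdef hS
    (open_top_of_m hS H fun h _ hz hp => hT E ρ σ ι α a b c q H hdef h hz hp) x.2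

end Vale.Agent.P011.E6W.H7

end

section

open Matrix

namespace Vale.Agent.P011.E6W.H7

open Vale.Agent.P011.MPQ Vale.Agent.P011.D4 Vale.Agent.P011.D4.Oct Vale.Agent.P011.E6 Alb
  Vale.Agent.P011.E6I Vale.Agent.P011.E6I.H68 Vale.Agent.P011.D4X.H62 Vale.Agent.P011.E6W.H684

set_option linter.unusedSectionVars false

variable {k K M : Type} [Field k] [Field K] [Field M] [Algebra k K] [Algebra K M] [Algebra k M]
  [IsScalarTower k K M] {a b c : kˣ}

variable {f fi : M ≃ₐ[K] M} {ρ σ ι : M ≃ₐ[k] M} {s : K ≃ₐ[k] K} {p0 p1 p2 n : k}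
  {x : Fin 3 → M} {A B : Matrix (Fin 3) (Fin 3) k} {th : K}
  {m : (Matrix (Fin 3) (Fin 3) (Qt (up K a) (up K b)))ˣ} {Φ : M}

/-- The group over `K` is a quotient of the group `GS`. -/
theorem KL.top_m {E : Type} [Field E] [Algebra K E] [Algebra E M] [CharZero K]
    (h : KL f fi ρ σ ι s p0 p1 p2 x A B th a b m Φ) (hU : SetU K E M f {fi})
    (htop : ∀ N : Subgroup (GS ρ σ ι c (phi A B (algebraMap K M th) a b x 1)
      (algebraMap k M n / ρ Φ)), NM.Big N → N = ⊤)
    (N : Subgroup (GK s p0 p1 p2 c m n)) (hN : NM.Big N) : N = ⊤ := by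
  have hcM : CharZero M := charZero_of_injective_algebraMap (algebraMap K M).injective
  have h2 : NeZero (2 : M) := ⟨two_ne_zero⟩
  have h3 := hU.r3
  have hV := det_ne h.hx
  have hinj := Ph'_injective (K := K) (a := a) (b := b) (c := c) hV
  have hρ : ∀ t, ρ (ρ (ρ t)) = t := fun t => by rw [h.hf, h.hf, h.hf, h3]
  have key1 : ∀ T ∈ GS ρ σ ι c (phi A B (algebraMap K M th) a b x 1) (algebraMap k M n / ρ Φ),
      ∃ g ∈ GK s p0 p1 p2 c m n, ∀ X, Ph' x (g X) = hat ρ T (Ph' x X) := by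
    rintro T ⟨t1, t2, t3⟩
    obtain ⟨T', rfl⟩ := (cT (M := M) K).surjective T
    obtain ⟨g, hg, hgX⟩ := exists_g hU h.hx ((cT_mem h.hf h.hfi T').2 ⟨t1, t3⟩)
    have hg' : ∀ X, Ph' x (g X) = hat ρ (cT K T') (Ph' x X) := fun X => by
      rw [← ac_Ph, hgX, ac_hat h.hf, ac_Ph]
    exact ⟨g, ⟨hg, (h.comm_iff h3 hg').2 t2⟩, hg'⟩
  have key2 : ∀ g ∈ GK s p0 p1 p2 c m n, ∃ T ∈ GS ρ σ ι c (phi A B (algebraMap K M th) a b x 1)
      (algebraMap k M n / ρ Φ), ∀ X, Ph' x (g X) = hat ρ T (Ph' x X) := by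
    rintro g ⟨g1, g2⟩
    obtain ⟨T', hT', hgX⟩ := exists_T hU h.hx g1
    have hg' : ∀ X, Ph' x (g X) = hat ρ (cT K T') (Ph' x X) := fun X => by
      rw [← ac_Ph, hgX, ac_hat h.hf, ac_Ph]
    obtain ⟨t1, t3⟩ := (cT_mem h.hf h.hfi T').1 hT'
    exact ⟨cT K T', ⟨t1, (h.comm_iff h3 hg').1 g2, t3⟩, hg'⟩
  choose F hF hF' using fun T : GS ρ σ ι c (phi A B (algebraMap K M th) a b x 1)
    (algebraMap k M n / ρ Φ) => key1 T.1 T.2
  have huniq : ∀ (g g' : GK s p0 p1 p2 c m n), (∀ X, Ph' x (g.1 X) = Ph' x (g'.1 X)) → g = g' :=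
    fun g g' h => Subtype.ext (LinearEquiv.ext fun X => hinj (h X))
  let Λ : GS ρ σ ι c (phi A B (algebraMap K M th) a b x 1) (algebraMap k M n / ρ Φ) →*
      GK s p0 p1 p2 c m n :=
    { toFun := fun T => ⟨F T, hF T⟩
      map_one' := huniq _ _ fun X => by
        change Ph' x (F 1 X) = Ph' x X
        rw [hF']
        exact hat_one hρ _
      map_mul' := fun T T' => huniq _ _ fun X => by
        change Ph' x (F (T * T') X) = Ph' x (F T (F T' X))
        rw [hF', hF', hF']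
        exact hat_mul hρ _ _ _ }
  have hΛ : Function.Surjective Λ := fun g => by
    obtain ⟨T, hT, hg⟩ := key2 g.1 g.2
    refine ⟨⟨T, hT⟩, huniq _ _ fun X => ?_⟩
    rw [hg]
    exact hF' ⟨T, hT⟩ X
  have h1 : N.comap Λ = ⊤ := htop _ (hN.comap_surj _ hΛ)
  rw [eq_top_iff]
  intro g _
  obtain ⟨T, rfl⟩ := hΛ g
  have h2 : T ∈ N.comap Λ := h1 ▸ Subgroup.mem_top T
  exact h2

end Vale.Agent.P011.E6W.H7

end

section

open Matrix NumberField

namespace Vale.Agent.P011.E6W.H7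

open Vale.Agent.P011.MPQ Vale.Agent.P011.D4 Vale.Agent.P011.D4.Oct Vale.Agent.P011.E6 Alb
  Vale.Agent.P011.E6I Vale.Agent.P011.E6I.H68 Vale.Agent.P011.D4X.H62 Vale.Agent.P011.E6W.H684

section top

variable {k K L M : Type} [Field k] [NumberField k] [Field K] [Field L] [NumberField L] [Field M]
  [NumberField M] [Algebra k K] [Algebra K M] [Algebra k M] [Algebra k L] [Algebra L M]
  [IsScalarTower k K M] [IsScalarTower k L M] {a b c : kˣ}

/-- **The group over `K`** has no proper subgroup of finite index, given the Galois closure. -/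
theorem gk_top_of_m {E : Type} [Field E] [Algebra K E] [Algebra E M] {ρ σ ι : M ≃ₐ[k] M}
    {f fi : M ≃ₐ[K] M} (hTI : TIAll_m k L) (H : MH (L := L) ρ σ ι) (hf : ∀ t, ρ t = f t) (hfi : ∀ t, ι t = fi t)
    (hU : SetU K E M f {fi}) {s : K ≃ₐ[k] K} {th : K} {kap : k}
    (hth : th * th = algebraMap k K kap) (hsth : s th = -th)
    (hs : ∀ t : K, σ (algebraMap K M t) = algebraMap K M (s t)) {p0 p1 p2 : k} {x : Fin 3 → M}
    (hx : Cjg f {fi} (algebraMap k K p0) (algebraMap k K p1) (algebraMap k K p2) x)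
    (hxσ : ∀ i, σ (x i) = x i) {y : L} (hy : x 1 = algebraMap L M y)
    (ha : ∀ z : M, z * z ≠ algebraMap k M a) (hdiv : Division a b c)
    (hdef : ∀ τ : k →+* ℝ, τ a < 0 → τ b < 0 ∧ τ c < 0)
    (hcp : ∃ τ : k →+* ℝ, τ a < 0 ∧ 0 < τ kap) {A B : Matrix (Fin 3) (Fin 3) k}
    (hA : Mp p0 p1 p2 * A = A * Mp p0 p1 p2) (hB : Mp p0 p1 p2 * B = B * Mp p0 p1 p2) {n : kˣ}
    (hN1 : A.det + kap * a * (A * B.adjugate).trace = n)
    (hN2 : (A.adjugate * B).trace + kap * a * B.det = 0)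
    {m : (Matrix (Fin 3) (Fin 3) (Qt (up K a) (up K b)))ˣ}
    (hm : ∀ i j, (m : Matrix (Fin 3) (Fin 3) (Qt (up K a) (up K b))) i j =
      ⟨algebraMap k K (A i j), th * algebraMap k K (B i j), 0, 0⟩)
    (N : Subgroup (GK s p0 p1 p2 c m (n : k))) (hN : NM.Big N) : N = ⊤ := by
  obtain ⟨θ, hθ⟩ : ∃ θ, θ = algebraMap K M th := ⟨_, rfl⟩
  have hρθ : ρ θ = θ := by rw [hθ, hf, f.commutes]
  have hιθ : ι θ = θ := by rw [hθ, hfi, fi.commutes]
  have hσθ : σ θ = -θ := by rw [hθ, hs, hsth, map_neg]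
  have hθθ : θ * θ = algebraMap k M kap := by
    rw [hθ, ← map_mul, hth, ← IsScalarTower.algebraMap_apply k K M]
  have h10 : ρ (x 1) = x 0 := by rw [hf, hx.r1]
  have h02 : ρ (x 0) = x 2 := by rw [hf, hx.r0]
  have hι1 : ι (x 1) = x 2 := by rw [hfi, hx.i1 fi rfl]
  -- the element of `L`
  obtain ⟨Φ, hΦ⟩ : ∃ Φ : L, Φ = ev A y ^ 2 - algebraMap k L (a * kap) * ev B y ^ 2 := ⟨_, rfl⟩
  have hev : ∀ A : Matrix (Fin 3) (Fin 3) k, algebraMap L M (ev A y) = ev A (x 1) := fun A => by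
    rw [hy]
    simp only [ev, map_add, map_mul, map_pow, ← IsScalarTower.algebraMap_apply k L M]
  have hΦM : algebraMap L M Φ =
      ev A (x 1) ^ 2 - algebraMap k M a * (θ * ev B (x 1)) ^ 2 := by
    rw [hΦ, map_sub, map_mul, map_pow, map_pow, hev, hev,
      ← IsScalarTower.algebraMap_apply k L M, map_mul]
    linear_combination (algebraMap k M a * ev B (x 1) ^ 2) * hθθ
  have hΦn : algebraMap L M Φ = nrd (phi A B (algebraMap K M th) a b x 1) := by
    rw [hΦM, hθ]
    simp only [nrd, phi, up]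
    change _ = _ ^ 2 - algebraMap k M a * _ ^ 2 - algebraMap k M b * (0 : M) ^ 2 +
      algebraMap k M a * algebraMap k M b * (0 : M) ^ 2
    ring
  have hKL : KL f fi ρ σ ι s p0 p1 p2 x A B th a b m (algebraMap L M Φ) :=
    { hf := hf
      hfi := hfi
      hs := hs
      comm := H.comm
      hx := hx
      hxσ := hxσ
      hA := hA
      hB := hB
      hm := hm
      hΦ := hΦn }
  have hV := det_ne hx
  have hW := Wu_val hV (inter (a := a) (b := b) hA hB hm hKL.root)
  have hΦ0 : Φ ≠ 0 := by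
    rintro h0
    refine nrd_ne_of_diag hW 1 ?_
    rw [← hΦn, h0, map_zero]
  have hcK : CharZero K := charZero_of_injective_algebraMap (algebraMap k K).injective
  refine hKL.top_m hU (fun N' hN' => ?_) N hN
  have hS : SD (L := L) ρ σ ι a b (ev A (x 1)) (θ * ev B (x 1)) n (Units.mk0 Φ hΦ0) :=
    { σ0 := by rw [map_ev, hxσ]
      ι0 := by rw [map_ev, map_ev, map_ev, hι1, h10, h02]
      σ1 := by rw [map_mul, hσθ, map_ev, hxσ, neg_mul]
      ι1 := by rw [map_mul, map_mul, map_mul, hιθ, hρθ, hρθ, map_ev, map_ev, map_ev, hι1, h10, h02]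
      N := by
        have e1 : qS a b (ev A (x 1)) (θ * ev B (x 1)) = phi A B θ a b x 1 := rfl
        rw [e1, qmap_phi hρθ h10, qmap_phi hρθ h02]
        have d1 := det_eq hA hKL.root hV
        have d2 := det_eq hB hKL.root hV
        have d3 := trace_adj hA hB hKL.root hV
        have d4 := trace_adj hB hA hKL.root hV
        have n1 := congrArg (algebraMap k M) hN1
        have n2 := congrArg (algebraMap k M) hN2
        rw [trace_mul_comm] at n2
        simp only [map_add, map_mul, map_zero, d1, d2, d3, d4, ← hθθ] at n1 n2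
        apply QuaternionAlgebra.ext
        · rw [phi, phi, phi, re_mul3]
          change _ = algebraMap k M n * 1
          rw [← n1]
          change _ + algebraMap k M a * _ = _
          ring
        · rw [phi, phi, phi, imI_mul3]
          change _ + algebraMap k M a * _ = algebraMap k M n * 0
          linear_combination θ * n2
        · exact (imJ_mul3 _ _ _ _ _ _).trans (mul_zero _).symm
        · exact (imK_mul3 _ _ _ _ _ _).trans (mul_zero _).symm
      Φ := hΦM }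
  subst hθ
  refine gs_top_m hTI H hdiv hdef ha hS ?_ N' hN'
  obtain ⟨τ, h1, h2⟩ := hcp
  refine ⟨τ, h1, fun w hw => ?_⟩
  have h3 : w Φ = w (ev A y) ^ 2 + (-τ a) * τ kap * w (ev B y) ^ 2 := by
    have h4 : w (algebraMap k L (a * kap)) = τ a * τ kap := by
      rw [← map_mul, ← hw]
      rfl
    rw [hΦ, map_sub, map_mul, map_pow, map_pow, h4]
    ring
  have h5 : 0 ≤ w Φ := by
    rw [h3]
    have h6 : 0 ≤ (-τ a) * τ kap := mul_nonneg (by linarith) h2.le
    positivity
  exact lt_of_le_of_ne h5 fun h6 => hΦ0 ((map_eq_zero w).1 h6.symm)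

end top

end Vale.Agent.P011.E6W.H7

end

section

open Matrix NumberField Polynomial

namespace Vale.Agent.P011.E6W.H7

open Vale.Agent.P011.MPQ Vale.Agent.P011.D4 Vale.Agent.P011.D4.Oct Vale.Agent.P011.E6 Alb
  Vale.Agent.P011.E6I Vale.Agent.P011.E6I.H68 Vale.Agent.P011.D4X.H62 Vale.Agent.P011.E6W.H684
  Vale.Agent.P011.E6W.H196

/-- **The fixer of a frame** in the group of type `²E₆`, over the quadratic extension, has no
proper subgroup of finite index. -/
theorem gk_top_m {k K : Type} [Field k] [NumberField k] [Field K] [NumberField K] [Algebra k K]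
    (hTI : ∀ (L : Type) [Field L] [NumberField L] [Algebra k L], TIAll_m k L)
    {s : K ≃ₐ[k] K} {th : K} {kap : k} (h2 : Module.finrank k K = 2)
    (hth : th * th = algebraMap k K kap) (hsth : s th = -th) {p0 p1 p2 : k}
    (hirr : Irreducible (X ^ 3 + C p2 * X ^ 2 + C p1 * X + C p0 : k[X]))
    (hd : ¬ IsSquare (dsc3 p0 p1 p2)) (hdk : ¬ IsSquare (dsc3 p0 p1 p2 * kap)) {a b c : kˣ}
    (ha1 : ¬ IsSquare (a : k)) (ha2 : ¬ IsSquare ((a : k) * kap))
    (ha3 : ¬ IsSquare ((a : k) * dsc3 p0 p1 p2))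
    (ha4 : ¬ IsSquare ((a : k) * kap * dsc3 p0 p1 p2)) (hdiv : Division a b c)
    (hdef : ∀ τ : k →+* ℝ, τ a < 0 → τ b < 0 ∧ τ c < 0)
    (hcp : ∃ τ : k →+* ℝ, τ a < 0 ∧ 0 < τ kap) {A B : Matrix (Fin 3) (Fin 3) k}
    (hA : Mp p0 p1 p2 * A = A * Mp p0 p1 p2) (hB : Mp p0 p1 p2 * B = B * Mp p0 p1 p2) {n : kˣ}
    (hN1 : A.det + kap * a * (A * B.adjugate).trace = n)
    (hN2 : (A.adjugate * B).trace + kap * a * B.det = 0)
    {m : (Matrix (Fin 3) (Fin 3) (Qt (up K a) (up K b)))ˣ}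
    (hm : ∀ i j, (m : Matrix (Fin 3) (Fin 3) (Qt (up K a) (up K b))) i j =
      ⟨algebraMap k K (A i j), th * algebraMap k K (B i j), 0, 0⟩)
    (N : Subgroup (GK s p0 p1 p2 c m (n : k))) (hN : NM.Big N) : N = ⊤ := by
  obtain ⟨L, E, M, _, _, _, _, _, _, _, _, _, _, _, _, h⟩ := exists_M h2 hth hsth hirr hd hdk
  let _ : Algebra k M := Algebra.compHom M (algebraMap k K)
  obtain ⟨_, _, f, fi, σ, x, y, H, hU, hx, hy, hxσ, hs, ha⟩ := h
  exact gk_top_of_m (K := K) (f := f) (fi := fi) (hTI L) H (fun _ => rfl) (fun _ => rfl) hU hth hsth hs hx hxσ hy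
    (ha a ha1 ha2 ha3 ha4) hdiv hdef hcp hA hB hN1 hN2 hm N hN

end Vale.Agent.P011.E6W.H7

end

section

open NumberField Matrix Polynomial

namespace Vale.Agent.P011.E6W.H684

open Vale.Agent.P011.MPQ hiding mat

open Vale.Agent.P011.D4 Vale.Agent.P011.D4.Oct Vale.Agent.P011.E6

open Vale.Agent.P011.E6I (MQ toMQ Mp S0 S1 S2 FixK InVs)

open Vale.Agent.P011.E6O (InD GO)

open Vale.Agent.P011.E6W.H183 (adjM)

open Vale.Agent.P011.E6W.H196 (dsc3)

open scoped ComplexConjugate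

/-- **(P1'), the statement over the quadratic extension `K`.** The element is `φ = A + th w B`,
the second component is the element `ε σ(κ₁)* κ₁`. -/
def KTop_m (k K : Type) [Field k] [NumberField k] [Field K] [NumberField K] [Algebra k K] : Prop :=
  ∀ (s : K ≃ₐ[k] K) (th : K) (kap : k) (a b c u : kˣ) (w : Qt a b) (p0 p1 p2 : k)
    (A B : Matrix (Fin 3) (Fin 3) k) (ε : k) (κ₁ : Qt (up K a) (up K b)) (m : (MQ K a b)ˣ),
    Module.finrank k K = 2 → th * th = algebraMap k K kap → s th = -th →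
    Irreducible (X ^ 3 + C p2 * X ^ 2 + C p1 * X + C p0 : k[X]) →
    ¬ IsSquare (dsc3 p0 p1 p2) → ¬ IsSquare (dsc3 p0 p1 p2 * kap) →
    ¬ IsSquare (u : k) → ¬ IsSquare (u * kap) → ¬ IsSquare (u * dsc3 p0 p1 p2) →
    ¬ IsSquare (u * kap * dsc3 p0 p1 p2) →
    w.re = 0 → w * w = (u : k) • (1 : Qt a b) →
    Division a b c → (∀ τ : k →+* ℝ, τ u < 0 ↔ τ a < 0 ∧ τ b < 0) →
    (∀ τ : k →+* ℝ, τ a < 0 → τ b < 0 → τ c < 0) →
    (∃ τ : k →+* ℝ, τ u < 0 ∧ 0 < τ kap) →
    Mp p0 p1 p2 * A = A * Mp p0 p1 p2 → Mp p0 p1 p2 * B = B * Mp p0 p1 p2 →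
    (∀ i j, (m : MQ K a b) i j = algebraMap K (Qt (up K a) (up K b)) (algebraMap k K (A i j)) +
      (th * algebraMap k K (B i j)) • qup K w) →
    ε ≠ 0 → nrd κ₁ ≠ 0 →
    algebraMap k K (A * A - (kap * u) • (B * B)).det =
      algebraMap k K (ε ^ 2) * (nrd κ₁ * s (nrd κ₁)) →
    (∀ τ : k →+* ℝ, τ kap < 0 → τ u < 0 →
      0 < τ (ε * (A.det + kap * u * (A * B.adjugate).trace))) →
    ∀ N : Subgroup (GKJ s p0 p1 p2 c m (algebraMap k K ε • (star (qmap s κ₁) * κ₁))),
      NM.Big N → N = ⊤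

variable {k E : Type} [Field k] [Field E] [Algebra k E]

end Vale.Agent.P011.E6W.H684

end

section

open Matrix

namespace Vale.Agent.P011.E6W.H196

/-- Subgroups without proper subgroups of finite index correspond under isomorphisms. -/
theorem top_of_equiv_m {G G' : Type} [Group G] [Group G'] (e : G' ≃* G) {H : Subgroup G}
    {H' : Subgroup G'} (h : ∀ g, g ∈ H' ↔ e g ∈ H)
    (htop : ∀ N : Subgroup H', NM.Big N → N = ⊤) (N : Subgroup H) (hN : NM.Big N) :
    N = ⊤ := by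
  let f : H' →* H := (e.toMonoidHom.comp H'.subtype).codRestrict H fun g => (h g.1).1 g.2
  have hf : Function.Surjective f := by
    rintro ⟨g, hg⟩
    refine ⟨⟨e.symm g, (h _).2 (by rwa [e.apply_symm_apply])⟩, ?_⟩
    apply Subtype.ext
    exact e.apply_symm_apply g
  have h1 := htop (N.comap f) (hN.comap_surj _ hf)
  rw [eq_top_iff]
  intro g _
  obtain ⟨g', rfl⟩ := hf g
  have h2 : g' ∈ N.comap f := by
    rw [h1]
    exact Subgroup.mem_top _
  exact h2

end Vale.Agent.P011.E6W.H196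

end

section

open NumberField Matrix Polynomial

namespace Vale.Agent.P011.E6W.H196

open Vale.Agent.P011.MPQ hiding mat

open Vale.Agent.P011.D4 Vale.Agent.P011.D4.Oct Vale.Agent.P011.E6 Vale.Agent.P011.E6.Alb

open Vale.Agent.P011.E6I (MQ toMQ Mp S0 S1 S2 FixK cj cjE)

open Vale.Agent.P011.E6I.Fx

open Vale.Agent.P011.E6W.H7 (sm smU GK JK gk_top_m)

open Vale.Agent.P011.E6W.H684 (GKJ)

section

variable {k K : Type} [Field k] [Field K] [Algebra k K] {s : K ≃ₐ[k] K} {a b c : kˣ}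

/-- **Conjugation of the groups.** -/
theorem top_conj_m [NeZero (2 : K)] (hab : Aniso (up K a) (up K b)) {p0 p1 p2 : k}
    {X Y : Matrix (Fin 3) (Fin 3) K} {M M' : (MQ K a b)ˣ} {κ : (Qt (up K a) (up K b))ˣ}
    (h : Mult (algebraMap k K p0) (algebraMap k K p1) (algebraMap k K p2) X Y (up K a) (up K b)
      M M' κ) (m : (MQ K a b)ˣ) (κ0 : Qt (up K a) (up K b))
    (htop : ∀ N : Subgroup (GKJ s p0 p1 p2 c (M' * m * H64.umap s M)
      (star (κ : Qt (up K a) (up K b)) * κ0 * qmap s (κ : Qt (up K a) (up K b)))),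
      NM.Big N → N = ⊤) (N : Subgroup (GKJ s p0 p1 p2 c m κ0)) (hN : NM.Big N) :
    N = ⊤ := by
  refine top_of_equiv_m (cnj M κ) (fun g => ?_) htop N hN
  constructor
  · rintro ⟨h1, h2⟩
    refine ⟨(h.fix hab).2 h1, ?_⟩
    refine (h.comm hab h1 (J := fun x => act m κ0 (amap s x)) (J' := fun x =>
      act (M' * m * H64.umap s M)
        (star (κ : Qt (up K a) (up K b)) * κ0 * qmap s (κ : Qt (up K a) (up K b)))
        (amap s x)) fun x => ?_).2 h2
    rw [amap_act, act_act, act_act, mul_assoc, mul_assoc]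
  · rintro ⟨h1, h2⟩
    have h1' := (h.fix hab).1 h1
    refine ⟨h1', ?_⟩
    refine (h.comm hab h1' (J := fun x => act m κ0 (amap s x)) (J' := fun x =>
      act (M' * m * H64.umap s M)
        (star (κ : Qt (up K a) (up K b)) * κ0 * qmap s (κ : Qt (up K a) (up K b)))
        (amap s x)) fun x => ?_).1 h2
    rw [amap_act, act_act, act_act, mul_assoc, mul_assoc]

end

end Vale.Agent.P011.E6W.H196

end

section

open NumberField Matrix Polynomial

namespace Vale.Agent.P011.E6W.H196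

open Vale.Agent.P011.MPQ hiding mat

open Vale.Agent.P011.D4 Vale.Agent.P011.D4.Oct Vale.Agent.P011.E6 Vale.Agent.P011.E6.Alb

open Vale.Agent.P011.E6I (MQ toMQ Mp S0 S1 S2 FixK cj cjE)

open Vale.Agent.P011.E6I.Fx

open Vale.Agent.P011.E6W.H7 (sm smU sm_mul sm_one GK JK gk_top_m)

open Vale.Agent.P011.E6W.H684 (GKJ)

variable {k K : Type} [Field k] [NumberField k] [Field K] [NumberField K] [Algebra k K]
  {s : K ≃ₐ[k] K} {th : K} {kap : k}

/-- **The group over the quadratic extension, for the first generator.** -/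
theorem ktop1_m (hTI : ∀ (L : Type) [Field L] [NumberField L] [Algebra k L], H684.TIAll_m k L)
    (h2 : Module.finrank k K = 2) (hth : th * th = algebraMap k K kap)
    (hs : s th = -th) {a b c : kˣ} {p0 p1 p2 : k} {A B : Matrix (Fin 3) (Fin 3) k} {ε : k}
    {κ₁ : Qt (up K a) (up K b)} {m : (MQ K a b)ˣ}
    (hirr : Irreducible (X ^ 3 + C p2 * X ^ 2 + C p1 * X + C p0 : k[X]))
    (hd : ¬ IsSquare (dsc3 p0 p1 p2)) (hdk : ¬ IsSquare (dsc3 p0 p1 p2 * kap))
    (ha1 : ¬ IsSquare (a : k)) (ha2 : ¬ IsSquare ((a : k) * kap))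
    (ha3 : ¬ IsSquare ((a : k) * dsc3 p0 p1 p2))
    (ha4 : ¬ IsSquare ((a : k) * kap * dsc3 p0 p1 p2)) (hdiv : Division a b c)
    (hdef : ∀ τ : k →+* ℝ, τ a < 0 → τ b < 0 ∧ τ c < 0)
    (hcp : ∃ τ : k →+* ℝ, τ a < 0 ∧ 0 < τ kap)
    (hA : Mp p0 p1 p2 * A = A * Mp p0 p1 p2) (hB : Mp p0 p1 p2 * B = B * Mp p0 p1 p2)
    (hm : (m : MQ K a b) = ph3 th a b A B) (hε : ε ≠ 0) (hκ : nrd κ₁ ≠ 0)
    (hdet : algebraMap k K (A * A - (kap * a) • (B * B)).det =
      algebraMap k K (ε ^ 2) * (nrd κ₁ * s (nrd κ₁)))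
    (hsg : ∀ τ : k →+* ℝ, τ kap < 0 → τ a < 0 →
      0 < τ (ε * (A.det + kap * a * (A * B.adjugate).trace)))
    (N : Subgroup (GKJ s p0 p1 p2 c m (algebraMap k K ε • (star (qmap s κ₁) * κ₁))))
    (hN : NM.Big N) : N = ⊤ := by
  have hN2 : NeZero (2 : K) := ⟨two_ne_zero⟩
  have hk0 : kap ≠ 0 := fun h => hdk ⟨0, by rw [h]; ring⟩
  have hkap : ¬ IsSquare kap := kap_nsq hk0 hth hs
  have hss := s_s h2 hth hs hkap
  -- anisotropy over `K`
  have hab : Aniso (up K a) (up K b) := by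
    obtain ⟨τ, h3, h4⟩ := hcp
    obtain ⟨τ', hτ'⟩ := exists_real h2 hth hkap h4
    refine D4Y.aniso_of_real τ' ?_ ?_
    · change τ' (algebraMap k K a) < 0
      rw [hτ']
      exact h3
    · change τ' (algebraMap k K b) < 0
      rw [hτ']
      exact (hdef τ h3).1
  -- the norm of phi
  obtain ⟨n0, hn0⟩ : ∃ n0, n0 = A.det + kap * a * (A * B.adjugate).trace := ⟨_, rfl⟩
  obtain ⟨n1, hn1⟩ : ∃ n1, n1 = (A.adjugate * B).trace + kap * a * B.det := ⟨_, rfl⟩
  obtain ⟨ν, hν⟩ : ∃ ν, ν = n0 ^ 2 - kap * a * n1 ^ 2 := ⟨_, rfl⟩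
  have hAB : A * B = B * A := comm_all hA.symm hB.symm
  have hdν : (A * A - (kap * a) • (B * B)).det = ν := by
    rw [det_normF _ hAB, hν, hn0, hn1]
  rw [hdν] at hdet
  rw [← hn0] at hsg
  have hν0 : ν ≠ 0 := by
    intro h
    rw [h, map_zero] at hdet
    have h3 : algebraMap k K (ε ^ 2) ≠ 0 := (_root_.map_ne_zero _).2 (pow_ne_zero 2 hε)
    have h4 : s (nrd κ₁) ≠ 0 := (_root_.map_ne_zero s).2 hκ
    exact mul_ne_zero h3 (mul_ne_zero hκ h4) hdet.symm
  obtain ⟨Y0, Y1, T, q, hT, hq, e1, e2, e3⟩ := exists_yT h2 hth hs hk0 ha1 ha2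
    (n0 := n0) (n1 := n1) hε hκ (by rw [← hν]; exact hdet) hsg
  obtain ⟨μ, hμ⟩ : ∃ μ : K, μ = algebraMap k K ε * nrd κ₁ := ⟨_, rfl⟩
  rw [← hμ] at e1
  have hμs : μ * s μ = algebraMap k K ν := by
    rw [hdet, hμ, map_mul, s.commutes, map_pow]
    ring
  -- the multiplier
  obtain ⟨c0, hc0⟩ : ∃ c0 : K, c0 = Y0 * algebraMap k K n0 -
    algebraMap k K a * Y1 * algebraMap k K n1 * th := ⟨_, rfl⟩
  obtain ⟨c1, hc1⟩ : ∃ c1 : K, c1 = Y1 * algebraMap k K n0 - Y0 * algebraMap k K n1 * th :=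
    ⟨_, rfl⟩
  have hcc : c0 ^ 2 - algebraMap k K a * c1 ^ 2 = μ * algebraMap k K (T * ν) := by
    rw [map_mul, hν, map_sub, map_mul, map_mul, map_pow, map_pow, hc0, hc1, ← hth]
    linear_combination (algebraMap k K n0 ^ 2 - th * th * algebraMap k K a *
      algebraMap k K n1 ^ 2) * e1
  obtain ⟨X, hX⟩ : ∃ X : Matrix (Fin 3) (Fin 3) K, X = c0 • A.map (algebraMap k K) +
    (((up K a : Kˣ) : K) * c1) • (th • B.map (algebraMap k K)) := ⟨_, rfl⟩
  obtain ⟨Y, hY⟩ : ∃ Y : Matrix (Fin 3) (Fin 3) K, Y = c0 • (th • B.map (algebraMap k K)) +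
    c1 • A.map (algebraMap k K) := ⟨_, rfl⟩
  have hr := norm_mu hth hA.symm hB.symm c0 c1 hX hY
  have hAm := map_comm (K := K) hA.symm
  have hBm := map_comm (K := K) hB.symm
  have hXM : X * Mp (algebraMap k K p0) (algebraMap k K p1) (algebraMap k K p2) =
      Mp (algebraMap k K p0) (algebraMap k K p1) (algebraMap k K p2) * X := by
    rw [hX]
    exact comm_add (comm_smul _ hAm) (comm_smul _ (comm_smul _ hBm))
  have hYM : Y * Mp (algebraMap k K p0) (algebraMap k K p1) (algebraMap k K p2) =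
      Mp (algebraMap k K p0) (algebraMap k K p1) (algebraMap k K p2) * Y := by
    rw [hY]
    exact comm_add (comm_smul _ (comm_smul _ hBm)) (comm_smul _ hAm)
  -- the conjugate multiplier
  have hAs : (A.map (algebraMap k K)).map s = A.map (algebraMap k K) := by
    ext i j : 1
    exact s.commutes _
  have hBs : (B.map (algebraMap k K)).map s = B.map (algebraMap k K) := by
    ext i j : 1
    exact s.commutes _
  have hMs : (Mp (algebraMap k K p0) (algebraMap k K p1) (algebraMap k K p2)).map s =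
      Mp (algebraMap k K p0) (algebraMap k K p1) (algebraMap k K p2) := by
    ext i j
    fin_cases i <;> fin_cases j <;> simp [Mp]
  have mmul : ∀ U V : Matrix (Fin 3) (Fin 3) K, (U * V).map s = U.map s * V.map s := fun U V =>
    Matrix.map_mul (f := (s : K →+* K))
  have hXs : X.map s * Mp (algebraMap k K p0) (algebraMap k K p1) (algebraMap k K p2) =
      Mp (algebraMap k K p0) (algebraMap k K p1) (algebraMap k K p2) * X.map s := by
    have h := congrArg (fun U : Matrix (Fin 3) (Fin 3) K => U.map s) hXM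
    simp only [mmul, hMs] at h
    exact h
  have hYs : Y.map s * Mp (algebraMap k K p0) (algebraMap k K p1) (algebraMap k K p2) =
      Mp (algebraMap k K p0) (algebraMap k K p1) (algebraMap k K p2) * Y.map s := by
    have h := congrArg (fun U : Matrix (Fin 3) (Fin 3) K => U.map s) hYM
    simp only [mmul, hMs] at h
    exact h
  have ha_s : ((up K a : Kˣ) : K) = algebraMap k K a := rfl
  have hdr : (X.map s * X.map s - ((up K a : Kˣ) : K) • (Y.map s * Y.map s)).det =
      s ((X * X - ((up K a : Kˣ) : K) • (Y * Y)).det) := by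
    have h3 : X.map s * X.map s - ((up K a : Kˣ) : K) • (Y.map s * Y.map s) =
        (X * X - ((up K a : Kˣ) : K) • (Y * Y)).map s := by
      rw [← mmul, ← mmul]
      ext i j : 1
      simp only [Matrix.map_apply, Matrix.sub_apply, Matrix.smul_apply, smul_eq_mul, map_sub,
        map_mul, ha_s, s.commutes]
    rw [h3]
    exact (RingHom.map_det (s : K →+* K) _).symm
  have hdet3 : (X * X - ((up K a : Kˣ) : K) • (Y * Y)).det =
      (μ * algebraMap k K (T * ν)) ^ 3 * algebraMap k K ν := by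
    rw [hr, Matrix.det_smul, Fintype.card_fin, hcc]
    congr 1
    rw [← hdν]
    exact (RingHom.map_det (algebraMap k K) _).symm
  have hμ0 : μ ≠ 0 := by
    rw [hμ]
    exact mul_ne_zero ((_root_.map_ne_zero _).2 hε) hκ
  have hTK : algebraMap k K (T * ν) ≠ 0 := (_root_.map_ne_zero _).2 (mul_ne_zero hT hν0)
  have hνK : algebraMap k K ν ≠ 0 := (_root_.map_ne_zero _).2 hν0
  have hdr0 : (X.map s * X.map s - ((up K a : Kˣ) : K) • (Y.map s * Y.map s)).det ≠ 0 := by
    rw [hdr, hdet3]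
    exact (_root_.map_ne_zero s).2 (mul_ne_zero (pow_ne_zero 3 (mul_ne_zero hμ0 hTK)) hνK)
  obtain ⟨M, hM⟩ := exists_unit_pm hXs hYs hdr0
  obtain ⟨M', hM'⟩ := exists_unit_pm (a := up K a) (b := up K b) (Y := -Y.map s) hXs
    (by rw [Matrix.neg_mul, Matrix.mul_neg, hYs])
    (by rw [neg_mul_neg]; exact hdr0)
  -- the quaternion
  obtain ⟨t0, ht0⟩ : ∃ t0 : K, t0 = μ ^ 2 * algebraMap k K (T ^ 2 * ν ^ 2) := ⟨_, rfl⟩
  obtain ⟨x, hx⟩ : ∃ x : Qt (up K a) (up K b), x = (nrd κ₁)⁻¹ • (star κ₁ * (t0 • qup K q)) :=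
    ⟨_, rfl⟩
  have hκx : κ₁ * x = t0 • qup K q := by
    have h3 : κ₁ * star κ₁ = nrd κ₁ • (1 : Qt (up K a) (up K b)) := by
      have h := D4X.H67.star_mul_self' (star κ₁)
      rw [star_star] at h
      rw [h]
      congr 1
      simp [nrd]
    rw [hx, mul_smul_comm, ← mul_assoc, h3, smul_mul_assoc, one_mul, smul_smul,
      inv_mul_cancel₀ hκ, one_smul]
  have hnq : nrd (t0 • qup K q) = t0 ^ 2 * algebraMap k K (nrd q) := by
    simp only [nrd, QuaternionAlgebra.re_smul, QuaternionAlgebra.imI_smul,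
      QuaternionAlgebra.imJ_smul, QuaternionAlgebra.imK_smul, smul_eq_mul]
    simp only [map_add, map_sub, map_mul, map_pow, qup]
    change _ ^ 2 - algebraMap k K a * _ - algebraMap k K b * _ +
      algebraMap k K a * algebraMap k K b * _ = _
    ring
  have hqK : algebraMap k K (nrd q) * (algebraMap k K ε * algebraMap k K T) = 1 := by
    rw [← map_mul, ← map_mul, hq, map_one]
  have hnx : nrd x = (μ * algebraMap k K (T * ν)) ^ 3 * algebraMap k K ν := by
    have h3 := congrArg nrd hκx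
    rw [nrd_mul, hnq] at h3
    apply mul_left_cancel₀ hκ
    rw [h3, ht0]
    apply mul_left_cancel₀ (mul_ne_zero ((_root_.map_ne_zero (algebraMap k K)).2 hε)
      ((_root_.map_ne_zero (algebraMap k K)).2 hT))
    simp only [map_mul, map_pow]
    rw [hμ]
    linear_combination ((algebraMap k K ε * nrd κ₁) ^ 4 * algebraMap k K T ^ 4 *
      algebraMap k K ν ^ 4) * hqK
  have hnxs : nrd (qmap s x) =
      (X.map s * X.map s - ((up K a : Kˣ) : K) • (Y.map s * Y.map s)).det := by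
    rw [nrd_qmap, hnx, hdr, hdet3]
  obtain ⟨κ, hκu⟩ := exists_unit_qt (x := qmap s x) (by rw [hnxs]; exact hdr0)
  have hMult : Mult (algebraMap k K p0) (algebraMap k K p1) (algebraMap k K p2) (X.map s)
      (Y.map s) (up K a) (up K b) M M' κ :=
    { hX := hXs
      hY := hYs
      hM := hM
      hM' := hM'
      hr := hdr0
      hκ := by rw [hκu, hnxs] }
  -- the new data
  obtain ⟨A', hA'⟩ : ∃ A' : Matrix (Fin 3) (Fin 3) k, A' = (T * ν) • (n0 • cP (kap * a) A B -
    (kap * a * n1) • cR (kap * a) A B) := ⟨_, rfl⟩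
  obtain ⟨B', hB'⟩ : ∃ B' : Matrix (Fin 3) (Fin 3) k, B' = (T * ν) • (n0 • cR (kap * a) A B -
    n1 • cP (kap * a) A B) := ⟨_, rfl⟩
  obtain ⟨f1, f2⟩ := det_final (kap * a) T ν n0 n1 hn0 hn1 hν hA' hB'
  have hcP : cP (kap * a) A B * Mp p0 p1 p2 = Mp p0 p1 p2 * cP (kap * a) A B := by
    have hA0 := hA.symm
    have hB0 := hB.symm
    exact comm_add (comm_mul (comm_add (comm_mul hA0 hA0) (comm_smul _ (comm_mul hB0 hB0))) hA0)
      (comm_smul _ (comm_mul (comm_add (comm_mul hA0 hB0) (comm_mul hB0 hA0)) hB0))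
  have hcR : cR (kap * a) A B * Mp p0 p1 p2 = Mp p0 p1 p2 * cR (kap * a) A B := by
    have hA0 := hA.symm
    have hB0 := hB.symm
    exact comm_add (comm_mul (comm_add (comm_mul hA0 hA0) (comm_smul _ (comm_mul hB0 hB0))) hB0)
      (comm_mul (comm_add (comm_mul hA0 hB0) (comm_mul hB0 hA0)) hA0)
  have hA'M : Mp p0 p1 p2 * A' = A' * Mp p0 p1 p2 := by
    rw [hA']
    exact (comm_smul _ (comm_sub (comm_smul _ hcP) (comm_smul _ hcR))).symm
  have hB'M : Mp p0 p1 p2 * B' = B' * Mp p0 p1 p2 := by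
    rw [hB']
    exact (comm_smul _ (comm_sub (comm_smul _ hcR) (comm_smul _ hcP))).symm
  -- the new matrix
  have hsc0 : s c0 = s Y0 * algebraMap k K n0 + algebraMap k K a * s Y1 *
      algebraMap k K n1 * th := by
    rw [hc0]
    simp only [map_sub, map_mul, s.commutes, hs]
    ring
  have hsc1 : s c1 = s Y1 * algebraMap k K n0 + s Y0 * algebraMap k K n1 * th := by
    rw [hc1]
    simp only [map_sub, map_mul, s.commutes, hs]
    ring
  have g1 : s c0 * c0 - algebraMap k K a * (s c1 * c1) = algebraMap k K (T * ν * n0) := by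
    rw [hsc0, hsc1, hc0, hc1]
    simp only [map_mul] at e2 e3 ⊢
    rw [hν, map_sub, map_mul, map_mul, map_pow, map_pow, ← hth]
    linear_combination (algebraMap k K n0 ^ 2 + algebraMap k K a * algebraMap k K n1 ^ 2 *
      th ^ 2) * e2 - (2 * algebraMap k K a * algebraMap k K n0 * algebraMap k K n1 * th) * e3
  have g2 : s c0 * c1 - s c1 * c0 = -(th * algebraMap k K (T * ν * n1)) := by
    rw [hsc0, hsc1, hc0, hc1]
    simp only [map_mul] at e2 e3 ⊢
    rw [hν, map_sub, map_mul, map_mul, map_pow, map_pow, ← hth]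
    linear_combination (algebraMap k K n0 ^ 2 + algebraMap k K a * algebraMap k K n1 ^ 2 *
      th ^ 2) * e3 - (2 * algebraMap k K n0 * algebraMap k K n1 * th) * e2
  have hMs' : (H64.umap s M : MQ K a b) = pm (up K a) (up K b) X Y := by
    rw [H64.umap_val, hM, map_pm]
    have h3 : ∀ U : Matrix (Fin 3) (Fin 3) K, (U.map s).map s = U := fun U => by
      ext i j : 1
      exact hss _
    rw [h3, h3]
  have hXY : pm (up K a) (up K b) X Y = pm (up K a) (up K b) (c0 • 1) (c1 • 1) *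
      ph3 th a b A B := by
    rw [ph3, pm_scalar_mul, hX, hY]
  have hXYs : pm (up K a) (up K b) (X.map s) (-Y.map s) =
      pm (up K a) (up K b) (s c0 • 1) ((-s c1) • 1) * ph3 th a b A B := by
    rw [ph3, pm_scalar_mul]
    congr 1
    · ext i j : 1
      rw [hX]
      simp only [Matrix.map_apply, Matrix.add_apply, Matrix.smul_apply, smul_eq_mul, map_add,
        map_mul, ha_s, s.commutes, hs]
      ring
    · ext i j : 1
      rw [hY]
      simp only [Matrix.map_apply, Matrix.add_apply, Matrix.neg_apply, Matrix.smul_apply,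
        smul_eq_mul, map_add, map_mul, s.commutes, hs]
      ring
  have hm' : ((M' * m * H64.umap s M : (MQ K a b)ˣ) : MQ K a b) = ph3 th a b A' B' := by
    rw [Units.val_mul, Units.val_mul, hM', hMs', hm, hXY, hXYs]
    have h3 : pm (up K a) (up K b) (s c0 • 1) ((-s c1) • 1) * ph3 th a b A B * ph3 th a b A B *
        (pm (up K a) (up K b) (c0 • 1) (c1 • 1) * ph3 th a b A B) =
        pm (up K a) (up K b) (s c0 • 1) ((-s c1) • 1) * pm (up K a) (up K b) (c0 • 1) (c1 • 1) *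
        (ph3 th a b A B * ph3 th a b A B * ph3 th a b A B) := by
      have h4 : ph3 th a b A B * pm (up K a) (up K b) (c0 • 1) (c1 • 1) =
          pm (up K a) (up K b) (c0 • 1) (c1 • 1) * ph3 th a b A B := mul_pm_scalar _ _ _ _
      simp only [Matrix.mul_assoc]
      rw [← Matrix.mul_assoc (ph3 th a b A B) (pm (up K a) (up K b) (c0 • 1) (c1 • 1)), h4,
        Matrix.mul_assoc, ← Matrix.mul_assoc (ph3 th a b A B)
        (pm (up K a) (up K b) (c0 • 1) (c1 • 1)), h4, Matrix.mul_assoc]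
    rw [h3, ph3_mul hth, ph3_mul hth]
    change _ * ph3 th a b (cP (kap * a) A B) (cR (kap * a) A B) = _
    have h5 : pm (up K a) (up K b) (s c0 • 1) ((-s c1) • 1) *
        pm (up K a) (up K b) (c0 • 1) (c1 • 1) = pm (up K a) (up K b)
        (algebraMap k K (T * ν * n0) • 1) ((-(th * algebraMap k K (T * ν * n1))) • 1) := by
      rw [pm_scalar_mul, ← g1, ← g2, ha_s]
      congr 1
      · rw [smul_smul, smul_smul, ← add_smul]
        congr 1
        ring
      · rw [smul_smul, smul_smul, ← add_smul]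
        congr 1
        ring
    rw [h5, scalar_ph3 hth]
    have h6 : (T * ν * n0) • cP (kap * a) A B - (kap * a * (T * ν * n1)) • cR (kap * a) A B =
        A' := by
      rw [hA', smul_sub, smul_smul, smul_smul]
      congr 2
      ring
    have h7 : (T * ν * n0) • cR (kap * a) A B - (T * ν * n1) • cP (kap * a) A B = B' := by
      rw [hB', smul_sub, smul_smul, smul_smul]
    rw [h6, h7]
  -- the new quaternion
  have hκ' : star (κ : Qt (up K a) (up K b)) * (algebraMap k K ε • (star (qmap s κ₁) * κ₁)) *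
      qmap s (κ : Qt (up K a) (up K b)) =
      algebraMap K (Qt (up K a) (up K b)) (algebraMap k K (T ^ 3 * ν ^ 6)) := by
    have h3 : qmap s (qmap s x) = x := by
      apply QuaternionAlgebra.ext <;> exact hss _
    rw [hκu, h3]
    have h4 : star (qmap s x) * (algebraMap k K ε • (star (qmap s κ₁) * κ₁)) * x =
        algebraMap k K ε • (star (qmap s (κ₁ * x)) * (κ₁ * x)) := by
      rw [qmap_mul, star_mul, mul_smul_comm, smul_mul_assoc]
      simp only [mul_assoc]
    rw [h4, hκx, qmap_smul, qmap_qup, QuaternionAlgebra.star_smul, smul_mul_smul_comm,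
      D4X.H67.star_mul_self', nrd_qup', smul_smul, smul_smul,
      Algebra.algebraMap_eq_smul_one (R := K) (A := Qt (up K a) (up K b))]
    congr 1
    rw [ht0]
    simp only [map_mul, map_pow, s.commutes]
    have h5 : μ ^ 2 * s μ ^ 2 = algebraMap k K ν ^ 2 := by rw [← hμs]; ring
    linear_combination (algebraMap k K ε * algebraMap k K T ^ 4 * algebraMap k K ν ^ 4 *
      algebraMap k K (nrd q)) * h5 + (algebraMap k K T ^ 3 * algebraMap k K ν ^ 6) * hqK
  refine top_conj_m hab hMult m _ ?_ N hN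
  rw [hκ']
  intro N' hN'
  have hn : T ^ 3 * ν ^ 6 ≠ 0 := mul_ne_zero (pow_ne_zero 3 hT) (pow_ne_zero 6 hν0)
  exact gk_top_m hTI h2 hth hs hirr hd hdk ha1 ha2 ha3 ha4 hdiv hdef hcp hA'M hB'M
    (n := Units.mk0 _ hn) f1 f2 (m := M' * m * H64.umap s M)
    (fun i j => by rw [hm']; rfl) N' hN'

end Vale.Agent.P011.E6W.H196

end

section

open NumberField Matrix Polynomial

namespace Vale.Agent.P011.E6W.H196

open Vale.Agent.P011.MPQ hiding mat

open Vale.Agent.P011.D4 Vale.Agent.P011.D4.Oct Vale.Agent.P011.E6 Vale.Agent.P011.E6.Alb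

open Vale.Agent.P011.E6I (MQ toMQ Mp S0 S1 S2 FixK)

open Vale.Agent.P011.E6W.H684 (GKJ KTop_m)

/-- **The statement over the quadratic extension.** -/
theorem ktop_m (k K : Type) [Field k] [NumberField k] [Field K] [NumberField K] [Algebra k K]
    (hTI : ∀ (L : Type) [Field L] [NumberField L] [Algebra k L], H684.TIAll_m k L) :
    KTop_m k K := by
  intro s th kap a b c u w p0 p1 p2 A B ε κ₁ m h2 hth hs hirr hd hdk hu1 hu2 hu3 hu4 hw0 hww hdiv
    hdef hdc hcp hA hB hm hε hκ hdet hsg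
  have hc2 : NeZero (2 : K) := ⟨two_ne_zero⟩
  have hab : Aniso a b := by
    intro x hx
    have h := hdiv (⟨x, 0⟩ : Oct a b c) (by
      rw [Oct.norm, hx]
      simp [nrd])
    exact congrArg Oct.fst h
  have hw1 : w ≠ 0 := by
    intro h
    rw [h, mul_zero] at hww
    have h3 := congrArg QuaternionAlgebra.re hww
    simp at h3
    exact u.ne_zero h3.symm
  obtain ⟨u', b', j, hj0, hwu, hjj, hwj⟩ := D4.exists_pair hab hw0 hw1
  have huu : u' = u := by
    apply Units.ext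
    have h3 := hwu.symm.trans hww
    have h4 := congrArg QuaternionAlgebra.re h3
    simpa using h4
  subst huu
  have ht : Trip u' b' c (⟨w, 0⟩ : Oct a b c) ⟨j, 0⟩ gl :=
    trip_of_pair hw0 hj0 hww hjj hwj two_ne_zero
  -- the isomorphism of quaternion algebras
  have kw := qup_rel K hww
  have kj := qup_rel K hjj
  have kwj : qup K w * qup K j = -(qup K j * qup K w) := by
    rw [← qup_mul, hwj, qup_neg, qup_mul]
  have kw0 : (qup K w).re = 0 := by simp [hw0]
  have kj0 : (qup K j).re = 0 := by simp [hj0]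
  obtain ⟨Φ, hΦ, hΦn⟩ := TG.exists_equiv (A := up K u') (B := up K b') kw0 kj0 kw kj
    (by rw [kwj, neg_neg])
  have hphi : ∀ x, phi (qup K w) (qup K j) x = Φ x := fun x => (hΦ x).symm
  have hre : ((qup K w) * (qup K j)).re = 0 := by
    have h1 := congrArg QuaternionAlgebra.re kwj
    simp only [QuaternionAlgebra.re_mul, QuaternionAlgebra.re_neg, kw0, kj0] at h1 ⊢
    have h3 : (2 : K) * (((up K a : Kˣ) : K) * (qup K w).imI * (qup K j).imI +
      ((up K b : Kˣ) : K) * (qup K w).imJ * (qup K j).imJ -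
      ((up K a : Kˣ) : K) * ((up K b : Kˣ) : K) * (qup K w).imK * (qup K j).imK) = 0 := by
      linear_combination h1
    have h4 := (mul_eq_zero.1 h3).resolve_left two_ne_zero
    linear_combination h4
  have hQ : QIso Φ := by
    refine ⟨fun x => ?_, fun x => ?_⟩
    · rw [← hphi, ← hphi, phi_star kw0 kj0 kwj]
    · rw [hΦ]
      simp only [QuaternionAlgebra.re_add, QuaternionAlgebra.re_smul, QuaternionAlgebra.re_one,
        kw0, kj0, hre, smul_eq_mul, mul_one, mul_zero, add_zero]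
  have hemb : ∀ x : OctL K u' b' c,
      emb (oup K (⟨w, 0⟩ : Oct a b c)) (oup K ⟨j, 0⟩) (oup K gl) x =
        ⟨Φ x.fst, Φ x.snd⟩ := by
    intro x
    rw [oup_gl]
    have h1 : oup K (⟨w, 0⟩ : Oct a b c) = ⟨qup K w, 0⟩ := by ext1 <;> simp [oup]
    have h2 : oup K (⟨j, 0⟩ : Oct a b c) = ⟨qup K j, 0⟩ := by ext1 <;> simp [oup]
    rw [h1, h2, ← hphi, ← hphi]
    exact emb_pair x
  have hΨ : ∀ x : AlbL K u' b' c, tripA K ht x = ⟨x.d1, x.d2, x.d3, ⟨Φ x.x1.fst, Φ x.x1.snd⟩,
      ⟨Φ x.x2.fst, Φ x.x2.snd⟩, ⟨Φ x.x3.fst, Φ x.x3.snd⟩⟩ := by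
    intro x
    rw [tripA_apply]
    simp only [Alb.omapA, hemb]
  have hcub : ∀ x : AlbL K u' b' c, cub (tripA K ht x) = cub x := fun x =>
    Alb.cub_mapE (tripO_mul ht) x
  have hsm : ∀ x : AlbL K u' b' c, tripA K ht (amap s x) = amap s (tripA K ht x) :=
    (isCoord_tripA (g := fun _ => 1) s ht).real
  have hF : ∀ R : Matrix (Fin 3) (Fin 3) K, tripA K ht (ofF R) = ofF R := fun R => by
    rw [tripA_apply, omapA_emb_ofF]
  -- the data of the other model
  obtain ⟨m', hm'⟩ : ∃ m' : (MQ K u' b')ˣ, uM Φ m' = m := by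
    refine ⟨uM Φ.symm m, ?_⟩
    apply Units.ext
    rw [uM_val, uM_val]
    ext i j : 1
    exact Φ.apply_symm_apply _
  obtain ⟨κ', hκ'⟩ : ∃ κ' : Qt (up K u') (up K b'), Φ κ' = κ₁ :=
    ⟨Φ.symm κ₁, Φ.apply_symm_apply _⟩
  have hmv : (m' : MQ K u' b') = ph3 th u' b' A B := by
    have h3 : (m' : MQ K u' b').map Φ = (ph3 th u' b' A B).map Φ := by
      have h4 : ((uM Φ m' : (MQ K a b)ˣ) : MQ K a b) = m := by rw [hm']
      rw [uM_val] at h4
      rw [h4]
      ext i j : 1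
      rw [hm, Matrix.map_apply, ph3, pm_apply, hΦ]
      simp only [Matrix.map_apply, Matrix.smul_apply, smul_eq_mul, zero_smul, add_zero]
      rw [Algebra.algebraMap_eq_smul_one (R := K) (A := Qt (up K a) (up K b))]
    ext i j : 1
    have h5 := congrFun (congrFun h3 i) j
    rw [Matrix.map_apply, Matrix.map_apply] at h5
    exact Φ.injective h5
  have hκn : nrd κ' = nrd κ₁ := by rw [← hκ', hΦn]
  have hdef' : ∀ τ : k →+* ℝ, τ u' < 0 → τ b' < 0 ∧ τ c < 0 := by
    intro τ hτ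
    obtain ⟨ha, hb⟩ := (hdef τ).1 hτ
    refine ⟨?_, hdc τ ha hb⟩
    -- the norm of `j` is positive
    have h3 : j * j = (-nrd j) • (1 : Qt a b) := by
      ext <;> simp [nrd, hj0] <;> ring
    have h4 : (b' : k) = -nrd j := by
      have h5 := congrArg QuaternionAlgebra.re (hjj.symm.trans h3)
      simpa using h5
    have hj1 : j ≠ 0 := by
      intro h
      rw [h, mul_zero] at hjj
      have h5 := congrArg QuaternionAlgebra.re hjj
      simp at h5
      exact b'.ne_zero h5.symm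
    have h5 : τ (nrd j) ≠ 0 := by
      rw [Ne, map_eq_zero]
      exact fun h => hj1 (hab j h)
    have h6 : 0 ≤ τ (nrd j) := by
      have h7 : τ (nrd j) = τ j.re ^ 2 + (-τ a) * τ j.imI ^ 2 + (-τ b) * τ j.imJ ^ 2 +
          τ a * τ b * τ j.imK ^ 2 := by
        simp only [nrd, map_add, map_sub, map_mul, map_pow]
        ring
      rw [h7]
      have := mul_pos_of_neg_of_neg ha hb
      have : 0 ≤ -τ a := by linarith
      have : 0 ≤ -τ b := by linarith
      positivity
    rw [h4, map_neg]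
    have h7 := lt_of_le_of_ne h6 (Ne.symm h5)
    linarith
  have hdiv' : Division u' b' c := by
    intro x hx
    obtain ⟨T, hT1, hT2, hT3, hT4⟩ := exists_emb ht
    have h := hdiv (T x) (by rw [hT4, hx])
    exact (map_eq_zero_iff T T.injective).1 h
  have hκe : Φ (algebraMap k K ε • (star (qmap s κ') * κ')) =
      algebraMap k K ε • (star (qmap s κ₁) * κ₁) := by
    rw [map_smul, map_mul, hQ.st, hκ']
    have h3 : Φ (qmap s κ') = qmap s (Φ κ') := by
      rw [← hphi, ← hphi, qmap_phi]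
    rw [h3, hκ']
  rw [← hκe, ← hm']
  intro N hN
  refine top_of_equiv_m (cE (tripA K ht)) (fun g => gkj_iso hQ hΨ hcub hsm hF p0 p1 p2 m' _ g)
    (fun N' hN' => ?_) N hN
  exact ktop1_m hTI h2 hth hs hirr hd hdk hu1 hu2 hu3 hu4 hdiv' hdef' hcp hA hB hmv hε
    (by rw [hκn]; exact hκ) (by rw [hκn]; exact hdet) hsg N' hN'

end Vale.Agent.P011.E6W.H196

end
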