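import Vale.Agent.P011NE.SqRes
import Vale.Agent.P011NE.CpK
import Vale.Agent.P011.E6W.Defs
import Vale.Agent.P011.E6W.H183.SqDef
import Vale.Agent.P011.E6W.H684.P1i
import Vale.Agent.P011.E6W.H619.Exact
import Vale.Agent.P011.E6W.H619.NearR
import Vale.Agent.P011.E6W.H619.Open
import Vale.Agent.P011.E6W.H684.P1j
import Vale.Agent.P011.E6W.H7.Model
import Vale.Agent.P011.E6W.H7.Fin0
import Vale.Agent.P011.E6W.H7.Fin2

/-!
Block E6W for the normal subgroups which contain the automorphisms of the octonion algebra.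
-/

set_option linter.unusedSectionVars false

section

open NumberField Matrix

namespace Vale.Agent.P011.E6W

open Vale.Agent.P011.MPQ hiding mat

open Vale.Agent.P011.D4 Vale.Agent.P011.D4.Oct Vale.Agent.P011.E6

open Vale.Agent.P011.E6O (GO Res_m InD InD0 um)

open Vale.Agent.P011.E6I (MQ toMQ InVs)

open Vale.Agent.P011.E6H (nm qnm)

open Vale.Agent.P011.E6W.H183 (adjM)

variable {k E : Type} [Field k] [Field E] [Algebra k E]

/-- (A) The special unitary group of `D ⊗ Q` is contained in the finite residual. -/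
def SqRes_m (ρ σ : E ≃ₐ[k] E) (lam : Eˣ) (g : Fin 3 → Eˣ) (a b c : kˣ) : Prop :=
  ∀ m : (MQ E a b)ˣ, InD ρ lam (m : MQ E a b) → adjM σ g (m : MQ E a b) * (m : MQ E a b) = 1 →
    nu (m : MQ E a b) = 1 → ∀ h : AlbL E a b c ≃ₗ[E] AlbL E a b c, (∀ x, h x = Alb.act m 1 x) →
      h ∈ Res_m ρ σ lam g a b c

/-- (B) The pointwise stabilizers of the frames close to the standard frame are contained in the
finite residual. -/
def FrRes_m (ρ σ : E ≃ₐ[k] E) (lam : Eˣ) (g : Fin 3 → Eˣ) (a b c : kˣ)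
    (z₀ v₀ : Matrix (Fin 3) (Fin 3) E) : Prop :=
  ∃ t : ℝ, 0 < t ∧ ∀ (z : MQ E a b) (v : AlbL E a b c) (p₂ p₁ p₀ : k),
    Frame ρ σ lam g z v p₂ p₁ p₀ → NearM t (toMQ z₀) z → NearV t (Alb.ofF v₀) v →
    ∀ h ∈ GO ρ σ lam g a b c, FixFr z v h → h ∈ Res_m ρ σ lam g a b c

/-- (C) The finite residual is open at the archimedean places. -/
def OpenRes_m (ρ σ : E ≃ₐ[k] E) (lam : Eˣ) (g : Fin 3 → Eˣ) (a b c : kˣ) : Prop :=
  ∃ t : ℝ, 0 < t ∧ ∀ h ∈ GO ρ σ lam g a b c, NearL t 1 h → h ∈ Res_m ρ σ lam g a b c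

end Vale.Agent.P011.E6W

end

section

open Matrix NumberField

namespace Vale.Agent.P011.E6W.H183

open Vale.Agent.P011.MPQ hiding mat

open Vale.Agent.P011.D4 Vale.Agent.P011.D4.Oct Vale.Agent.P011.E6

open Vale.Agent.P011.E6O

variable {k E : Type} [Field k] [NumberField k] [Field E] [NumberField E] [Algebra k E]
  {ρ σ : E ≃ₐ[k] E} {lam : Eˣ} {g : Fin 3 → Eˣ} {th s : E} {kap a b c : kˣ}

/-- **The block (A).** -/
theorem sqRes_m (W : WH ρ σ lam g th s kap a b c) (hMP : SixAt W)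
    (hT : One.Tdiv k (KW W) (BW W) = ∅) : E6W.SqRes_m ρ σ lam g a b c := by
  intro m hm hu hn h hh
  exact sq_res_m W hMP hT hm (isUn_iff.mpr hu) hn hh

end Vale.Agent.P011.E6W.H183

end

section

open Matrix Polynomial

set_option linter.unusedSectionVars false

namespace Vale.Agent.P011.E6W.H684

open Vale.Agent.P011.MPQ hiding mat

open Vale.Agent.P011.D4 Vale.Agent.P011.D4.Oct Vale.Agent.P011.E6

open Vale.Agent.P011.E6.Alb

open Vale.Agent.P011.E6I (MQ toMQ toMQ_apply Mp S0 S1 S2 FixK S0_transpose S1_transpose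
  S2_transpose cj amap_cj cj_inv InVs)

open Vale.Agent.P011.E6I.Fx (FixL MpL det_S0 mul_S0 eq_of_comm vP vP_comm det_vP P_mul_vP comm_vP
  extA extA_aup extA_mem extA_eq extA_mul conjP conjP_apply conjP_cj)

open Vale.Agent.P011.E6O (KK mkK KK_fix KK_ext InD InD0 um her GO Res_m)

open Vale.Agent.P011.E6W.H183 (adjM Rel WH rhoK unK exists_kW Cub ez)

open Vale.Agent.P011.E6W.H196 (dsc3)

open Vale.Agent.P011.E6W.H7 (smU cj_eq_act)

section sd

variable {k E : Type} [Field k] [NumberField k] [Field E] [NumberField E] [Algebra k E]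
  {ρ σ : E ≃ₐ[k] E} {lam : Eˣ} {g : Fin 3 → Eˣ} {th s : E} {kap a b c : kˣ}
  {W : WH ρ σ lam g th s kap a b c} {w : Qt a b} {u : kˣ} {p0 p1 p2 : k}
  {z w' : MQ E a b} {m : (MQ E a b)ˣ} {z1 P : Matrix (Fin 3) (Fin 3) E}

variable {H : FD W w u p0 p1 p2 z w' m z1 P} {r : Matrix (Fin 3) (Fin 3) E}
  {A B : Matrix (Fin 3) (Fin 3) k} {φ : (MQ (KK ρ) a b)ˣ} {κ : Qt (up (KK ρ) a) (up (KK ρ) b)}
  {ε : k} {Ψ : AlbL E a b c ≃ₗ[E] AlbL E a b c} (S : SDt H r A B φ κ ε Ψ)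

/-- **The stabilizer of the frame is in the finite residual, if the group over the quadratic
extension has no subgroup of finite index.** -/
theorem SDt.mem_Res_m (S : SDt H r A B φ κ ε Ψ)
    (hK : ∀ N : Subgroup (GKJ (sK W.rel.σ2 W.rel.comm) p0 p1 p2 c
      (H64.umap (sK W.rel.σ2 W.rel.comm) φ) (algebraMap k (KK ρ) ε •
        (star (qmap (sK W.rel.σ2 W.rel.comm) (kapS W κ)) * kapS W κ))), NM.Big N → N = ⊤)
    {h : AlbL E a b c ≃ₗ[E] AlbL E a b c} (hh : h ∈ GO ρ σ lam g a b c)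
    (hfix : ∀ T : Matrix (Fin 3) (Fin 3) E, Tᵀ = T → z1 * T = T * z1ᵀ →
      h (Alb.act m⁻¹ (qK ρ κ) (ofF T)) = Alb.act m⁻¹ (qK ρ κ) (ofF T)) :
    h ∈ Res_m ρ σ lam g a b c := by
  obtain ⟨f, hf⟩ := S.exists_hom hh hfix
  refine ⟨S.hom f, ?_, hf⟩
  rw [SetLike.mem_coe, Subgroup.mem_sInf]
  intro N hN
  have h1 : NM.Big (N.comap S.hom) := by
    obtain ⟨x, y, hxy⟩ := E6O.long_noncomm (ρ := ρ) (σ := σ) (lam := lam) (g := g) (c := c)
      (H183.WH.aniso W)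
    have h3 : ∀ t, ∃ f, S.hom f = E6O.autO ρ σ lam g a b c (long a b c t) := fun t => by
      obtain ⟨f, hf⟩ := S.exists_hom (E6O.autO ρ σ lam g a b c (long a b c t)).2
        fun T _ _ => E6O.long_fix t _ _ T
      exact ⟨f, Subtype.ext hf⟩
    obtain ⟨x', hx⟩ := h3 x
    obtain ⟨y', hy⟩ := h3 y
    exact ⟨hN.1.1, hN.2.1.comap _, E6O.not_le_center S.hom (x := x') (y := y')
      (hx ▸ E6O.BigE.aut hN _) (by rwa [hx, hy])⟩
  have h2 : f ∈ N.comap S.hom := by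
    rw [hK _ h1]
    exact Subgroup.mem_top f
  exact h2

end sd

end Vale.Agent.P011.E6W.H684

end

section

open Module

set_option linter.unusedSectionVars false

namespace Vale.Agent.P011.E6W.H619

open Vale.Agent.P011.MPQ hiding mat

open Vale.Agent.P011.D4 Vale.Agent.P011.D4.Oct Vale.Agent.P011.E6 Alb

open Vale.Agent.P011.E6O

open Vale.Agent.P011.E6I (MQ toMQ toMQ_apply toMQ_mul toMQ_one InVs cub_of_inV)

open Vale.Agent.P011.E6I.Gn (Tm Tm_apply Tm_mul Tm_self Tm_inj Tm_cancel Tm_sq Tm_cube inV_ext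
  inV_add inV_smul inV_adj inV_cross mat_mul_adj mat_adj_mul)

open Vale.Agent.P011.E6W.H183

open Vale.Agent.P011.One (Cen mem_cen exists_qhom)

open Matrix

section exact

variable {k E : Type} [Field k] [NumberField k] [Field E] [NumberField E] [Algebra k E]
  {ρ σ : E ≃ₐ[k] E} {lam : Eˣ} {g : Fin 3 → Eˣ} {th s : E} {kap a b c : kˣ}
  {W : WH ρ σ lam g th s kap a b c}

/-- **The elements of the group with a frame.** -/
theorem mem_of_frame_m (W : WH ρ σ lam g th s kap a b c) (hSq : SqRes_m ρ σ lam g a b c)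
    {h : AlbL E a b c ≃ₗ[E] AlbL E a b c} (hh : h ∈ GO ρ σ lam g a b c)
    {U : Submodule E (AlbL E a b c)} {v x : AlbL E a b c} (D : Frs ρ σ lam g U v x)
    (hV : ∀ y ∈ U, InVs (h y)) (hD : InD ρ lam (Tm v x)) (hs : adjM σ g (Tm v x) = Tm v x)
    {m0 : (MQ E a b)ˣ} (hm0 : InD ρ lam (m0 : MQ E a b))
    (hm : (m0 : MQ E a b) * Tm v x = Tm (h v) (h x) * (m0 : MQ E a b))
    (hsgn : ∀ w ∈ U, act m0 1 v = h w → ∀ t p : Fin 3 → k,
      Tm v x ^ 3 = ez (Tm v x) (fun i => algebraMap k E (p i)) →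
      MM σ g v (m0 : MQ E a b) (Tm v w) = ez (Tm v x) (fun i => algebraMap k E (t i)) →
      t ≠ 0 ∧ ∀ (τ : k →+* ℝ) (ζ : ℝ), ζ ^ 3 = τ (p 2) * ζ ^ 2 + τ (p 1) * ζ + τ (p 0) →
        0 < τ (t 0) + τ (t 1) * ζ + τ (t 2) * ζ ^ 2)
    (hB : ∀ d ∈ GO ρ σ lam g a b c, (∀ y ∈ U, d y = y) → d ∈ Res_m ρ σ lam g a b c) :
    h ∈ Res_m ρ σ lam g a b c := by
  obtain ⟨hh1, hh2, hh3⟩ := hh
  have hpol : ∀ y, h (H183.pol σ g y) = H183.pol σ g (h y) := fun y => map_pol W.rel.σ2 hh1 hh3 y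
  have D' := D.toFr.map hh1 hV
  have hz := D.toFr.herm
  -- the cubic relation over `k`
  obtain ⟨P2, P1, P0, hP⟩ : ∃ P2 P1 P0 : E, Tm v x ^ 3 = P2 • Tm v x ^ 2 + P1 • Tm v x +
      P0 • (1 : MQ E a b) := ⟨_, _, _, D.cube⟩
  obtain ⟨⟨f2, f1, f0⟩, g2, g1, g0⟩ := coef_fix W.rel hD hs hP D.ind
  obtain ⟨p2, hp2⟩ := exists_kW W f2 g2
  obtain ⟨p1, hp1⟩ := exists_kW W f1 g1
  obtain ⟨p0, hp0⟩ := exists_kW W f0 g0
  obtain ⟨p, hpe⟩ : ∃ p : Fin 3 → k, p = ![p0, p1, p2] := ⟨_, rfl⟩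
  have hp : Tm v x ^ 3 = ez (Tm v x) (fun i => algebraMap k E (p i)) := by
    rw [hP, ez, hpe]
    change _ = algebraMap k E p0 • 1 + algebraMap k E p1 • Tm v x + algebraMap k E p2 • Tm v x ^ 2
    rw [hp0, hp1, hp2]
    abel
  have hk : ∀ t : Fin 3 → k, ez (Tm v x) (fun i => algebraMap k E (t i)) = 0 → t = 0 := by
    intro t ht
    obtain ⟨e0, e1, e2⟩ := D.ind _ _ _ ht
    funext i
    fin_cases i
    · exact (map_eq_zero _).1 e0
    · exact (map_eq_zero _).1 e1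
    · exact (map_eq_zero _).1 e2
  obtain ⟨F, _, _, _, ι, x0, H, hx0, -⟩ := exists_frW (W := W) hD hs D.hv D.nv hz hp hk
  -- the image frame
  have hpx : x0 ^ 3 = ez x0 p := by
    apply ι.toRingHom.injective
    apply toW_injective W
    change toW W (ι (x0 ^ 3)) = toW W (ι (ez x0 p))
    rw [toW_ez, map_pow, map_pow, hx0, hp]
  have hcub := H.cub hpx
  rw [hx0] at hcub
  have hrel' := D.toFr.cube_map hh1 hV hcub.rel
  have hcub' : Cub (Tm (h v) (h x)) (algebraMap k E (p 2)) (algebraMap k E (p 1))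
      (algebraMap k E (p 0)) := by
    refine ⟨hrel', fun t ht => ?_⟩
    obtain ⟨e0, e1, e2⟩ := D'.ind _ _ _ ht
    funext i
    fin_cases i
    · exact e0
    · exact e1
    · exact e2
  have hconj : ∀ t : Fin 3 → E, ez (Tm (h v) (h x)) t =
      (m0 : MQ E a b) * ez (Tm v x) t * ((m0⁻¹ : (MQ E a b)ˣ) : MQ E a b) := by
    intro t
    have e1 : (m0 : MQ E a b) * Tm v x ^ 2 = Tm (h v) (h x) ^ 2 * (m0 : MQ E a b) := by
      rw [pow_two, pow_two, ← Matrix.mul_assoc, hm, Matrix.mul_assoc, hm, Matrix.mul_assoc]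
    have e2 : (m0 : MQ E a b) * ez (Tm v x) t = ez (Tm (h v) (h x)) t * (m0 : MQ E a b) := by
      rw [ez, ez, Matrix.mul_add, Matrix.mul_add, Matrix.add_mul, Matrix.add_mul,
        Matrix.mul_smul, Matrix.mul_smul, Matrix.mul_smul, Matrix.smul_mul, Matrix.smul_mul,
        Matrix.smul_mul, e1, hm, Matrix.mul_one, Matrix.one_mul]
    rw [e2, Matrix.mul_assoc, Units.mul_inv, Matrix.mul_one]
  have hu' : IsUnit (ez (Tm (h v) (h x)) ![-algebraMap k E (p 1), -(2 * algebraMap k E (p 2)),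
      3]) := by
    rw [hconj]
    have h1 := H.unit p
    rw [hx0] at h1
    exact (m0.isUnit.mul h1).mul (m0⁻¹).isUnit
  -- the element `w`
  have hzy : Tm (h v) (h x) * mat (act m0 1 v) = mat (act m0 1 v) * (Tm (h v) (h x))ᴴ := by
    rw [E6.mat_act]
    calc _ = (Tm (h v) (h x) * (m0 : MQ E a b)) * mat v * (m0 : MQ E a b)ᴴ := by
          simp only [Matrix.mul_assoc]
      _ = (m0 : MQ E a b) * (Tm v x * mat v) * (m0 : MQ E a b)ᴴ := by
          rw [← hm]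
          simp only [Matrix.mul_assoc]
      _ = (m0 : MQ E a b) * mat v * ((m0 : MQ E a b) * Tm v x)ᴴ := by
          rw [hz, Matrix.conjTranspose_mul]
          simp only [Matrix.mul_assoc]
      _ = _ := by
          rw [hm, Matrix.conjTranspose_mul]
          simp only [Matrix.mul_assoc]
  have hiy : InVs (act m0 1 v) := E6I.Gn.inV_act D.hv _ _
  obtain ⟨t, ht⟩ := vz D'.hv D'.nv D'.herm hcub' hu' hiy hzy
  obtain ⟨w, hw⟩ : ∃ w, w = t 0 • v + t 1 • x + t 2 • sqv v x := ⟨_, rfl⟩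
  have hwU : w ∈ U := by
    rw [hw]
    exact D.comb_mem _ _ _
  have hact : act m0 1 v = h w := by
    refine inV_ext hiy (hV _ hwU) ?_
    rw [ht, ← Tm_mul D'.hv D'.nv (h w), hw, D.toFr.comb_map hh1 hV]
    rfl
  have hlD := D.psi_l hh1 hV hh2 hm0 hm hwU hact
  have hs' : adjM σ g (Tm (h v) (h x)) = Tm (h v) (h x) :=
    D.adjM_map W.rel.σg hh1 hV hpol hs
  obtain ⟨hSc, hSn⟩ := D.key (H64.aniso_of_division W.hdiv) W.rel.σg hh1 hV hpol hs hs' hm hwU hact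
  -- the elements of the algebra
  have hmS : InD ρ lam (adjM σ g (m0 : MQ E a b)) := inD_adjM W.rel hm0
  have hSD : InD ρ lam (adjM σ g (m0 : MQ E a b) * (m0 : MQ E a b)) := hmS.mul hm0
  obtain ⟨M0, hM0⟩ : ∃ M0 : BW W, toW W M0 = (m0 : MQ E a b) := ⟨ofW W hm0, rfl⟩
  obtain ⟨l, hl⟩ : ∃ l : BW W, toW W l = Tm v w := ⟨ofW W hlD, rfl⟩
  have hSt : toW W (star M0 * M0) = adjM σ g (m0 : MQ E a b) * (m0 : MQ E a b) := by
    rw [map_mul, toW_star, hM0]
  have hSm : star M0 * M0 ∈ Cen ι := by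
    rw [H.mem_iff, hSt, hx0]
    exact hSc
  have hSs : star (star M0 * M0) = star M0 * M0 := by rw [star_mul, star_star]
  -- the element `l`
  obtain ⟨d0, d1, d2, hd⟩ := D.span hwU
  have hle : Tm v w = ez (toW W (ι x0)) ![d0, d1, d2] := by
    rw [hd, hx0]
    rfl
  obtain ⟨pl, rl, hpr⟩ := H.desc (by rw [← hle]; exact hlD)
  have hl2 : l = ι (ez x0 pl) + algebraMap (KW W) (BW W) (thK W) * ι (ez x0 rl) := by
    apply toW_injective W
    rw [hl, hle, map_add, map_mul, toW_ez, toW_ez, toW_algebraMap, smul_mul_assoc,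
      one_mul, algebraMap_thK, ← ez_smul, ← ez_add]
    congr 1
    funext i
    exact hpr i
  have hB' := H.bar
  -- the norm of `S`
  have hn : (star M0 * M0) * barW W v (star M0 * M0) = l * star l := by
    apply toW_injective W
    rw [map_mul, map_mul (toW W) l, H.toW_bar hSm, toW_star, hSt, hl]
    apply H619.mat_cancel D.hv D.nv
    rw [Matrix.mul_assoc, barM_mul D.hv D.nv, ← Matrix.mul_assoc]
    exact hSn
  -- the trace of `S`
  have hkap : algebraMap k F kap ≠ 0 := (map_ne_zero _).2 kap.ne_zero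
  obtain ⟨q, r, hqr⟩ := hB'.tr _ hSm
  have hbs : star (barW W v (star M0 * M0)) = barW W v (star M0 * M0) := by
    rw [← hB'.st _ hSm, hSs]
  have hq := hB'.of_sym hkap hqr (by rw [star_add, hSs, hbs])
  have hls : l + star l = ι (2 * ez x0 pl) := by
    rw [hl2, star_add, star_mul, hB'.sym, hB'.sym, hB'.star_s, map_mul, map_ofNat, mul_neg, hB'.ιs,
      two_mul]
    abel
  obtain ⟨m, hme⟩ : ∃ m, m = q + 2 * ez x0 pl := ⟨_, rfl⟩
  have hmm : star M0 * M0 + barW W v (star M0 * M0) + (l + star l) = ι m := by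
    rw [hq, hls, hme, map_add]
  obtain ⟨tm, htm⟩ := H.gen m
  have hMM : MM σ g v (m0 : MQ E a b) (Tm v w) = ez (Tm v x) (fun i => algebraMap k E (tm i)) := by
    have h1 := congrArg (toW W) hmm
    rw [map_add, map_add, map_add, H.toW_bar hSm, toW_star, hSt, hl, htm, toW_ez, hx0] at h1
    exact h1
  obtain ⟨ht0, hpos⟩ := hsgn w hwU hact tm p hp hMM
  have hm00 : m ≠ 0 := by
    rw [htm]
    intro h0
    exact ht0 (H.ind _ h0)
  -- the quaternion algebra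
  obtain ⟨α, β, i, j, hfr, hbi, hbj⟩ := hB'.exists_QFr hkap (cen_nc H)
  obtain ⟨φ, hφ⟩ := exists_qhom hfr
  have HQ : BarQ ι (algebraMap k F kap) (algebraMap (KW W) (BW W) (thK W)) (barW W v) α β i j φ :=
    ⟨hB', hfr, hbi, hbj, hkap, hφ⟩
  obtain ⟨y, hy, hy1, hy2⟩ := HQ.exists_sol hSm hSs hl2 hn hmm hm00 (fun ψ _ _ => by
    have h1 := hpos (ψ.comp (algebraMap k F)) (ψ x0) (by
      have h2 := congrArg ψ hpx
      rw [map_pow, ez, map_add, map_add, Algebra.smul_def, Algebra.smul_def, Algebra.smul_def,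
        mul_one, map_mul, map_mul, map_pow] at h2
      rw [h2]
      change _ = ψ (algebraMap k F (p 2)) * ψ x0 ^ 2 + ψ (algebraMap k F (p 1)) * ψ x0 +
        ψ (algebraMap k F (p 0))
      ring)
    have h3 : ψ m = (ψ.comp (algebraMap k F)) (tm 0) + (ψ.comp (algebraMap k F)) (tm 1) * ψ x0 +
        (ψ.comp (algebraMap k F)) (tm 2) * ψ x0 ^ 2 := by
      rw [htm, ez, map_add, map_add, Algebra.smul_def, Algebra.smul_def, Algebra.smul_def,
        mul_one, map_mul, map_mul, map_pow]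
      rfl
    rw [h3]
    exact h1)
  -- the final element
  have hM00 : M0 ≠ 0 := by
    rintro rfl
    rw [map_zero] at hM0
    have h1 : (m0 : MQ E a b) * ((m0⁻¹ : (MQ E a b)ˣ) : MQ E a b) = 1 := Units.mul_inv _
    rw [← hM0, Matrix.zero_mul] at h1
    exact zero_ne_one h1
  have hy0 : y ≠ 0 := by
    rintro rfl
    rw [mul_zero] at hy1
    exact zero_ne_one hy1
  obtain ⟨m1, hm1⟩ : ∃ m1 : (MQ E a b)ˣ, (m1 : MQ E a b) = toW W (M0 * y) :=
    ⟨⟨toW W (M0 * y), toW W (M0 * y)⁻¹, by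
      rw [← map_mul, mul_inv_cancel₀ (mul_ne_zero hM00 hy0), map_one], by
      rw [← map_mul, inv_mul_cancel₀ (mul_ne_zero hM00 hy0), map_one]⟩, rfl⟩
  have c1 : InD ρ lam (m1 : MQ E a b) := by
    rw [hm1]
    exact inD_toW W _
  have c2 : adjM σ g (m1 : MQ E a b) * (m1 : MQ E a b) = 1 := by
    rw [hm1, ← toW_star, ← map_mul, star_mul]
    have : star y * star M0 * (M0 * y) = 1 := by
      rw [← hy1]
      simp only [mul_assoc]
    rw [this, map_one]
  have hyc := H.mem_iff.1 hy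
  rw [hx0] at hyc
  have c3 : (m1 : MQ E a b) * Tm v x = Tm (h v) (h x) * (m1 : MQ E a b) := by
    rw [hm1, map_mul, hM0, Matrix.mul_assoc, hyc, ← Matrix.mul_assoc, hm, Matrix.mul_assoc]
  have c4 : (m1 : MQ E a b) * mat v * (m1 : MQ E a b)ᴴ = mat (h v) := by
    -- `y v yᴴ = (y ȳ) v` and `l (y ȳ) = 1`
    have e1 : toW W y * mat v * (toW W y)ᴴ = toW W (y * barW W v y) * mat v := by
      rw [map_mul, H.toW_bar hy, Matrix.mul_assoc (toW W y) (barM v (toW W y)),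
        barM_mul D.hv D.nv, ← Matrix.mul_assoc]
    have e2 : (m0 : MQ E a b) * mat v * (m0 : MQ E a b)ᴴ = Tm (h v) (h w) * mat (h v) := by
      rw [← E6.mat_act m0 1, hact, Tm_mul D'.hv D'.nv]
    -- the inverse of `l`
    have hl0 : l ≠ 0 := by
      rintro rfl
      rw [zero_mul] at hy2
      exact zero_ne_one hy2
    have e3 : y * barW W v y = l⁻¹ := eq_inv_of_mul_eq_one_right hy2
    -- `l⁻¹ v` belongs to the frame
    obtain ⟨u, hu, hul⟩ : ∃ u ∈ U, Tm v u * Tm v w = 1 := by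
      have hw0 : cub w ≠ 0 := by
        rw [← hh1, ← hact, cub_act_one (H64.aniso_of_division W.hdiv) m0 D.hv]
        exact mul_ne_zero (nu_ne_zero (H64.aniso_of_division W.hdiv) m0) D.nv
      obtain ⟨u, hu, hu'⟩ := D.div hwU hw0 D.mv
      exact ⟨u, hu, by rw [hu', Tm_self D.hv D.nv]⟩
    have e4 : toW W l⁻¹ = Tm v u := by
      have h1 : toW W l⁻¹ * Tm v w = 1 := by
        rw [← hl, ← map_mul, inv_mul_cancel₀ hl0, map_one]
      have h2 : Tm v w * toW W l⁻¹ = 1 := by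
        rw [← hl, ← map_mul, mul_inv_cancel₀ hl0, map_one]
      calc toW W l⁻¹ = (Tm v u * Tm v w) * toW W l⁻¹ := by rw [hul, Matrix.one_mul]
        _ = _ := by rw [Matrix.mul_assoc, h2, Matrix.mul_one]
    have e5 : Tm (h v) (h u) * Tm (h v) (h w) = 1 := by
      have h1 : Tm v u * mat w = mat v := by
        rw [← Tm_mul D.hv D.nv w, ← Matrix.mul_assoc, hul, Matrix.one_mul]
      have h2 := D.toFr.mulrel' hh1 hV hu hwU D.mv h1
      apply H619.mat_cancel D'.hv D'.nv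
      rw [Matrix.mul_assoc, Tm_mul D'.hv D'.nv, h2, Matrix.one_mul]
    have e6 : (m0 : MQ E a b) * Tm v u = Tm (h v) (h u) * (m0 : MQ E a b) :=
      D.toFr.intw hh1 hV hm hu
    rw [hm1, map_mul, hM0, Matrix.conjTranspose_mul]
    calc _ = (m0 : MQ E a b) * (toW W y * mat v * (toW W y)ᴴ) * (m0 : MQ E a b)ᴴ := by
          simp only [Matrix.mul_assoc]
      _ = ((m0 : MQ E a b) * Tm v u) * mat v * (m0 : MQ E a b)ᴴ := by
          rw [e1, e3, e4]
          simp only [Matrix.mul_assoc]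
      _ = Tm (h v) (h u) * ((m0 : MQ E a b) * mat v * (m0 : MQ E a b)ᴴ) := by
          rw [e6]
          simp only [Matrix.mul_assoc]
      _ = _ := by rw [e2, ← Matrix.mul_assoc, e5, Matrix.one_mul]
  have c5 : nu (m1 : MQ E a b) = 1 := by
    have h1 : cub (act m1 1 v) = nu (m1 : MQ E a b) * cub v := cub_act_one (H64.aniso_of_division W.hdiv) m1 D.hv
    have h2 : act m1 1 v = h v := by
      refine inV_ext (E6I.Gn.inV_act D.hv _ _) D'.hv ?_
      rw [E6.mat_act, c4]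
    rw [h2, hh1] at h1
    exact mul_right_cancel₀ D.nv (by rw [← h1, one_mul])
  -- the conclusion
  obtain ⟨φ1, hφ1⟩ : ∃ φ1 : AlbL E a b c ≃ₗ[E] AlbL E a b c, ∀ y, φ1 y = act m1 1 y :=
    ⟨H64.actL two_ne_zero m1 1, fun y => by rw [H64.actL_apply, Units.val_one]⟩
  have hφR := hSq m1 c1 c2 c5 φ1 hφ1
  have hφG : φ1 ∈ GO ρ σ lam g a b c := by
    obtain ⟨ψ, -, hψ⟩ := hφR
    rw [← hψ]
    exact ψ.2
  have hd : φ1⁻¹ * h ∈ Res_m ρ σ lam g a b c := by
    refine hB _ (mul_mem (inv_mem hφG) ⟨hh1, hh2, hh3⟩) ?_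
    intro y hy
    have h1 : φ1 y = h y := by
      rw [hφ1]
      exact D.toFr.agree hh1 hV c3 c4 hy
    change φ1⁻¹ (h y) = y
    rw [← h1, ← LinearEquiv.mul_apply, inv_mul_cancel]
    rfl
  have e : h = φ1 * (φ1⁻¹ * h) := by rw [mul_inv_cancel_left]
  rw [e]
  exact mul_mem hφR hd

end exact

end Vale.Agent.P011.E6W.H619

end

section

open Filter Topology

set_option linter.unusedSectionVars false

namespace Vale.Agent.P011.E6W.H619

open Vale.Agent.P011.MPQ hiding mat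

open Vale.Agent.P011.D4 Vale.Agent.P011.D4.Oct Vale.Agent.P011.E6 Alb

open Vale.Agent.P011.D4W

open Vale.Agent.P011.E6O

open Vale.Agent.P011.E6H (nm qnm qnm_nonneg)

open Vale.Agent.P011.E6I (MQ toMQ toMQ_apply toMQ_mul toMQ_one InVs cub_of_inV)

open Vale.Agent.P011.E6I.Gn (Tm Tm_apply Tm_mul Tm_self Tm_inj Tm_cancel Tm_sq Tm_cube inV_ext
  inV_add inV_smul inV_adj inV_cross mat_mul_adj mat_adj_mul)

open Vale.Agent.P011.E6W.H183

open Matrix

section near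

variable {k E X : Type} [Field k] [NumberField k] [Field E] [NumberField E] [Algebra k E]
  {ρ σ : E ≃ₐ[k] E} {lam : Eˣ} {g : Fin 3 → Eˣ} {th s : E} {kap a b c : kˣ}
  {W : WH ρ σ lam g th s kap a b c} {F : Filter X}

/-- **The elements of the group which are close to an element with a frame.** -/
theorem near_res_m (W : WH ρ σ lam g th s kap a b c) (hSq : SqRes_m ρ σ lam g a b c)
    {h : X → AlbL E a b c ≃ₗ[E] AlbL E a b c} {n0 : AlbL E a b c ≃ₗ[E] AlbL E a b c}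
    (hh : ∀ i, h i ∈ GO ρ σ lam g a b c)
    (hlim : ∀ y, AV (SA E) F (fun i => h i y) (n0 y)) {v0 x0 : AlbL E a b c}
    (hv0 : InVs v0) (hx0 : InVs x0) (nv0 : cub v0 ≠ 0) (nx0 : cub x0 ≠ 0)
    (fv : n0 v0 = v0) (fx : n0 x0 = x0)
    (hD : InD ρ lam (Tm v0 x0)) (hs : adjM σ g (Tm v0 x0) = Tm v0 x0)
    (hind : ∀ t : Fin 3 → E, ez (Tm v0 x0) t = 0 → t = 0)
    (hU : ∀ y, InVs y → InVs (n0 y) → ∃ t : Fin 3 → E, Alb.mat y = ez (Tm v0 x0) t * Alb.mat v0)
    {q : Fin 3 → k} (hq : Tm v0 x0 ^ 3 = ez (Tm v0 x0) (fun i => algebraMap k E (q i)))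
    (hdq : dsc (algebraMap k E (q 2)) (algebraMap k E (q 1)) (algebraMap k E (q 0)) ≠ 0)
    (hB : ∃ t : ℝ, 0 < t ∧ ∀ (z : MQ E a b) (v : AlbL E a b c) (p₂ p₁ p₀ : k),
      Frame ρ σ lam g z v p₂ p₁ p₀ → NearM t (Tm v0 x0) z → NearV t v0 v →
      ∀ d ∈ GO ρ σ lam g a b c, FixFr z v d → d ∈ Res_m ρ σ lam g a b c) :
    ∀ᶠ i in F, h i ∈ Res_m ρ σ lam g a b c := by
  have hne : (SA E).Nonempty := SA_nonempty
  have hcub : ∀ i y, cub (h i y) = cub y := fun i => (hh i).1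
  have hph : ∀ i y, h i (E6O.ph ρ lam y) = E6O.ph ρ lam (h i y) := fun i => (hh i).2.1
  have hpol : ∀ i y, h i (H183.pol σ g y) = H183.pol σ g (h i y) := fun i y =>
    map_pol W.rel.σ2 (hh i).1 (hh i).2.2 y
  obtain ⟨v, x, lv, lx, hF⟩ := exists_frames hne (Stb_SA ρ) (Stb_SA σ) W.rel W.ρ3 W.ρlam hcub hph
    hpol hlim hv0 hx0 nv0 nx0 fv fx hD hs hind hU
  have hUV : ∀ i, ∀ y ∈ UW (h i), InVs (h i y) := fun i y hy => hy.2
  obtain ⟨z0, hz0⟩ : ∃ z0, z0 = Tm v0 x0 := ⟨_, rfl⟩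
  rw [← hz0] at hD hs hind hU hq hB
  -- the limits of the quotients
  have iv : ∀ᶠ i in F, InVs (v i) := hF.mono fun i hi => hi.1.hv
  have lz : AV (SA E) F (fun i => Tm (v i) (x i)) z0 := by
    rw [hz0]
    exact Tm_lim hne lv lx iv hv0 nv0
  have lhv : AV (SA E) F (fun i => h i (v i)) v0 := by
    have h1 := AV.app (h := fun i => (h i : AlbL E a b c →ₗ[E] AlbL E a b c))
      (h0 := (n0 : AlbL E a b c →ₗ[E] AlbL E a b c)) hlim lv
    refine h1.congr (fun _ => rfl) fv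
  have lhx : AV (SA E) F (fun i => h i (x i)) x0 := by
    have h1 := AV.app (h := fun i => (h i : AlbL E a b c →ₗ[E] AlbL E a b c))
      (h0 := (n0 : AlbL E a b c →ₗ[E] AlbL E a b c)) hlim lx
    refine h1.congr (fun _ => rfl) fx
  have ihv : ∀ᶠ i in F, InVs (h i (v i)) := hF.mono fun i hi => hUV i _ hi.1.mv
  have lz' : AV (SA E) F (fun i => Tm (h i (v i)) (h i (x i))) z0 := by
    rw [hz0]
    exact Tm_lim hne lhv lhx ihv hv0 nv0
  -- the polynomials
  obtain ⟨p, hp⟩ : ∃ p : X → Fin 3 → k, ∀ i, (Frs ρ σ lam g (UW (h i)) (v i) (x i) ∧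
      InD ρ lam (Tm (v i) (x i)) ∧ adjM σ g (Tm (v i) (x i)) = Tm (v i) (x i)) →
      Tm (v i) (x i) ^ 3 = ez (Tm (v i) (x i)) (fun j => algebraMap k E (p i j)) := by
    have h1 : ∀ i, ∃ p : Fin 3 → k, (Frs ρ σ lam g (UW (h i)) (v i) (x i) ∧
        InD ρ lam (Tm (v i) (x i)) ∧ adjM σ g (Tm (v i) (x i)) = Tm (v i) (x i)) →
        Tm (v i) (x i) ^ 3 = ez (Tm (v i) (x i)) (fun j => algebraMap k E (p j)) := by
      intro i
      by_cases hi : Frs ρ σ lam g (UW (h i)) (v i) (x i) ∧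
        InD ρ lam (Tm (v i) (x i)) ∧ adjM σ g (Tm (v i) (x i)) = Tm (v i) (x i)
      · obtain ⟨D, hDi, hsi⟩ := hi
        obtain ⟨P2, P1, P0, hP⟩ : ∃ P2 P1 P0 : E, Tm (v i) (x i) ^ 3 = P2 • Tm (v i) (x i) ^ 2 +
            P1 • Tm (v i) (x i) + P0 • (1 : MQ E a b) := ⟨_, _, _, D.cube⟩
        obtain ⟨⟨f2, f1, f0⟩, g2, g1, g0⟩ := coef_fix W.rel hDi hsi hP D.ind
        obtain ⟨p2, hp2⟩ := exists_kW W f2 g2
        obtain ⟨p1, hp1⟩ := exists_kW W f1 g1
        obtain ⟨p0, hp0⟩ := exists_kW W f0 g0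
        refine ⟨![p0, p1, p2], fun _ => ?_⟩
        rw [hP, ez]
        change _ = algebraMap k E p0 • 1 + algebraMap k E p1 • Tm (v i) (x i) +
          algebraMap k E p2 • Tm (v i) (x i) ^ 2
        rw [hp0, hp1, hp2]
        abel
      · exact ⟨0, fun h => absurd h hi⟩
    choose p hp using h1
    exact ⟨p, hp⟩
  have lp : ∀ j, AE (SA E) F (fun i => algebraMap k E (p i j)) (algebraMap k E (q j)) := by
    refine ez_coef hne lz hind (t := fun i j => algebraMap k E (p i j))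
      (t0 := fun j => algebraMap k E (q j)) ?_
    have h1 := lz.pow 3
    rw [hq] at h1
    refine h1.congr' ?_
    filter_upwards [hF] with i hi
    exact hp i hi
  -- the intertwining matrices
  obtain ⟨m, hm⟩ : ∃ m : X → MQ E a b, m = fun i => dd (algebraMap k E (p i 2))
    (algebraMap k E (p i 1)) (Tm (h i (v i)) (h i (x i))) (Tm (v i) (x i)) := ⟨_, rfl⟩
  have lm : AV (SA E) F m (H541.fd (algebraMap k E (q 2)) (algebraMap k E (q 1)) z0) := by
    rw [hm, ← dd_self]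
    exact ((((lz'.pow 2).add (lz'.mul lz)).add (lz.pow 2)).sub
      (AV.smul (lp 2) (lz'.add lz))).sub (AV.smul (lp 1) (AV.const _ _ 1))
  obtain ⟨G, hG⟩ : ∃ G : X → MQ E a b, G = fun i =>
    (-dsc (algebraMap k E (p i 2)) (algebraMap k E (p i 1)) (algebraMap k E (p i 0)))⁻¹ •
      H541.gd (algebraMap k E (p i 2)) (algebraMap k E (p i 1)) (algebraMap k E (p i 0))
        (Tm (v i) (x i)) := ⟨_, rfl⟩
  have lG : AV (SA E) F G
      ((-dsc (algebraMap k E (q 2)) (algebraMap k E (q 1)) (algebraMap k E (q 0)))⁻¹ •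
      H541.gd (algebraMap k E (q 2)) (algebraMap k E (q 1)) (algebraMap k E (q 0)) z0) := by
    rw [hG]
    have c0 := fun (t : E) => AE.const (SA E) F t
    have i1 := lp 2
    have i2 := lp 1
    have i3 := lp 0
    refine AV.smul (AE.inv (AE.neg ?_) (neg_ne_zero.2 hdq)) ?_
    · exact (((((i1.pow 2).mul (i2.pow 2)).add ((c0 4).mul (i2.pow 3))).sub
        (((c0 4).mul (i1.pow 3)).mul i3)).sub ((((c0 18).mul i1).mul i2).mul i3)).sub
        ((c0 27).mul (i3.pow 2))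
    · exact ((AV.smul (((i2.mul (i1.pow 2)).add ((c0 4).mul (i2.pow 2))).sub
        (((c0 3).mul i3).mul i1)) (AV.const _ _ 1)).add
        (AV.smul ((((c0 2).mul (i1.pow 3)).add (((c0 7).mul i2).mul i1)).add ((c0 9).mul i3))
          lz)).add (AV.smul (((c0 2).mul (i1.pow 2)).neg.sub ((c0 6).mul i2)) (lz.mul lz))
  have hq' : z0 * z0 * z0 = algebraMap k E (q 2) • (z0 * z0) + algebraMap k E (q 1) • z0 +
      algebraMap k E (q 0) • (1 : MQ E a b) := by
    rw [← pow_two, ← pow_succ, hq, ez]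
    abel
  have lmG : AV (SA E) F (fun i => m i * G i) 1 := by
    refine (lm.mul lG).congr (fun _ => rfl) ?_
    rw [Matrix.mul_smul, H541.fd_mul_gd hq', smul_smul, inv_mul_cancel₀ (neg_ne_zero.2 hdq),
      one_smul]
  have hInt : ∀ᶠ i in F, m i * G i * Tm (v i) (x i) =
      Tm (h i (v i)) (h i (x i)) * (m i * G i) := by
    filter_upwards [hF] with i hi
    have h1 := hp i hi
    obtain ⟨D, hDi, hsi⟩ := hi
    have h2 : Tm (v i) (x i) ^ 3 = algebraMap k E (p i 2) • Tm (v i) (x i) ^ 2 +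
        algebraMap k E (p i 1) • Tm (v i) (x i) + algebraMap k E (p i 0) • (1 : MQ E a b) := by
      rw [h1, ez]
      abel
    have h3 := D.toFr.cube_map (hcub i) (hUV i) h2
    have h4 := dd_comm h3 h2
    have h5 : Tm (v i) (x i) * G i = G i * Tm (v i) (x i) := by
      rw [hG]
      beta_reduce
      rw [mul_smul_comm, smul_mul_assoc, gd_comm rfl]
    have h6 : m i = dd (algebraMap k E (p i 2)) (algebraMap k E (p i 1))
      (Tm (h i (v i)) (h i (x i))) (Tm (v i) (x i)) := by rw [hm]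
    rw [mul_assoc, ← h5, ← mul_assoc, h6, ← h4, mul_assoc]
  have hInD : ∀ᶠ i in F, InD ρ lam (m i * G i) := by
    filter_upwards [hF] with i hi
    obtain ⟨D, hDi, hsi⟩ := hi
    have h1 := D.inD_map (hcub i) (hUV i) (hph i) hDi
    rw [hm, hG]
    refine (inD_dd h1 hDi _ _).mul (inD_smul (inD_gd hDi _ _ _) ?_)
    rw [dsc_map, ← map_neg, ← map_inv₀]
    exact ρ.commutes _
  -- the units
  obtain ⟨mu, hmu⟩ : ∃ mu : X → (MQ E a b)ˣ, ∀ i, InD ρ lam (m i * G i) → m i * G i ≠ 0 →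
      ((mu i : (MQ E a b)ˣ) : MQ E a b) = m i * G i := by
    have h1 : ∀ i, ∃ u : (MQ E a b)ˣ, InD ρ lam (m i * G i) → m i * G i ≠ 0 →
        (u : MQ E a b) = m i * G i := by
      intro i
      by_cases hi : InD ρ lam (m i * G i) ∧ m i * G i ≠ 0
      · obtain ⟨u, hu⟩ := exists_unit W hi.1 hi.2
        exact ⟨u, fun _ _ => hu⟩
      · exact ⟨1, fun h1 h2 => absurd ⟨h1, h2⟩ hi⟩
    choose mu hmu using h1
    exact ⟨mu, hmu⟩
  have hmu' : ∀ᶠ i in F, m i * G i = ((mu i : (MQ E a b)ˣ) : MQ E a b) := by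
    filter_upwards [hInD, lmG.eventually_ne hne one_ne_zero] with i h1 h2
    exact (hmu i h1 h2).symm
  have lmu : AV (SA E) F (fun i => ((mu i : (MQ E a b)ˣ) : MQ E a b)) 1 := lmG.congr' hmu'
  have linv : AV (SA E) F (fun i => (((mu i)⁻¹ : (MQ E a b)ˣ) : MQ E a b)) 1 :=
    AV.inv hne lmu (one_mul 1) (one_mul 1) (Eventually.of_forall fun i => Units.mul_inv (mu i))
  have lmi : AV (SA E) F (fun i => mi (h i (v i))) (mi v0) := mi_lim hne lhv ihv hv0 nv0
  have lmi' : AV (SA E) F (fun i => mi (v i)) (mi v0) := mi_lim hne lv iv hv0 nv0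
  obtain ⟨L, hL⟩ : ∃ L : X → MQ E a b, L = fun i => (((mu i)⁻¹ : (MQ E a b)ˣ) : MQ E a b) *
      (((mu i : (MQ E a b)ˣ) : MQ E a b) * Alb.mat (v i) * ((mu i : (MQ E a b)ˣ) : MQ E a b)ᴴ *
        mi (h i (v i))) * ((mu i : (MQ E a b)ˣ) : MQ E a b) := ⟨_, rfl⟩
  have lL : AV (SA E) F L 1 := by
    rw [hL]
    refine ((linv.mul (((lmu.mul lv.mat).mul lmu.ct).mul lmi)).mul lmu).congr (fun _ => rfl) ?_
    rw [Matrix.conjTranspose_one, Matrix.mul_one, Matrix.one_mul, Matrix.one_mul,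
      Matrix.mul_one, mat_mul_mi hv0 nv0]
  obtain ⟨SS, hSS⟩ : ∃ SS : X → MQ E a b, SS = fun i =>
      adjM σ g ((mu i : (MQ E a b)ˣ) : MQ E a b) * ((mu i : (MQ E a b)ˣ) : MQ E a b) := ⟨_, rfl⟩
  have lS : AV (SA E) F SS 1 := by
    rw [hSS]
    refine ((lmu.adjM (g := g) (Stb_SA σ)).mul lmu).congr (fun _ => rfl) ?_
    rw [adjM_one, Matrix.one_mul]
  obtain ⟨M, hM⟩ : ∃ M : X → MQ E a b, M = fun i => SS i + barM (v i) (SS i) +
      (L i + adjM σ g (L i)) := ⟨_, rfl⟩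
  have lM : AV (SA E) F M (ez z0 (fun j => algebraMap k E ((![4, 0, 0] : Fin 3 → k) j))) := by
    have lb : AV (SA E) F (fun i => barM (v i) (SS i)) 1 := by
      refine ((lv.mat.mul lS.ct).mul lmi').congr (fun i => ?_) ?_
      · rw [barM, mi, Matrix.mul_smul]
      · rw [Matrix.conjTranspose_one, Matrix.mul_one, mat_mul_mi hv0 nv0]
    rw [hM]
    refine ((lS.add lb).add (lL.add (lL.adjM (g := g) (Stb_SA σ)))).congr (fun _ => rfl) ?_
    rw [adjM_one, ez]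
    change _ = algebraMap k E 4 • (1 : MQ E a b) + algebraMap k E 0 • z0 +
      algebraMap k E 0 • z0 ^ 2
    rw [map_zero, zero_smul, zero_smul, add_zero, add_zero, map_ofNat]
    module
  -- the bounds
  obtain ⟨C, hC⟩ : ∃ C : ℝ, ∀ (w : E →+* ℂ) (j : Fin 3), ‖w (algebraMap k E (q j))‖ ≤ C := by
    have hfin : (Set.range fun wj : (E →+* ℂ) × Fin 3 =>
      ‖wj.1 (algebraMap k E (q wj.2))‖).Finite := Set.finite_range _
    obtain ⟨C, hC⟩ := hfin.bddAbove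
    exact ⟨C, fun w j => hC ⟨(w, j), rfl⟩⟩
  obtain ⟨w0⟩ : Nonempty (E →+* ℂ) := inferInstance
  have hC0 : 0 ≤ C := (norm_nonneg _).trans (hC w0 0)
  obtain ⟨R, hR⟩ : ∃ R, R = 1 + 3 * (C + 1) := ⟨_, rfl⟩
  have hR0 : 0 ≤ R := by rw [hR]; positivity
  obtain ⟨δ, hδ⟩ : ∃ δ, δ = (1 + R + R ^ 2)⁻¹ := ⟨_, rfl⟩
  have hRR : 0 < 1 + R + R ^ 2 := by positivity
  have hδ0 : 0 < δ := by rw [hδ]; positivity
  have hδR : δ * (1 + R + R ^ 2) ≤ 1 := by
    rw [hδ, inv_mul_cancel₀ hRR.ne']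
  have hδ1 : δ ≤ 1 := by
    rw [hδ]
    apply inv_le_one_of_one_le₀
    nlinarith
  have hMt := ez_coef_all hne SA_finite lz hind lM hδ0
  have hpt : ∀ᶠ i in F, ∀ p' ∈ SA E, ∀ j,
      p' (algebraMap k E (p i j) - algebraMap k E (q j)) < 1 := by
    rw [eventually_all_finite SA_finite]
    intro p' hp'
    rw [eventually_all]
    intro j
    exact (lp j).eventually_lt hp' one_pos
  -- the proximity
  obtain ⟨t, ht0, hB⟩ := hB
  have hnz : ∀ᶠ i in F, NearM t z0 (Tm (v i) (x i)) := by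
    unfold NearM
    rw [eventually_all]
    intro w
    filter_upwards [(tendsto_mnm lz w).eventually (gt_mem_nhds ht0)] with i hi
    exact hi.le
  have hnv : ∀ᶠ i in F, NearV t v0 (v i) := by
    unfold NearV
    rw [eventually_all]
    intro w
    filter_upwards [(tendsto_nm lv w).eventually (gt_mem_nhds ht0)] with i hi
    exact hi.le
  filter_upwards [hF, hInt, hInD, hmu', hMt, hpt, hnz, hnv] with i hi h1 h2 h3 h4 h5 h6 h7
  have hpi := hp i hi
  obtain ⟨D, hDi, hsi⟩ := hi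
  rw [h3] at h1 h2
  have D' := D.toFr.map (hcub i) (hUV i)
  refine mem_of_frame_m W hSq (hh i) D (hUV i) hDi hsi h2 h1 ?_ ?_
  · intro w hw hact tt pp hpp hMM
    -- the coefficients of the cubic relation
    have hpe : pp = p i := by
      rw [hpi] at hpp
      have e1 : ez (Tm (v i) (x i)) ((fun j => algebraMap k E (p i j)) +
          (-1 : E) • fun j => algebraMap k E (pp j)) = 0 := by
        rw [ez_add, ez_smul, ← hpp]
        module
      obtain ⟨d0, d1, d2⟩ := D.ind _ _ _ e1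
      have e2 : ∀ j, algebraMap k E (p i j) + -1 * algebraMap k E (pp j) = 0 := by
        intro j
        fin_cases j
        · exact d0
        · exact d1
        · exact d2
      funext j
      apply (algebraMap k E).injective
      linear_combination -(e2 j)
    -- the element
    have hL' : L i = Tm (v i) w := by
      have e1 := D.toFr.intw (hcub i) (hUV i) h1 hw
      have e2 : ((mu i : (MQ E a b)ˣ) : MQ E a b) * Alb.mat (v i) *
          ((mu i : (MQ E a b)ˣ) : MQ E a b)ᴴ = Alb.mat (h i w) := by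
        rw [← hact, E6.mat_act]
      rw [hL]
      beta_reduce
      rw [e2, ← Tm_eq, Matrix.mul_assoc, ← e1, ← Matrix.mul_assoc, Units.inv_mul, Matrix.one_mul]
    have hM' : M i = ez (Tm (v i) (x i)) (fun j => algebraMap k E (tt j)) := by
      rw [← hMM, hM, MM, hSS, ← hL']
    have h8 := h4 _ hM'
    refine ⟨?_, ?_⟩
    · rintro rfl
      have e1 := h8 _ ⟨w0, rfl⟩ 0
      rw [NumberField.place_apply] at e1
      have e2 : w0 (algebraMap k E ((0 : Fin 3 → k) 0) -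
          algebraMap k E ((![4, 0, 0] : Fin 3 → k) 0)) = -4 := by
        rw [Pi.zero_apply, map_zero, zero_sub, map_neg]
        change -w0 (algebraMap k E 4) = _
        rw [map_ofNat, map_ofNat]
      rw [e2, _root_.norm_neg] at e1
      have e3 : ‖(4 : ℂ)‖ = 4 := by norm_num
      rw [e3] at e1
      linarith
    · intro τ ζ hζ
      obtain ⟨w1, hw1⟩ := exists_w (E := E) τ
      have hn : ∀ y y' : k, NumberField.place w1 (algebraMap k E y - algebraMap k E y') =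
          |τ y - τ y'| := by
        intro y y'
        rw [NumberField.place_apply, map_sub, hw1, hw1, ← Complex.ofReal_sub, Complex.norm_real,
          Real.norm_eq_abs]
      have hn' : ∀ y : k, ‖w1 (algebraMap k E y)‖ = |τ y| := by
        intro y
        rw [hw1, Complex.norm_real, Real.norm_eq_abs]
      have hpb : ∀ j, |τ (p i j)| ≤ C + 1 := by
        intro j
        have e1 := h5 _ ⟨w1, rfl⟩ j
        rw [hn] at e1
        have e2 := hC w1 j
        rw [hn'] at e2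
        have e3 : |τ (p i j)| ≤ |τ (p i j) - τ (q j)| + |τ (q j)| := by
          have := abs_add_le (τ (p i j) - τ (q j)) (τ (q j))
          rwa [sub_add_cancel] at this
        linarith
      rw [hpe] at hζ
      have hζR : |ζ| ≤ R := by
        rw [hR]
        exact root_le (hpb 0) (hpb 1) (hpb 2) hζ
      have f0 := h8 _ ⟨w1, rfl⟩ 0
      have f1 := h8 _ ⟨w1, rfl⟩ 1
      have f2 := h8 _ ⟨w1, rfl⟩ 2
      rw [hn] at f0 f1 f2
      refine val_pos hδR ?_ ?_ ?_ hζR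
      · rw [← map_ofNat τ 4]
        exact f0
      · have : (![4, 0, 0] : Fin 3 → k) 1 = 0 := rfl
        rw [this, map_zero, sub_zero] at f1
        exact f1
      · have : (![4, 0, 0] : Fin 3 → k) 2 = 0 := rfl
        rw [this, map_zero, sub_zero] at f2
        exact f2
  · intro d hd hdf
    have hfr : Frame ρ σ lam g (Tm (v i) (x i)) (v i) (p i 2) (p i 1) (p i 0) := by
      refine ⟨hDi, hsi, ?_, D.hv, D.nv, D.toFr.herm⟩
      rw [hpi, ez]
      abel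
    refine hB _ _ _ _ _ hfr h6 h7 d hd ?_
    rintro y hy ⟨t0, t1, t2, ht⟩
    apply hdf
    have e : y = t0 • v i + t1 • x i + t2 • sqv (v i) (x i) := by
      refine inV_ext hy (D.inV _ (D.comb_mem _ _ _)) ?_
      rw [ht, ← Tm_mul D.hv D.nv (t0 • v i + t1 • x i + t2 • sqv (v i) (x i)), D.comb]
    rw [e]
    exact D.comb_mem _ _ _

end near

end Vale.Agent.P011.E6W.H619

end

section

open Filter Topology

set_option linter.unusedSectionVars false

namespace Vale.Agent.P011.E6W.H619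

open Vale.Agent.P011.MPQ hiding mat

open Vale.Agent.P011.D4 Vale.Agent.P011.D4.Oct Vale.Agent.P011.E6 Alb

open Vale.Agent.P011.D4W

open Vale.Agent.P011.E6O

open Vale.Agent.P011.E6H (nm qnm qnm_nonneg nm_nonneg)

open Vale.Agent.P011.E6I (MQ toMQ toMQ_apply toMQ_mul toMQ_one InVs cub_of_inV tm tm_mul tm_inj
  tm_ct)

open Vale.Agent.P011.E6I.Gn (Tm Tm_apply Tm_mul Tm_self Tm_inj Tm_cancel Tm_sq Tm_cube inV_ext
  inV_add inV_smul inV_adj inV_cross mat_mul_adj mat_adj_mul)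

open Vale.Agent.P011.E6W.H183

open Matrix

section base

variable {k E : Type} [Field k] [NumberField k] [Field E] [NumberField E] [Algebra k E]
  {ρ σ : E ≃ₐ[k] E} {lam : Eˣ} {g : Fin 3 → Eˣ} {th s : E} {kap a b c : kˣ}

/-- The sequence argument. -/
theorem open_of_m (W : WH ρ σ lam g th s kap a b c) (hSq : SqRes_m ρ σ lam g a b c)
    {n0 : AlbL E a b c ≃ₗ[E] AlbL E a b c} (hn0 : n0 ∈ GO ρ σ lam g a b c)
    (hn0R : n0 ∈ Res_m ρ σ lam g a b c) {v0 x0 : AlbL E a b c}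
    (hv0 : InVs v0) (hx0 : InVs x0) (nv0 : cub v0 ≠ 0) (nx0 : cub x0 ≠ 0)
    (fv : n0 v0 = v0) (fx : n0 x0 = x0)
    (hD : InD ρ lam (Tm v0 x0)) (hs : adjM σ g (Tm v0 x0) = Tm v0 x0)
    (hind : ∀ t : Fin 3 → E, ez (Tm v0 x0) t = 0 → t = 0)
    (hU : ∀ y, InVs y → InVs (n0 y) → ∃ t : Fin 3 → E, Alb.mat y = ez (Tm v0 x0) t * Alb.mat v0)
    {q : Fin 3 → k} (hq : Tm v0 x0 ^ 3 = ez (Tm v0 x0) (fun i => algebraMap k E (q i)))
    (hdq : dsc (algebraMap k E (q 2)) (algebraMap k E (q 1)) (algebraMap k E (q 0)) ≠ 0)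
    (hB : ∃ t : ℝ, 0 < t ∧ ∀ (z : MQ E a b) (v : AlbL E a b c) (p₂ p₁ p₀ : k),
      Frame ρ σ lam g z v p₂ p₁ p₀ → NearM t (Tm v0 x0) z → NearV t v0 v →
      ∀ d ∈ GO ρ σ lam g a b c, FixFr z v d → d ∈ Res_m ρ σ lam g a b c) :
    OpenRes_m ρ σ lam g a b c := by
  by_contra hcon
  have hcon' : ∀ t : ℝ, 0 < t → ∃ h ∈ GO ρ σ lam g a b c, NearL t 1 h ∧
      h ∉ Res_m ρ σ lam g a b c := by
    intro t ht
    by_contra h1
    push Not at h1
    exact hcon ⟨t, ht, fun h hh hn => h1 h hh hn⟩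
  have h1 : ∀ n : ℕ, ∃ h ∈ GO ρ σ lam g a b c, NearL (1 / ((n : ℝ) + 1)) 1 h ∧
      h ∉ Res_m ρ σ lam g a b c := fun n => hcon' _ Nat.one_div_pos_of_nat
  choose h hG hN hR using h1
  obtain ⟨H, hH⟩ : ∃ H : ℕ → AlbL E a b c ≃ₗ[E] AlbL E a b c, ∀ n, H n = h n * n0 :=
    ⟨_, fun _ => rfl⟩
  have hHG : ∀ n, H n ∈ GO ρ σ lam g a b c := fun n => by
    rw [hH]
    exact mul_mem (hG n) hn0
  have hlim : ∀ y, AV (SA E) atTop (fun n => H n y) (n0 y) := by
    intro y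
    apply AV_of_nm
    intro w
    have h2 : Tendsto (fun n : ℕ => 1 / ((n : ℝ) + 1) * nm w (n0 y)) atTop (𝓝 0) := by
      have := (tendsto_one_div_add_atTop_nhds_zero_nat (𝕜 := ℝ)).mul_const (nm w (n0 y))
      rwa [zero_mul] at this
    refine squeeze_zero (fun n => nm_nonneg w _) (fun n => ?_) h2
    rw [hH]
    exact hN n w (n0 y)
  obtain ⟨n, hn⟩ := (near_res_m W hSq hHG hlim hv0 hx0 nv0 nx0 fv fx hD hs hind hU hq hdq hB).exists
  apply hR n
  have e : h n = H n * n0⁻¹ := by rw [hH, mul_inv_cancel_right]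
  rw [e]
  exact mul_mem hn (inv_mem hn0R)

/-- **The block (C).** -/
theorem openRes_m (W : WH ρ σ lam g th s kap a b c) {z₀ v₀ : Matrix (Fin 3) (Fin 3) E} {q₁ q₀ : k}
    {w₀ : E →+* ℝ} (B : Base ρ σ lam g a b c z₀ v₀ q₁ q₀ w₀) (hSq : SqRes_m ρ σ lam g a b c)
    (hFr : FrRes_m ρ σ lam g a b c z₀ v₀) : OpenRes_m ρ σ lam g a b c := by
  obtain ⟨x0, hv0, hx0, nv0, nx0, mx0⟩ := base_vec W B
  have hInD : InD ρ lam (toMQ z₀ : MQ E a b) := inD_toMQ' B.inD
  have hadj : adjM σ g (toMQ z₀ : MQ E a b) = toMQ z₀ := adjM_toMQ B.sym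
  -- the element `n0`
  obtain ⟨n0, hn0, hn1, hn2⟩ := H964.exists_n0 W B.inD hadj (base_ns B)
  have hq := base_cub B
  have hind := base_ind' B
  have hdq := base_dsc B
  obtain ⟨z, hz⟩ : ∃ z : MQ E a b, z = toMQ z₀ := ⟨_, rfl⟩
  obtain ⟨v0, hv⟩ : ∃ v0 : AlbL E a b c, v0 = ofF v₀ := ⟨_, rfl⟩
  obtain ⟨q, hqd⟩ : ∃ q : Fin 3 → k, q = ![q₀, q₁, 0] := ⟨_, rfl⟩
  have hFr' : ∃ t : ℝ, 0 < t ∧ ∀ (z' : MQ E a b) (v : AlbL E a b c) (p₂ p₁ p₀ : k),
      Frame ρ σ lam g z' v p₂ p₁ p₀ → NearM t z z' → NearV t v0 v →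
      ∀ d ∈ GO ρ σ lam g a b c, FixFr z' v d → d ∈ Res_m ρ σ lam g a b c := by
    rw [hz, hv]
    exact hFr
  have hdq' : dsc (algebraMap k E (q 2)) (algebraMap k E (q 1)) (algebraMap k E (q 0)) ≠ 0 := by
    rw [hqd]
    exact hdq
  rw [← hz] at mx0 hInD hadj hn1 hn2 hq hind
  rw [← hv] at hv0 nv0 mx0
  rw [← hqd] at hq
  have hcubz : Cub z (algebraMap k E (q 2)) (algebraMap k E (q 1)) (algebraMap k E (q 0)) := by
    refine ⟨?_, hind⟩
    rw [hq, ez]
    abel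
  clear hFr hdq hqd B hz hv
  have hT : Tm v0 x0 = z := by
    rw [Tm_eq, mx0, Matrix.mul_assoc, mat_mul_mi hv0 nv0, Matrix.mul_one]
  have hherm : z * Alb.mat v0 = Alb.mat v0 * zᴴ := by
    have h1 : (Alb.mat x0)ᴴ = Alb.mat x0 := H64.mat_isHermitian x0
    have h2 : (Alb.mat v0)ᴴ = Alb.mat v0 := H64.mat_isHermitian v0
    rw [mx0, Matrix.conjTranspose_mul, h2] at h1
    exact h1.symm
  have hhermx : z * Alb.mat x0 = Alb.mat x0 * zᴴ := by
    rw [mx0, Matrix.mul_assoc, ← hherm]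
  have fv : n0 v0 = v0 := hn1 v0 hv0 hherm
  have fx : n0 x0 = x0 := hn1 x0 hx0 hhermx
  have hunit := fd_unit hcubz.rel hdq'
  have hU : ∀ y, InVs y → InVs (n0 y) → ∃ t : Fin 3 → E, Alb.mat y = ez z t * Alb.mat v0 :=
    fun y hy hy' => vz hv0 nv0 hherm hcubz hunit hy (hn2 y hy hy')
  have hn0R : n0 ∈ Res_m ρ σ lam g a b c := by
    obtain ⟨t, ht, hB'⟩ := hFr'
    refine hB' z v0 (q 2) (q 1) (q 0) ⟨hInD, hadj, hcubz.rel, hv0, nv0, hherm⟩ ?_ ?_ n0 hn0 ?_
    · intro w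
      rw [sub_self, mnm_zero]
      exact ht.le
    · intro w
      rw [sub_self, nm_zero]
      exact ht.le
    · rintro y hy ⟨t0, t1, t2, hty⟩
      apply hn1 y hy
      have e1 : (t0 • (1 : MQ E a b) + t1 • z + t2 • z ^ 2) = ez z ![t0, t1, t2] := rfl
      rw [e1] at hty
      rw [hty, ← mul_assoc, ← ez_comm, mul_assoc, mul_assoc, hherm]
  rw [← hT] at hInD hadj hind hU hq hFr'
  exact open_of_m W hSq hn0 hn0R hv0 hx0 nv0 nx0 fv fx hInD hadj hind hU hq hdq' hFr'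

end base

end Vale.Agent.P011.E6W.H619

end

section

open Matrix Polynomial

set_option linter.unusedSectionVars false

namespace Vale.Agent.P011.E6W.H684

open Vale.Agent.P011.MPQ hiding mat

open Vale.Agent.P011.D4 Vale.Agent.P011.D4.Oct Vale.Agent.P011.E6

open Vale.Agent.P011.E6.Alb

open Vale.Agent.P011.E6I (MQ toMQ toMQ_apply Mp S0 S1 S2 FixK S0_transpose S1_transpose
  S2_transpose cj amap_cj cj_inv InVs)

open Vale.Agent.P011.E6I.Fx (FixL MpL det_S0 mul_S0 eq_of_comm vP vP_comm det_vP P_mul_vP comm_vP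
  extA extA_aup extA_mem conjP)

open Vale.Agent.P011.E6O (KK mkK KK_fix KK_ext InD InD0 um her GO Res_m)

open Vale.Agent.P011.E6W.H183 (adjM Rel WH rhoK unK exists_kW Cub ez)

open Vale.Agent.P011.E6W.H196 (dsc3)

open Vale.Agent.P011.E6W.H7 (smU cj_eq_act)

open scoped ComplexConjugate

section final

variable {k E : Type} [Field k] [NumberField k] [Field E] [NumberField E] [Algebra k E]
  {ρ σ : E ≃ₐ[k] E} {lam : Eˣ} {g : Fin 3 → Eˣ} {th s : E} {kap a b c : kˣ}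

/-- **(B1).** The pointwise stabilizers of the frames of the certificates are contained in the
finite residual. -/
theorem frame_res_m (W : WH ρ σ lam g th s kap a b c) (hK : KTop_m k (KK ρ))
    (hgood : ∀ τ : k →+* ℝ, τ a < 0 → τ b < 0 → τ c < 0)
    (hw0 : ∃ w0 : E →+* ℝ, w0 (algebraMap k E a) < 0 ∧ w0 (algebraMap k E b) < 0)
    {z i₁ j₁ : MQ E a b} {v : AlbL E a b c} {p₂ p₁ p₀ : k} {A B : Fin 3 → k}
    (C : Cert2 ρ σ lam g (kap : k) z i₁ j₁ v p₂ p₁ p₀ A B)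
    {h : AlbL E a b c ≃ₗ[E] AlbL E a b c} (hh : h ∈ GO ρ σ lam g a b c) (hf : FixFr z v h) :
    h ∈ Res_m ρ σ lam g a b c := by
  obtain ⟨u, w, w', y', t, hw, hww, hu, hu1, hu2, hu3, hu4, hwD, _, hwz, hyz, hws, hys, hww', hwy,
    hyy, ht⟩ := H964.exists_uw W C
  obtain ⟨m, z1, P, H, hirr⟩ := exists_FD W C hw hww hwD hwz hws hww'
  obtain ⟨r, A', B', φ, κ, ε, Ψ, S⟩ := H.exists_SD
  have hd0 : dsc p₂ p₁ p₀ ≠ 0 := by
    intro h0
    exact C.dsc (h0 ▸ IsSquare.zero)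
  -- the frame
  have hc : Cub z (algebraMap k E p₂) (algebraMap k E p₁) (algebraMap k E p₀) := by
    refine ⟨C.cub, fun t' ht' => ?_⟩
    obtain ⟨e0, e1, e2⟩ := C.ind _ _ _ ht'
    funext i
    fin_cases i
    · exact e0
    · exact e1
    · exact e2
  have hdE : dsc (algebraMap k E p₂) (algebraMap k E p₁) (algebraMap k E p₀) ≠ 0 := by
    have h1 : dsc (algebraMap k E p₂) (algebraMap k E p₁) (algebraMap k E p₀) =
        algebraMap k E (dsc p₂ p₁ p₀) := by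
      rw [dsc, dsc]
      simp only [map_add, map_sub, map_mul, map_pow, map_ofNat]
    rw [h1]
    exact (_root_.map_ne_zero _).mpr hd0
  have hunit := H619.fd_unit C.cub hdE
  refine S.mem_Res_m ?_ hh (fun T hT hzT => H.fix_ofF C.inV C.ne C.com hc hunit hf _ hT hzT)
  refine hK (sK W.rel.σ2 W.rel.comm) (thF W) (kap : k) a b c u w (-p₀) (-p₁) (-p₂) A' (-B') ε
    (kapS W κ) (H64.umap (sK W.rel.σ2 W.rel.comm) φ) (H183.setW W).rank (thF_sq W) (sK_thF W) hirr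
    (by rw [dsc3_neg]; exact C.dsc) (by rw [dsc3_neg]; exact C.dsc') hu1 hu2
    (by rw [dsc3_neg]; exact hu3) (by rw [dsc3_neg]; exact hu4) hw hww (divk W) hu hgood ?_ S.hA
    (by rw [Matrix.mul_neg, Matrix.neg_mul, S.hB]) ?_ S.hε0 ?_ ?_ ?_
  · obtain ⟨w0, h1, h2⟩ := hw0
    refine ⟨w0.comp (algebraMap k E), (hu _).2 ⟨h1, h2⟩, ?_⟩
    change 0 < w0 (algebraMap k E (kap : k))
    rw [← W.th2, map_pow]
    have h3 : w0 th ≠ 0 := (_root_.map_ne_zero w0).mpr W.th_ne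
    positivity
  · intro i j
    have h1 : ((H64.umap (sK W.rel.σ2 W.rel.comm) φ : (MQ (KK ρ) a b)ˣ) : MQ (KK ρ) a b) =
        phE (thF W) w A' (-B') := by
      rw [H64.umap_val, S.hφ, phE_map, sK_thF, phE_neg]
    rw [h1]
    rfl
  · rw [kapS, nrd_qmap]
    exact (_root_.map_ne_zero _).mpr S.nrd_ne
  · rw [neg_mul_neg]
    exact S.norm
  · intro τ hk hτu
    obtain ⟨ha, hb⟩ := (hu τ).1 hτu
    refine S.sign (by rw [dsc3_neg]; exact hd0) hyz hys hwy hyy hk ha hb (fun x hx => ?_)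
    apply ht τ x _ hk ha hb
    rw [map_neg, map_neg, map_neg] at hx
    linear_combination hx

end final

end Vale.Agent.P011.E6W.H684

end

section

open NumberField

namespace Vale.Agent.P011.E6W.H7

open Vale.Agent.P011.MPQ Vale.Agent.P011.D4 Vale.Agent.P011.D4.Oct Vale.Agent.P011.E6
  Vale.Agent.P011.E6O Vale.Agent.P011.E6H

section model

variable {k E : Type} [Field k] [NumberField k] [Field E] [NumberField E] [Algebra k E]
  {ρ σ : E ≃ₐ[k] E}
  {lam : Eˣ} {g : Fin 3 → Eˣ} {a b c : kˣ}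

/-- Change of the quaternion subalgebra, for the elements close to the identity. -/
theorem near_of_model_m {a' b' c' : kˣ} {i j l : Oct a b c} (ht : Trip a' b' c' i j l)
    (h : ∃ t : ℝ, 0 < t ∧ ∀ φ ∈ GO ρ σ lam g a' b' c', NearA t φ →
      φ ∈ Res_m ρ σ lam g a' b' c') :
    ∃ t : ℝ, 0 < t ∧ ∀ φ ∈ GO ρ σ lam g a b c, NearA t φ → φ ∈ Res_m ρ σ lam g a b c := by
  obtain ⟨t, ht0, h1⟩ := h
  let Ψ : AlbL E a' b' c' ≃ₗ[E] AlbL E a b c := tripA E ht
  obtain ⟨C, hC0, hC⟩ := exists_nearA Ψ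
  refine ⟨t / C, div_pos ht0 hC0, fun φ hφ hn => ?_⟩
  obtain ⟨φ', hφ'⟩ : ∃ φ', φ' = (Ψ.trans φ).trans Ψ.symm := ⟨_, rfl⟩
  have e : (Ψ.symm.trans φ').trans Ψ = φ := by
    apply LinearEquiv.ext
    intro x
    rw [hφ']
    change Ψ (Ψ.symm (φ (Ψ (Ψ.symm x)))) = φ x
    rw [LinearEquiv.apply_symm_apply, LinearEquiv.apply_symm_apply]
  obtain ⟨e1, e2⟩ := trip_Res'_m (ρ := ρ) (σ := σ) (lam := lam) (γ := g) ht
    (Ψ := Ψ) (tripA_apply ht) (φ := φ')
  rw [e] at e1 e2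
  refine e2.1 (h1 φ' (e1.2 hφ) ?_)
  have h2 := hC φ' (t / C) (div_nonneg ht0.le hC0.le) (by rwa [e])
  rwa [mul_div_cancel₀ _ hC0.ne'] at h2

end model

end Vale.Agent.P011.E6W.H7

end

section

open NumberField Matrix IsDedekindDomain

namespace Vale.Agent.P011.E6W.H7

open Vale.Agent.P011.MPQ hiding mat

open Vale.Agent.P011.D4 Vale.Agent.P011.D4.Oct Vale.Agent.P011.E6

open Vale.Agent.P011.E6O (GO Res_m)

open Vale.Agent.P011.E6W.H183 Vale.Agent.P011.Arith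

open Vale.Agent.P011.E6H (IsSextic IsForm OpenAt)

variable {k E : Type} [Field k] [NumberField k] [Field E] [NumberField E] [Algebra k E]
  {ρ σ : E ≃ₐ[k] E} {lam : Eˣ} {g : Fin 3 → Eˣ} {th s : E} {kap a b c : kˣ}

/-- **The elements close to the identity belong to the finite residual**, from the blocks. -/
theorem near_res_m (W : WH ρ σ lam g th s kap a b c)
    (hSix : ∀ {a b c : kˣ} (W : WH ρ σ lam g th s kap a b c),
      One.Tdiv k (KW W) (BW W) = ∅ → SixAt W)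
    (hFr : ∀ {a b c : kˣ} (_ : WH ρ σ lam g th s kap a b c)
      (_ : ∀ τ : k →+* ℝ, τ a < 0 → τ b < 0 ∧ τ c < 0) {z₀ v₀ : Matrix (Fin 3) (Fin 3) E}
      {q₁ q₀ : k} {w₀ : E →+* ℝ}, Base ρ σ lam g a b c z₀ v₀ q₁ q₀ w₀ →
      SqRes_m ρ σ lam g a b c → FrRes_m ρ σ lam g a b c z₀ v₀) :
    ∃ t : ℝ, 0 < t ∧ ∀ φ ∈ GO ρ σ lam g a b c, NearA t φ → φ ∈ Res_m ρ σ lam g a b c := by
  obtain ⟨T, hT, h1⟩ := H541.exists_TW W
  obtain ⟨a', b', c', i, j, l, ht, h2, h3, h4⟩ := exists_good_at (divk W) hT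
  have W' : WH ρ σ lam g th s kap a' b' c' := model W ht
  have hTd := h1 a' b' c' W' h2
  have hgood : ∀ τ : k →+* ℝ, τ a' < 0 → τ b' < 0 ∧ τ c' < 0 := by
    intro τ hτ
    by_cases hd : Dfn τ a b c
    · exact (h3 τ hd).2
    · exact absurd hτ (not_lt.2 (h4 τ hd).le)
  have hSq := sqRes_m W' (hSix W' hTd) hTd
  obtain ⟨z₀, v₀, q₁, q₀, w₀, B⟩ := H541.exists_base W'
  obtain ⟨t, ht0, h5⟩ := H619.openRes_m W' B hSq (hFr W' hgood B hSq)
  exact near_of_model_m ht ⟨t, ht0, fun φ hφ hn => h5 φ hφ hn⟩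

end Vale.Agent.P011.E6W.H7

end

section

open NumberField Matrix IsDedekindDomain

namespace Vale.Agent.P011.E6W.H7

open Vale.Agent.P011.MPQ hiding mat

open Vale.Agent.P011.D4 Vale.Agent.P011.D4.Oct Vale.Agent.P011.E6

open Vale.Agent.P011.E6O (GO Res_m KK)

open Vale.Agent.P011.E6W.H183

open Vale.Agent.P011.E6H (IsSextic IsForm OpenAt)

variable {k E : Type} [Field k] [NumberField k] [Field E] [NumberField E] [Algebra k E]
  {ρ σ : E ≃ₐ[k] E} {lam : Eˣ} {g : Fin 3 → Eˣ} {th s : E} {kap a b c : kˣ}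

/-- The stabilizers of the frames close to the standard frame. -/
theorem frRes_m (W : WH ρ σ lam g th s kap a b c) (hK : H684.KTop_m k (KK ρ))
    (hgood : ∀ τ : k →+* ℝ, τ a < 0 → τ b < 0 ∧ τ c < 0) {z₀ v₀ : Matrix (Fin 3) (Fin 3) E}
    {q₁ q₀ : k} {w₀ : E →+* ℝ} (B : Base ρ σ lam g a b c z₀ v₀ q₁ q₀ w₀) :
    FrRes_m ρ σ lam g a b c z₀ v₀ := by
  obtain ⟨t, ht, h1⟩ := H541.near_cert2 W B
  obtain ⟨w, hwa, hwb, -⟩ := H541.exists_real W.hdiv
  refine ⟨t, ht, fun z v p₂ p₁ p₀ hF hz hv φ hφ hf => ?_⟩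
  obtain ⟨i₁, j₁, A, A', C⟩ := h1 z v p₂ p₁ p₀ hF hz hv
  exact H684.frame_res_m W hK (fun τ ha _ => (hgood τ ha).2) ⟨w, hwa, hwb⟩ C hφ hf

/-- The elements close to the identity belong to the finite residual. -/
theorem near_div_m (W : WH ρ σ lam g th s kap a b c) (hK : H684.KTop_m k (KK ρ))
    (hSix : ∀ {a b c : kˣ} {th s : E} (W : WH ρ σ lam g th s kap a b c),
      One.Tdiv k (KW W) (BW W) = ∅ → SixAt W) :
    ∃ t : ℝ, 0 < t ∧ ∀ φ ∈ GO ρ σ lam g a b c, NearA t φ → φ ∈ Res_m ρ σ lam g a b c :=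
  near_res_m W (fun W' hT => hSix W' hT) fun W' hgood _ _ _ _ _ B _ => frRes_m W' hK hgood B

end Vale.Agent.P011.E6W.H7

end
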