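import Vale.Agent.P011NE.SuRes
import Vale.Agent.P011.E6X.Trip
import Vale.Agent.P011.E6X.H370.T
import Vale.Agent.P011.E6X.End1
import Vale.Agent.P011.E6X.End2
import Vale.Agent.P011.E6X.Top
import Vale.Agent.P011.E6X.H493.GoodX
import Vale.Agent.P011.E6X.H493.SlideX
import Vale.Agent.P011.E6X.H493.NearX
import Vale.Agent.P011.E6X.H493.OpenX
import Vale.Agent.P011.E6X.H637.Sg
import Vale.Agent.P011.E6X.H637.All

/-!
Block E6X for the normal subgroups which contain the automorphisms of the octonion algebra.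
-/

set_option linter.unusedSectionVars false

section

open NumberField

namespace Vale.Agent.P011.E6X

open Vale.Agent.P011.E6O

open Vale.Agent.P011.MPQ Vale.Agent.P011.D4 Vale.Agent.P011.D4.Oct Vale.Agent.P011.E6

open Vale.Agent.P011.E6I (MQ toMQ)

variable {k E : Type} [Field k] [NumberField k] [Field E] [NumberField E] [Algebra k E]
  {ρ σ : E ≃ₐ[k] E} {lam : Eˣ} {g : Fin 3 → Eˣ} {al s : E} {a b c : kˣ}
  (H : Hyp ρ σ lam g al s a b c)

include H

theorem aut_Res_m (f : AutC a b c) {φ : AlbL E a b c ≃ₗ[E] AlbL E a b c}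
    (hφ : ∀ x : Alb a b c, φ (aup E x) = aup E (Alb.omapA f.1 x)) :
    φ ∈ Res_m ρ σ lam g a b c := aut_Res'_m H.hdiv f hφ

theorem trip_Res_m {b' c' : kˣ} {j l : Oct a b c} (ht : Trip a b' c' gi j l)
    {Ψ : AlbL E a b' c' ≃ₗ[E] AlbL E a b c}
    (hΨ : ∀ x, Ψ x = Alb.omapA (emb (oup E gi) (oup E j) (oup E l)) x)
    {φ : AlbL E a b' c' ≃ₗ[E] AlbL E a b' c'} :
    (φ ∈ GO ρ σ lam g a b' c' ↔ (Ψ.symm.trans φ).trans Ψ ∈ GO ρ σ lam g a b c) ∧
      (φ ∈ Res_m ρ σ lam g a b' c' ↔ (Ψ.symm.trans φ).trans Ψ ∈ Res_m ρ σ lam g a b c) :=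
  trip_Res'_m ht hΨ

end Vale.Agent.P011.E6X

end

section

open NumberField Matrix

namespace Vale.Agent.P011.E6X

open Vale.Agent.P011.MPQ Vale.Agent.P011.D4 Vale.Agent.P011.D4.Oct Vale.Agent.P011.E6

open Vale.Agent.P011.E6O Vale.Agent.P011.E6O.H370

open Vale.Agent.P011.E6I (MQ toMQ)

variable {k E : Type} [Field k] [NumberField k] [Field E] [NumberField E] [Algebra k E]
  {ρ σ : E ≃ₐ[k] E} {lam : Eˣ} {g : Fin 3 → Eˣ} {al s : E} {a b c : kˣ}
  (H : Hyp ρ σ lam g al s a b c)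

include H

/-- The common step. -/
theorem H370.core_m {f : k} (hf : f ≠ 0)
    (hs : ∀ w, SC σ w → vk w (b : k) < 0 → 0 < vk w (-(c * f)))
    {A : Submodule E (AlbL E a b c)} (hA : IsPt ρ lam A) (hI : A ≤ Iln c (ep al))
    (hT : Ty σ g f A) :
    ∃ (n : AlbL E a b c ≃ₗ[E] AlbL E a b c) (M : (MQ E a b)ˣ) (κ : Qt a b),
      n ∈ Res_m ρ σ lam g a b c ∧ (∀ x, n x = Alb.act M 1 x) ∧
      (∀ x, n.symm x = Alb.act M⁻¹ 1 x) ∧ κ ≠ 0 ∧ nrd κ ≠ 0 ∧
      A.map (n : AlbL E a b c →ₗ[E] AlbL E a b c) =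
        Apt (⟨0, ep al * qup E κ⟩ : OctL E a b c) := by
  obtain ⟨K, _, _, _, _, S, β, hS⟩ := H.exists_isDat
  obtain ⟨Z1, Z2, hZ1, hZ2, hne, hAx⟩ := exists_Z (c := c) (b := b) two_ne_zero H.al2 H.ρal
    (⟨H.ρ3, H.ρlam, lam.ne_zero, H.hlam⟩ : Cyc (ρ : E ≃+* E) (lam : E)) hA hI
  have eu : E6I.u0 E S.lam = um lam := by
    have e : (up E S.lam : Eˣ) = lam := Units.ext hS.eqlam
    rw [E6I.u0, um, e]
  have hin : ∀ {Z : Matrix (Fin 3) (Fin 3) E}, InD0 ρ lam Z → E6I.InD0 S.ρ S.lam Z := by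
    intro Z hZ
    rw [E6I.InD0, eu]
    rw [InD0] at hZ
    rw [hZ]
    congr 1
    ext i j
    rw [Matrix.map_apply, Matrix.map_apply, hS.eqρ]
  obtain ⟨z₁, hz₁⟩ : ∃ z : S.D, S.f z = Z1 := ⟨S.el (hin hZ1), S.f_el _⟩
  obtain ⟨z₂, hz₂⟩ : ∃ z : S.D, S.f z = Z2 := ⟨S.el (hin hZ2), S.f_el _⟩
  obtain ⟨m, δ, κ₁, κ₂, hδ, hκ, hm, hnrm, e1, e2⟩ := hS.T z₁ z₂ (by
    rcases hne with h | h
    · exact Or.inl fun h0 => h (by rw [← hz₁, h0, map_zero])
    · exact Or.inr fun h0 => h (by rw [← hz₂, h0, map_zero])) (by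
    intro w hw
    obtain ⟨ε, Q, h1, h2, h3, h4⟩ := H370.sgn_of (c := c) (b := b) two_ne_zero H.al2 H.σal
      (w := w) hw hf (hs w hw) (Z1 := Z1) (Z2 := Z2) (fun x hx => (hAx x).mp hx) (hT w hw)
    refine ⟨ε, Q, h1, h2, h3, ?_⟩
    rw [h4, ← hz₁, ← hz₂]
    ext i j
    rw [Matrix.mul_diagonal, Matrix.map_apply, Matrix.map_apply,
      H370.f_form S hS.eqs hS.eqG hS.eqβ, map_mul, mul_assoc,
      mul_inv_cancel₀ ((map_ne_zero w).mpr (g j).ne_zero), mul_one])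
  exact H370.move_of two_ne_zero H.al2 H.ρal H.σal H.hdiv (fun x hx => H.exists_kal hx) S
    hS.eqρ hS.eqs hS.eqlam hS.eqG hS.fix' hS.eqβ hS.β0
    (fun hm hu hn _ hφ => su_Res_m H hm hu hn hφ) hδ hκ hm hnrm e1 e2
    (fun x => by rw [hAx, hz₁, hz₂])

/-- Every point with standard type on the line `I` is moved to a standard point by an element of
the finite residual. -/
theorem T_m {f : k} (hf : f ≠ 0)
    (hs : ∀ w, SC σ w → vk w (b : k) < 0 → 0 < vk w (-(c * f)))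
    {A : Submodule E (AlbL E a b c)} (hA : IsPt ρ lam A) (hI : A ≤ Iln c (ep al))
    (hT : Ty σ g f A) :
    ∃ n ∈ Res_m ρ σ lam g a b c, ∃ w : Oct a b c, Perp w ∧
      A.map (n : AlbL E a b c →ₗ[E] AlbL E a b c) = Pw al w := by
  obtain ⟨n, M, κ, hn, -, -, hκ, hκn, h⟩ := H370.core_m H hf hs hA hI hT
  obtain ⟨u, hu⟩ := H64.isUnit_of_nrd hκn
  have hcj : conjE E c u ∈ Res_m ρ σ lam g a b c := aut_Res_m H (conjC c u) (conjE_aup u)
  refine ⟨conjE E c u * n, Subgroup.mul_mem _ hcj hn, ⟨0, κ⟩, perp_snd hκ, ?_⟩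
  have h6 := conj_Pw (c := c) al u
  rw [hu] at h6
  rw [← h6, ← h, ← Submodule.map_comp]
  rfl

/-- Every point with standard type on the opposite line is moved to a standard point, together
with its opposite point, by an element of the finite residual. -/
theorem Tm_m {f : k} (hf : f ≠ 0)
    (hs : ∀ w, SC σ w → vk w (b : k) < 0 → 0 < vk w (-(c * f)))
    {U : Submodule E (AlbL E a b c)} (hU : IsPt ρ lam U) (hI : U ≤ Iln c (E6O.em al))
    (hT : Ty σ g f U) :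
    ∃ n ∈ Res_m ρ σ lam g a b c, ∃ w : Oct a b c, Perp w ∧
      U.map (n : AlbL E a b c →ₗ[E] AlbL E a b c) = Pm al w ∧
      (opp σ g al U).map (n : AlbL E a b c →ₗ[E] AlbL E a b c) = Pw al w := by
  have hai : ai E a b c ∈ Res_m ρ σ lam g a b c := aut_Res_m H (autI a b c) ai_aup
  have hher : ∀ n ∈ Res_m ρ σ lam g a b c, ∀ x y, her σ g (n x) (n y) = her σ g x y := by
    rintro _ ⟨n, -, rfl⟩ x y
    exact n.2.2.2 x y
  obtain ⟨m, M, κ, hm, hm1, hm2, hκ, hκn, h⟩ := H370.core_m H hf hs (ai_isPt hU) (ai_Iln hI) (by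
    intro w hw
    obtain ⟨x, hx, Q, hQ, h⟩ := hT w hw
    refine ⟨fun i => ai E a b c (x i), fun i => ⟨x i, hx i, rfl⟩, Q, hQ, ?_⟩
    rw [← h]
    congr 2
    ext i j
    rw [gram, gram, Matrix.of_apply, Matrix.of_apply, hher _ hai])
  obtain ⟨n, hnm⟩ : ∃ n, n = ai E a b c * m * ai E a b c := ⟨_, rfl⟩
  have hn : n ∈ Res_m ρ σ lam g a b c := by
    rw [hnm]
    exact Subgroup.mul_mem _ (Subgroup.mul_mem _ hai hm) hai
  have hUn : U.map (n : AlbL E a b c →ₗ[E] AlbL E a b c) =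
      Apt (⟨0, E6O.em al * qup E (qi κ)⟩ : OctL E a b c) := by
    have h1 := ai_Apt (a := a) (b := b) (c := c) (⟨0, ep al * qup E κ⟩ : OctL E a b c)
    have h2 : oi (up E a) (up E b) (up E c) (⟨0, ep al * qup E κ⟩ : OctL E a b c) =
        ⟨0, E6O.em al * qup E (qi κ)⟩ := by
      rw [oi_apply]
      apply Oct.ext
      · exact qi_zero
      · change qi (ep al * qup E κ) = _
        rw [qi_mul, qi_ep]
        congr 1
        simp only [qi, qup, map_neg]
    rw [h2, ← h] at h1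
    rw [← h1, ← Submodule.map_comp, ← Submodule.map_comp, hnm]
    rfl
  have hκn' : nrd (qi κ) ≠ 0 := by
    have e : nrd (qi κ) = nrd κ := by
      simp only [nrd, qi]
      ring
    rw [e]
    exact hκn
  have hκ' : qi κ ≠ 0 := by
    intro h0
    apply hκ
    rw [← qi_qi κ, h0, qi_zero]
  have hopp := H370.opp_map_ai (σ := σ) (g := g) hm1 hm2 hnm (hher n hn) hI
  rw [hUn, H370.opp_std two_ne_zero H.al2 H.σal hκn'] at hopp
  obtain ⟨u, hu⟩ := H64.isUnit_of_nrd hκn'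
  have hcj : conjE E c u ∈ Res_m ρ σ lam g a b c := aut_Res_m H (conjC c u) (conjE_aup u)
  refine ⟨conjE E c u * n, Subgroup.mul_mem _ hcj hn, ⟨0, qi κ⟩, perp_snd hκ', ?_, ?_⟩
  · have h6 := conj_Pm (c := c) al u
    rw [hu] at h6
    rw [← h6, ← hUn, ← Submodule.map_comp]
    rfl
  · have h6 := conj_Pw (c := c) al u
    rw [hu] at h6
    rw [← h6, ← hopp, ← Submodule.map_comp]
    rfl

end Vale.Agent.P011.E6X

end

section

open NumberField Matrix

namespace Vale.Agent.P011.E6X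

open Vale.Agent.P011.E6O

open Vale.Agent.P011.MPQ Vale.Agent.P011.D4 Vale.Agent.P011.D4.Oct Vale.Agent.P011.E6

open Vale.Agent.P011.E6.Alb

section main

variable {k E : Type} [Field k] [NumberField k] [Field E] [NumberField E] [Algebra k E]
  {ρ σ : E ≃ₐ[k] E} {lam : Eˣ} {g : Fin 3 → Eˣ} {al s : E} {a b c : kˣ}
  (H : Hyp ρ σ lam g al s a b c)

include H

/-- The classes: `n(w)` and `n(l)` differ by a norm, and an automorphism carries `w` to `l`. -/
theorem end1_m {h : AlbL E a b c ≃ₗ[E] AlbL E a b c} (hh : h ∈ GO ρ σ lam g a b c)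
    {w : Oct a b c} (hw : Perp w)
    (hA : (Pw al (gl : Oct a b c)).map (h : AlbL E a b c →ₗ[E] AlbL E a b c) = Pw al w) :
    ∃ n ∈ Res_m ρ σ lam g a b c,
      (Pw al (gl : Oct a b c)).map ((n * h : AlbL E a b c ≃ₗ[E] AlbL E a b c) :
        AlbL E a b c →ₗ[E] AlbL E a b c) = Pw al gl := by
  obtain ⟨d, hρd, hd⟩ := exists_det H hh hw.ne hA
  have hnw : norm w ≠ 0 := fun h => hw.ne (H.hdiv _ h)
  have hnl : norm (gl : Oct a b c) = -(c : k) := by
    simp [Oct.norm, nrd, gl]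
  have hnl0 : norm (gl : Oct a b c) ≠ 0 := by
    rw [hnl]
    exact neg_ne_zero.mpr c.ne_zero
  have hnw' : algebraMap k E (norm w) ≠ 0 := (map_ne_zero _).mpr hnw
  have hnl' : algebraMap k E (norm (gl : Oct a b c)) ≠ 0 := (map_ne_zero _).mpr hnl0
  -- the norm
  obtain ⟨u0, u1, hu⟩ := H.exists_kal
    (x := algebraMap k E (norm w) / algebraMap k E (norm (gl : Oct a b c)) * d)
    (by rw [map_mul, map_div₀, AlgEquiv.commutes, AlgEquiv.commutes, hρd])
  have ht : (algebraMap k E u0 + al * algebraMap k E u1) *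
      (algebraMap k E u0 - al * algebraMap k E u1) * algebraMap k E (norm w) =
        algebraMap k E (norm (gl : Oct a b c)) := by
    have h1 : algebraMap k E u0 - al * algebraMap k E u1 =
        σ (algebraMap k E u0 + al * algebraMap k E u1) := by
      rw [map_add, map_mul, AlgEquiv.commutes, AlgEquiv.commutes, H.σal]
      ring
    rw [h1, ← hu, map_mul, map_div₀, AlgEquiv.commutes, AlgEquiv.commutes]
    field_simp
    linear_combination -hd
  have ht0 : algebraMap k E u0 + al * algebraMap k E u1 ≠ 0 := by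
    intro h0
    rw [h0, zero_mul, zero_mul] at ht
    exact hnl' ht.symm
  have hk : (u0 ^ 2 - a * u1 ^ 2) * norm w = norm (gl : Oct a b c) := by
    apply (algebraMap k E).injective
    rw [map_mul, map_sub, map_mul, map_pow, map_pow, ← H.al2, ← ht]
    ring
  -- the new octonion
  obtain ⟨w', hw'⟩ : ∃ w' : Oct a b c, w' = (⟨⟨u0, u1, 0, 0⟩, 0⟩ : Oct a b c) * w := ⟨_, rfl⟩
  have hP : Pw al w' = Pw al w := by
    rw [hw', Pw, ep_mul H.al_ne H.al2, Apt_smul ht0, Pw]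
  have hw1 : w.fst.re = 0 := by
    have h1 := congrArg (fun x : Oct a b c => x.fst.re) hw.tr
    simp at h1
    have h2 : (2 : k) * w.fst.re = 0 := by linear_combination h1
    exact (mul_eq_zero.mp h2).resolve_left two_ne_zero
  have hw2 : w.fst.imI = 0 := by
    have h1 := hw.i
    simp [dot, gi] at h1
    exact h1
  have hn' : norm w' = norm (gl : Oct a b c) := by
    rw [hw', Oct.norm_mul, ← hk]
    congr 1
    simp [Oct.norm, nrd]
  have hs' : star w' = -w' := by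
    rw [hw']
    ext <;> simp [hw1, hw2] <;> ring
  have hi' : dot gi w' = 0 := by
    rw [hw']
    simp [dot, gi, hw1, hw2]
  obtain ⟨v, hv0, hv⟩ := exists_perp
    (![1, gi, gl - w', gi * (gl - w'), 0, 0, 0] : Fin 7 → Oct a b c)
  have hv1 : dot v 1 = 0 := hv 0
  have hv2 : dot v gi = 0 := hv 1
  have hv3 : dot v (gl - w') = 0 := hv 2
  have hv4 : dot v (gi * (gl - w')) = 0 := hv 3
  have hstd := trip_std (a := a) (b := b) (c := c)
  have hi0 : (gi : Oct a b c) ≠ 0 := by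
    intro h
    have := congrArg (fun x : Oct a b c => x.fst.imI) h
    simp [gi] at this
  obtain ⟨f, hfi, -, hfw⟩ := exists_move H.hdiv hstd.si hi0 (star_iff_dot.2 hv1) hv0
    (by rw [dot_comm, hv2]) hs' hstd.sl hn'.symm
    (by rw [dot_sub_right, hstd.il, hi', sub_zero]) hv3
    (by rw [dot_mul_left, hstd.si, neg_mul, dot_neg_right, hv4, neg_zero])
  refine ⟨(autO ρ σ lam g a b c f).1, aut_Res'_m H.hdiv f (autO_aup f), ?_⟩
  have h1 : (Pw al (gl : Oct a b c)).map (((autO ρ σ lam g a b c f).1 * h :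
      AlbL E a b c ≃ₗ[E] AlbL E a b c) : AlbL E a b c →ₗ[E] AlbL E a b c) =
      ((Pw al (gl : Oct a b c)).map (h : AlbL E a b c →ₗ[E] AlbL E a b c)).map
        ((autO ρ σ lam g a b c f).1 : AlbL E a b c →ₗ[E] AlbL E a b c) := by
    rw [← Submodule.map_comp]
    rfl
  rw [h1, hA, ← hP]
  apply le_antisymm
  · rintro _ ⟨x, hx, rfl⟩
    obtain ⟨r, rfl⟩ := mem_Apt_pt.mp hx
    refine mem_Apt_pt.mpr ⟨r, ?_⟩
    rw [← hfw]
    exact autO_pt hfi w' r
  · intro x hx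
    obtain ⟨r, rfl⟩ := mem_Apt_pt.mp hx
    refine ⟨_, pt_mem _ r, ?_⟩
    rw [← hfw]
    exact autO_pt hfi w' r

end main

end Vale.Agent.P011.E6X

end

section

open Matrix

namespace Vale.Agent.P011.E6X

open Vale.Agent.P011.E6O Vale.Agent.P011.E6O.H408

open Vale.Agent.P011.MPQ Vale.Agent.P011.D4 Vale.Agent.P011.D4.Oct Vale.Agent.P011.E6

open Vale.Agent.P011.E6.Alb

open Vale.Agent.P011.E6I (MQ toMQ)

open H408

namespace H408

variable {k E : Type} [Field k] [Field E] [Algebra k E]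
  {ρ σ : E ≃ₐ[k] E} {lam : Eˣ} {g : Fin 3 → Eˣ} {a b c : kˣ} {al : E}

end H408

open Vale.Agent.P011.E6X.H408

variable {k E : Type} [Field k] [NumberField k] [Field E] [NumberField E] [Algebra k E]
  {ρ σ : E ≃ₐ[k] E} {lam : Eˣ} {g : Fin 3 → Eˣ} {al s : E} {a b c : kˣ}

/-- The stabiliser of the standard point. -/
theorem end2_m (H : Hyp ρ σ lam g al s a b c) {h : AlbL E a b c ≃ₗ[E] AlbL E a b c}
    (hh : h ∈ GO ρ σ lam g a b c)
    (hA : (Pw al (gl : Oct a b c)).map (h : AlbL E a b c →ₗ[E] AlbL E a b c) = Pw al gl) :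
    h ∈ Res_m ρ σ lam g a b c := by
  have hal := H.al2
  have hc : -algebraMap k E c ≠ 0 := by
    rw [neg_ne_zero, map_ne_zero]
    exact c.ne_zero
  have h1 : ∀ i, ∃ t, h (E6O.H408.pt (xp al) (Pi.single i 1)) = E6O.H408.pt (xp al) t := by
    intro i
    have h0 : h (E6O.H408.pt (xp al) (Pi.single i 1)) ∈ Pw al (gl : Oct a b c) := by
      rw [← hA]
      exact Submodule.mem_map_of_mem (mem_Pw.2 ⟨_, rfl⟩)
    exact mem_Pw.1 h0
  obtain ⟨δ, hδ⟩ := exists_mat h1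
  have hδD := inD0_of H.ρ3 H.ρlam hh.2.1 (xp_ne hal) (omap_xp' H.ρal) (omap_xp' H.ρal) hδ
  have hbp : bil (xp al : OctL E a b c) (omap σ (xp al)) = -algebraMap k E c := by
    rw [omap_xp H.σal, bil_xp_xm hal]
  have hbm : bil (E6O.H408.xm al : OctL E a b c) (omap σ (E6O.H408.xm al)) = -algebraMap k E c := by
    rw [omap_xm H.σal, bil_comm, bil_xp_xm hal]
  have hδu := unitary_iff (smul_right_injective _ hc (unitary_of hh.2.2 hbp hbp hδ))
  obtain ⟨z', m, hz', hzu', hdet, hm, hmD, hmU, hmn⟩ := matched H hδD hδu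
  obtain ⟨φ1, hφ1G, hφ1⟩ := exists_act H hmD hmU hmn
  have hφ1R : φ1 ∈ Res_m ρ σ lam g a b c := su_Res_m H hmD hmU hmn hφ1
  have hδ0 : IsUnit δ.det := IsUnit.of_mul_eq_one _ hdet
  have hz0 : IsUnit z'.det := IsUnit.of_mul_eq_one _ (by rw [mul_comm]; exact hdet)
  have hminv : ((m⁻¹ : (MQ E a b)ˣ) : MQ E a b) = mq al δ⁻¹ z'⁻¹ := by
    apply Units.inv_eq_of_mul_eq_one_right
    rw [hm, mq_eq hal, mq_mul hal, Matrix.mul_nonsing_inv _ hδ0, Matrix.mul_nonsing_inv _ hz0,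
      mq_one]
  have h2 : ∀ r, (φ1 * h) (E6O.H408.pt (xp al) r) = E6O.H408.pt (xp al) r := by
    intro r
    rw [LinearEquiv.mul_apply, hδ, hφ1, (act_pt hal hminv _).1, Matrix.vecMul_vecMul,
      Matrix.mul_nonsing_inv _ hδ0, Matrix.vecMul_one]
  have hG2 : φ1 * h ∈ GO ρ σ lam g a b c := mul_mem hφ1G hh
  obtain ⟨D, hD⟩ := exists_D hal H.σal H.σ2 hG2.1 hG2.2.2 h2
  have hDD := inD0_of H.ρ3 H.ρlam hG2.2.1 (xm_ne hal) (omap_xm' H.ρal) (omap_xm' H.ρal) hD
  have hDu := unitary_iff (smul_right_injective _ hc (unitary_of hG2.2.2 hbm hbm hD))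
  have hDd : D.det = 1 := by
    have e := map_Zt hal H.σal H.σ2 hG2.1 hG2.2.2 h2 hD 1
    have e2 := hG2.1 (Zt al 1)
    rw [e, cub_Zt hal, cub_Zt hal, Matrix.mul_one, Matrix.det_transpose, det_Dw,
      Matrix.det_one] at e2
    apply σ.injective
    rw [e2, map_one]
  obtain ⟨m2, hm2, hm2i, hm2D, hm2U, hm2n⟩ := exists_m (a := a) (b := b) (g := g) hal H.ρal H.σal
    inD0_one hDD un_one hDu (by rw [hDd, Matrix.det_one, one_mul])
  obtain ⟨φ2, hφ2G, hφ2⟩ := exists_act H hm2D hm2U hm2n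
  have hφ2R : φ2 ∈ Res_m ρ σ lam g a b c := su_Res_m H hm2D hm2U hm2n hφ2
  have h3 : ∀ r, (φ2 * (φ1 * h)) (E6O.H408.pt (xp al) r) = E6O.H408.pt (xp al) r := by
    intro r
    rw [LinearEquiv.mul_apply, h2, hφ2, (act_pt hal hm2i _).1, inv_one, Matrix.vecMul_one]
  have h4 : ∀ r, (φ2 * (φ1 * h)) (E6O.H408.pt (E6O.H408.xm al) r) = E6O.H408.pt (E6O.H408.xm al) r := by
    intro r
    have hD0 : IsUnit D.det := by rw [hDd]; exact isUnit_one
    rw [LinearEquiv.mul_apply, hD, hφ2, (act_pt hal hm2i _).2, Matrix.vecMul_vecMul,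
      Matrix.mul_nonsing_inv _ hD0, Matrix.vecMul_one]
  obtain ⟨f, hf⟩ := end3 H (h := φ2 * (φ1 * h)) (mul_mem hφ2G hG2)
    (fun x hx => by
      obtain ⟨r, rfl⟩ := mem_Pw.1 hx
      exact h3 r)
    (fun x hx => by
      obtain ⟨r, rfl⟩ := mem_Pm.1 hx
      exact h4 r)
  have h5 : φ2 * (φ1 * h) ∈ Res_m ρ σ lam g a b c := aut_Res_m H f hf
  have h6 : h = φ1⁻¹ * (φ2⁻¹ * (φ2 * (φ1 * h))) := by group
  rw [h6]
  exact Subgroup.mul_mem _ (Subgroup.inv_mem _ hφ1R)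
    (Subgroup.mul_mem _ (Subgroup.inv_mem _ hφ2R) h5)

end Vale.Agent.P011.E6X

end

section

open NumberField

namespace Vale.Agent.P011.E6X

open Vale.Agent.P011.E6O Vale.Agent.P011.MPQ Vale.Agent.P011.D4 Vale.Agent.P011.D4.Oct
  Vale.Agent.P011.E6

open Vale.Agent.P011.E6H (nm)

variable {k E : Type} [Field k] [NumberField k] [Field E] [NumberField E] [Algebra k E]
  {ρ σ : E ≃ₐ[k] E} {lam : Eˣ} {g : Fin 3 → Eˣ} {al s : E} {a b c : kˣ}

omit [NumberField k] [NumberField E] in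
theorem res_le_GO_m : Res_m ρ σ lam g a b c ≤ GO ρ σ lam g a b c := by
  rintro _ ⟨x, -, rfl⟩
  exact x.2

/-- An element which is moved to the standard point belongs to the finite residual. -/
theorem mem_res_of_slide_m (H : Hyp ρ σ lam g al s a b c) {h : AlbL E a b c ≃ₗ[E] AlbL E a b c}
    (hh : h ∈ GO ρ σ lam g a b c)
    (hs : ∃ n ∈ Res_m ρ σ lam g a b c, ∃ w : Oct a b c, Perp w ∧
      (Pw al (gl : Oct a b c)).map ((n * h : AlbL E a b c ≃ₗ[E] AlbL E a b c) :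
        AlbL E a b c →ₗ[E] AlbL E a b c) = Pw al w) : h ∈ Res_m ρ σ lam g a b c := by
  obtain ⟨n, hn, w, hw, h1⟩ := hs
  have h2 : n * h ∈ GO ρ σ lam g a b c := mul_mem (res_le_GO_m hn) hh
  obtain ⟨n', hn', h3⟩ := end1_m H h2 hw h1
  have h4 : n' * (n * h) ∈ GO ρ σ lam g a b c := mul_mem (res_le_GO_m hn') h2
  have h5 := end2_m H h4 h3
  have h6 : h = n⁻¹ * (n'⁻¹ * (n' * (n * h))) := by group
  rw [h6]
  exact mul_mem (InvMemClass.inv_mem hn) (mul_mem (InvMemClass.inv_mem hn') h5)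

end Vale.Agent.P011.E6X

end

section

open NumberField

namespace Vale.Agent.P011.E6X.H493

open Vale.Agent.P011.E6O

open Vale.Agent.P011.MPQ Vale.Agent.P011.D4 Vale.Agent.P011.D4.Oct Vale.Agent.P011.E6 Alb

open scoped ComplexConjugate

section gen

variable {k E : Type} [Field k] [Field E] [Algebra k E]
  {ρ σ : E ≃ₐ[k] E} {lam : Eˣ} {g : Fin 3 → Eˣ} {al s : E} {a b c : kˣ}

variable (ρ σ lam g al) in
/-- An element of the residual moves the space to a standard point. -/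
def Good_m (B : Submodule E (AlbL E a b c)) : Prop :=
  ∃ n ∈ Res_m ρ σ lam g a b c, ∃ w : Oct a b c, Perp w ∧
    B.map (n : AlbL E a b c →ₗ[E] AlbL E a b c) = Pw al w

theorem good_of_map_m {n : AlbL E a b c ≃ₗ[E] AlbL E a b c} (hn : n ∈ Res_m ρ σ lam g a b c)
    {B : Submodule E (AlbL E a b c)}
    (h : Good_m ρ σ lam g al (B.map (n : AlbL E a b c →ₗ[E] AlbL E a b c))) :
    Good_m ρ σ lam g al B := by
  obtain ⟨m, hm, w, hw, h1⟩ := h
  exact ⟨m * n, mul_mem hm hn, w, hw, by rw [map_mul', h1]⟩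

theorem res_le_m : Res_m ρ σ lam g a b c ≤ GO ρ σ lam g a b c := by
  rintro _ ⟨x, -, rfl⟩
  exact x.2

variable [NumberField k] [NumberField E]

/-- Transport of `Good_m` along a change of coordinates. -/
theorem good_trip_m (H : Hyp ρ σ lam g al s a b c) {b' c' : kˣ} {j l : Oct a b c}
    (ht : Trip a b' c' gi j l) {B : Submodule E (AlbL E a b c)}
    (h : Good_m ρ σ lam g al (B.map ((tripA E ht).symm : AlbL E a b c →ₗ[E] AlbL E a b' c'))) :
    Good_m ρ σ lam g al B := by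
  obtain ⟨m, hm, w, hw, h1⟩ := h
  have h2 := (trip_Res_m H ht (Ψ := tripA E ht) (tripA_apply ht) (φ := m)).2.1 hm
  refine ⟨_, h2, _, perp_trip ht hw, ?_⟩
  rw [← Pw_trip ht w, ← h1, ← Submodule.map_comp, ← Submodule.map_comp]
  rfl

/-- A point of a line `yI` with a known type is good. -/
theorem good_fr_m (H : Hyp ρ σ lam g al s a b c) {f1 f2 : E} (h1 : ρ f1 = f1) (h2 : ρ f2 = f2)
    (h0 : f1 ≠ 0 ∨ f2 ≠ 0) {A : Submodule E (AlbL E a b c)} (hA : IsPt ρ lam A)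
    (hAy : ∀ y ∈ A, ∃ u s, y = Sl.yI al f1 f2 u s) {f : k} (hf : f ≠ 0) (hT : Ty σ g f A)
    (hs : ∀ w, SC σ w → (vk w (b : k) < 0 → vk w (c : k) < 0 → 0 < vk w f) ∧
      (0 < vk w (b : k) ∨ 0 < vk w (c : k) → vk w (c : k) < 0 ∨ vk w f < 0)) :
    Good_m ρ σ lam g al A := by
  obtain ⟨b', j', ht, hle⟩ := Sl.frame H h1 h2 h0 hAy
  apply good_trip_m H ht
  refine E6X.T_m (Hyp.trip H ht) hf ?_ (isPt_trip ht hA) hle
    (fun w hw => tyAt_trip ht (hT w hw))
  intro w hw hb'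
  obtain ⟨τ, hτ, ha⟩ := exists_tau H hw
  have hc0 : vk w (c : k) ≠ 0 := vk_ne H hw c.ne_zero
  have hb0 : vk w (b : k) ≠ 0 := vk_ne H hw b.ne_zero
  obtain ⟨hs1, hs2⟩ := hs w hw
  rw [vk_neg, vk_mul H hw, neg_pos]
  rcases lt_or_gt_of_ne hc0 with hc | hc
  · -- `c` is negative
    have hd : Dfn τ a b c := Dfn.of_trip ht ⟨ha, by rwa [← hτ], by rwa [← hτ]⟩
    have hb : vk w (b : k) < 0 := by rw [hτ]; exact hd.2.1
    exact mul_neg_of_neg_of_pos hc (hs1 hb hc)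
  · rcases hs2 (Or.inr hc) with h3 | h3
    · exact absurd h3 (not_lt.2 hc.le)
    · exact mul_neg_of_pos_of_neg hc h3

end gen

end Vale.Agent.P011.E6X.H493

end

section

open NumberField

namespace Vale.Agent.P011.E6X.H493

open Vale.Agent.P011.E6O

open Vale.Agent.P011.MPQ Vale.Agent.P011.D4 Vale.Agent.P011.D4.Oct Vale.Agent.P011.E6 Alb

variable {k E : Type} [Field k] [NumberField k] [Field E] [NumberField E] [Algebra k E]
  {ρ σ : E ≃ₐ[k] E} {lam : Eˣ} {g : Fin 3 → Eˣ} {al s : E} {a b c : kˣ}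

/-- The neighbours of the first standard point. -/
theorem good_adj0_m (H : Hyp ρ σ lam g al s a b c) {B : Submodule E (AlbL E a b c)}
    (hB : IsPt ρ lam B) (h : ∀ x ∈ B, ∀ y ∈ Pw al (gl : Oct a b c), adj (x + y) = 0)
    {f : k} (hf : f ≠ 0) (hT : Ty σ g f B)
    (hs : ∀ w, SC σ w → (vk w (b : k) < 0 → vk w (c : k) < 0 → 0 < vk w f) ∧
      (0 < vk w (b : k) ∨ 0 < vk w (c : k) → vk w (c : k) < 0 ∨ vk w f < 0)) :
    Good_m ρ σ lam g al B := by
  obtain ⟨f1, f2, h1, h2, h0, hx⟩ := Sl.slideC H two_ne_zero hB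
    (fun x hx r => h x hx _ (yI_mem r))
  exact good_fr_m H h1 h2 h0 hB hx hf hT hs

/-- The neighbours of a standard point. -/
theorem good_adj1_m (H : Hyp ρ σ lam g al s a b c) (hS : Sg σ b c)
    {B : Submodule E (AlbL E a b c)}
    (hB : IsPt ρ lam B) {w0 : Oct a b c} (hw0 : Perp w0)
    (h : ∀ x ∈ B, ∀ y ∈ Pw al w0, adj (x + y) = 0)
    {f f' : k} (hf : f ≠ 0) (hf' : f' ≠ 0) (hT : Ty σ g f B) (hT' : Ty σ g f' (Pw al w0))
    (hs : ∀ w, SC σ w → (vk w (b : k) < 0 → vk w (c : k) < 0 → 0 < vk w f) ∧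
      (0 < vk w (b : k) → 0 < vk w (c : k) → 0 < vk w f' ∨ vk w f < 0)) :
    Good_m ρ σ lam g al B := by
  obtain ⟨b', c', j, ht⟩ := exists_trip H hw0
  have h3 : (Pw al (gl : Oct a b' c')).map
      (tripA E ht : AlbL E a b' c' →ₗ[E] AlbL E a b c) = Pw al w0 := by
    rw [Pw_trip ht, emb_gl']
  apply good_trip_m H ht
  refine good_adj0_m (Hyp.trip H ht) (isPt_trip ht hB) ?_ hf
    (fun w hw => tyAt_trip ht (hT w hw)) ?_
  · rintro _ ⟨x, hx, rfl⟩ y hy
    have h1 : tripA E ht y ∈ Pw al w0 := by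
      rw [← h3]
      exact ⟨y, hy, rfl⟩
    have h2 := h x hx _ h1
    have h4 : adj ((tripA E ht).symm (x + tripA E ht y)) = 0 := by
      refine adj_map (fun z => ?_) h2
      rw [← tripA_cub ht, LinearEquiv.apply_symm_apply]
    rw [map_add, LinearEquiv.symm_apply_apply] at h4
    exact h4
  · intro w hw
    have h5 : TyAt σ g w f' (Pw al (gl : Oct a b' c')) := by
      have h6 := tyAt_trip ht (hT' w hw)
      rw [← h3, ← Submodule.map_comp] at h6
      have h7 : (((tripA E ht).symm : AlbL E a b c →ₗ[E] AlbL E a b' c') ∘ₗ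
          (tripA E ht : AlbL E a b' c' →ₗ[E] AlbL E a b c)) = LinearMap.id := by
        ext1 x
        exact (tripA E ht).symm_apply_apply x
      rw [h7, Submodule.map_id] at h6
      exact h6
    have H' := Hyp.trip H ht
    have h8 := tyAt_sign H' hw (neg_ne_zero.2 c'.ne_zero) hf' (isPt_std H').dim
      (tyAt_Pw H' hw) h5
    rw [vk_mul H hw, vk_neg] at h8
    obtain ⟨hs1, hs2⟩ := hs w hw
    rcases trip_signs H hS ht hw with ⟨k1, k2, k3, k4⟩ | ⟨k1, k2, k3⟩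
    · refine ⟨fun _ _ => hs1 k1 k2, fun h9 => ?_⟩
      left
      exact k4
    · refine ⟨fun h9 h10 => ?_, fun _ => ?_⟩
      · rcases k3 with k3 | k3
        · exact absurd h9 (not_lt.2 k3.le)
        · exact absurd h10 (not_lt.2 k3.le)
      · rcases hs2 k1 k2 with h9 | h9
        · left
          by_contra h10
          have h11 : 0 ≤ vk w (c' : k) := not_lt.1 h10
          have h12 : -vk w (c' : k) * vk w f' ≤ 0 :=
            mul_nonpos_of_nonpos_of_nonneg (neg_nonpos.2 h11) h9.le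
          exact absurd h8 (not_lt.2 h12)
        · right
          exact h9

/-- The neighbours of a good point. -/
theorem good_adj_m (H : Hyp ρ σ lam g al s a b c) (hS : Sg σ b c)
    {B A : Submodule E (AlbL E a b c)}
    (hB : IsPt ρ lam B) (hA : Good_m ρ σ lam g al A)
    (h : ∀ x ∈ B, ∀ y ∈ A, adj (x + y) = 0)
    {f f' : k} (hf : f ≠ 0) (hf' : f' ≠ 0) (hT : Ty σ g f B) (hT' : Ty σ g f' A)
    (hs : ∀ w, SC σ w → (vk w (b : k) < 0 → vk w (c : k) < 0 → 0 < vk w f) ∧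
      (0 < vk w (b : k) → 0 < vk w (c : k) → 0 < vk w f' ∨ vk w f < 0)) :
    Good_m ρ σ lam g al B := by
  obtain ⟨n, hn, w, hw, h1⟩ := hA
  apply good_of_map_m hn
  refine good_adj1_m H hS (isPt_map (res_le_m hn) hB) hw ?_ hf hf'
    (fun v hv => tyAt_map (hT v hv) (res_le_m hn))
    (fun v hv => by rw [← h1]; exact tyAt_map (hT' v hv) (res_le_m hn)) hs
  rintro _ ⟨x, hx, rfl⟩ y hy
  rw [← h1] at hy
  obtain ⟨y, hy, rfl⟩ := hy
  change adj (n x + n y) = 0
  rw [← map_add]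
  exact adj_map (res_le_m hn).1 (h x hx y hy)

/-- The point adjacent to `P` and to the point opposite to `U`, with the sign argument. -/
theorem exists_mid_m (H : Hyp ρ σ lam g al s a b c) (hS : Sg σ b c)
    {P U : Submodule E (AlbL E a b c)} (hP : IsPt ρ lam P) (hU : IsPt ρ lam U)
    (hUl : U ≤ Iln c (E6O.em al)) (horth : ∀ y ∈ U, ∀ x ∈ P, her σ g y x = 0)
    (hTU : Ty σ g ((b : k) * c) U) :
    ∃ A : Submodule E (AlbL E a b c), IsPt ρ lam A ∧
      (∀ x ∈ P, ∀ y ∈ A, adj (x + y) = 0) ∧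
      (∀ x ∈ opp σ g al U, ∀ y ∈ A, adj (x + y) = 0) ∧
      (Ty σ g (-(b : k)) A → Good_m ρ σ lam g al A) := by
  have hb0 : (b : k) ≠ 0 := b.ne_zero
  have hc0 : (c : k) ≠ 0 := c.ne_zero
  have hbc0 : (b : k) * c ≠ 0 := mul_ne_zero hb0 hc0
  obtain ⟨n, hn, w0, hw0, h1, h2⟩ := E6X.Tm_m H hbc0 (by
    intro w hw hb
    have hc : vk w (c : k) ≠ 0 := vk_ne H hw hc0
    rw [vk_neg, vk_mul H hw, vk_mul H hw]
    have : 0 < vk w (c : k) ^ 2 := by positivity
    nlinarith) hU hUl hTU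
  obtain ⟨b', c', j, ht⟩ := exists_trip H hw0
  have H' := Hyp.trip H ht
  have hGO := res_le_m hn
  -- the transported point
  set P2 := (P.map (n : AlbL E a b c →ₗ[E] AlbL E a b c)).map
    ((tripA E ht).symm : AlbL E a b c →ₗ[E] AlbL E a b' c') with hP2
  have hP2' : IsPt ρ lam P2 := isPt_trip ht (isPt_map hGO hP)
  have hcb : ∀ x ∈ P2, cb al x.x1.snd = 0 ∧ cb al x.x2.snd = 0 ∧ cb al x.x3.snd = 0 := by
    rintro _ ⟨_, ⟨x, hx, rfl⟩, rfl⟩
    apply cb_of_her H'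
    intro y hy
    have h4 : tripA E ht y ∈ Pm al w0 := by
      have h3 : tripA E ht y ∈ (Pm al (gl : Oct a b' c')).map
          (tripA E ht : AlbL E a b' c' →ₗ[E] AlbL E a b c) := ⟨y, hy, rfl⟩
      rwa [Pm_trip ht, emb_gl'] at h3
    rw [← h1] at h4
    obtain ⟨z, hz, hzy⟩ := h4
    change her σ g y ((tripA E ht).symm (n x)) = 0
    rw [← tripA_her ht, LinearEquiv.apply_symm_apply, ← hzy]
    change her σ g (n z) (n x) = 0
    rw [hGO.2.2]
    exact horth z hz x hx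
  obtain ⟨f1, f2, e1, e2, e0, A2, hA2, hAy, hadj⟩ := Sl.slideB H' two_ne_zero hP2' hcb
  -- back
  set A1 := A2.map (tripA E ht : AlbL E a b' c' →ₗ[E] AlbL E a b c) with hA1
  have hA1p : IsPt ρ lam A1 := isPt_map' (tripA_cub ht) (tripA_ph ht) hA2
  set A := A1.map ((n⁻¹ : AlbL E a b c ≃ₗ[E] AlbL E a b c) : AlbL E a b c →ₗ[E] AlbL E a b c)
    with hA
  have hinv : n⁻¹ ∈ GO ρ σ lam g a b c := inv_mem hGO
  have hAp : IsPt ρ lam A := isPt_map hinv hA1p
  have hmem : ∀ y ∈ A, ∃ z ∈ A2, y = n⁻¹ (tripA E ht z) := by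
    rintro _ ⟨_, ⟨z, hz, rfl⟩, rfl⟩
    exact ⟨z, hz, rfl⟩
  have hback : ∀ (x : AlbL E a b c) (z : AlbL E a b' c'),
      adj ((tripA E ht).symm (n x) + z) = 0 → adj (x + n⁻¹ (tripA E ht z)) = 0 := by
    intro x z h3
    have h4 : adj (tripA E ht ((tripA E ht).symm (n x) + z)) = 0 := adj_map (tripA_cub ht) h3
    rw [map_add, LinearEquiv.apply_symm_apply] at h4
    have h5 : adj (n⁻¹ (n x + tripA E ht z)) = 0 := adj_map hinv.1 h4
    rw [map_add] at h5
    have h6 : n⁻¹ (n x) = x := by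
      rw [← LinearEquiv.mul_apply, inv_mul_cancel]
      rfl
    rwa [h6] at h5
  refine ⟨A, hAp, ?_, ?_, ?_⟩
  · intro x hx y hy
    obtain ⟨z, hz, rfl⟩ := hmem y hy
    apply hback
    exact hadj z hz _ ⟨_, ⟨x, hx, rfl⟩, rfl⟩
  · intro x hx y hy
    obtain ⟨z, hz, rfl⟩ := hmem y hy
    apply hback
    have h3 : (tripA E ht).symm (n x) ∈ Pw al (gl : Oct a b' c') := by
      have h4 : n x ∈ Pw al w0 := by
        rw [← h2]
        exact ⟨x, hx, rfl⟩
      have h5 : (Pw al (gl : Oct a b' c')).map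
          (tripA E ht : AlbL E a b' c' →ₗ[E] AlbL E a b c) = Pw al w0 := by
        rw [Pw_trip ht, emb_gl']
      rw [← h5] at h4
      obtain ⟨y, hy, h6⟩ := h4
      rw [← h6]
      change (tripA E ht).symm (tripA E ht y) ∈ _
      rw [LinearEquiv.symm_apply_apply]
      exact hy
    obtain ⟨r, hr⟩ := eq_yI_of_mem h3
    obtain ⟨u, t, hu⟩ := hAy z hz
    rw [hr, hu, add_comm, yI_add]
    exact Sl.adj_yI two_ne_zero H'.al2 _ _ _ _
  · intro hTA
    -- the types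
    have hTA1 : Ty σ g (-(b : k)) A1 := by
      intro w hw
      have h3 := tyAt_map (hTA w hw) hGO
      rw [hA, map_inv'] at h3
      exact h3
    have hTA2 : Ty σ g (-(b : k)) A2 := by
      intro w hw
      have h3 := tyAt_trip ht (hTA1 w hw)
      rw [hA1, ← Submodule.map_comp] at h3
      have h7 : (((tripA E ht).symm : AlbL E a b c →ₗ[E] AlbL E a b' c') ∘ₗ
          (tripA E ht : AlbL E a b' c' →ₗ[E] AlbL E a b c)) = LinearMap.id := by
        ext1 x
        exact (tripA E ht).symm_apply_apply x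
      rw [h7, Submodule.map_id] at h3
      exact h3
    have hPm : (U.map (n : AlbL E a b c →ₗ[E] AlbL E a b c)).map
        ((tripA E ht).symm : AlbL E a b c →ₗ[E] AlbL E a b' c') = Pm al (gl : Oct a b' c') := by
      have h5 : (Pm al (gl : Oct a b' c')).map
          (tripA E ht : AlbL E a b' c' →ₗ[E] AlbL E a b c) = Pm al w0 := by
        rw [Pm_trip ht, emb_gl']
      rw [h1, ← h5, ← Submodule.map_comp]
      have h7 : (((tripA E ht).symm : AlbL E a b c →ₗ[E] AlbL E a b' c') ∘ₗ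
          (tripA E ht : AlbL E a b' c' →ₗ[E] AlbL E a b c)) = LinearMap.id := by
        ext1 x
        exact (tripA E ht).symm_apply_apply x
      rw [h7, Submodule.map_id]
    have hG1 : Good_m ρ σ lam g al A1 := by
      apply good_trip_m H ht
      have h3 : A1.map ((tripA E ht).symm : AlbL E a b c →ₗ[E] AlbL E a b' c') = A2 := by
        rw [hA1, ← Submodule.map_comp]
        have h7 : (((tripA E ht).symm : AlbL E a b c →ₗ[E] AlbL E a b' c') ∘ₗ
            (tripA E ht : AlbL E a b' c' →ₗ[E] AlbL E a b c)) = LinearMap.id := by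
          ext1 x
          exact (tripA E ht).symm_apply_apply x
        rw [h7, Submodule.map_id]
      rw [h3]
      refine good_fr_m H' e1 e2 e0 hA2 hAy (neg_ne_zero.2 hb0) hTA2 ?_
      intro w hw
      have h5 : TyAt σ g w ((b : k) * c) (Pm al (gl : Oct a b' c')) := by
        rw [← hPm]
        exact tyAt_trip ht (tyAt_map (hTU w hw) hGO)
      have h6 : Module.finrank E (Pm al (gl : Oct a b' c')) = 3 := by
        rw [← hPm]
        exact (isPt_trip ht (isPt_map hGO hU)).dim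
      have h8 := tyAt_sign H' hw (neg_ne_zero.2 c'.ne_zero) hbc0 h6
        (tyAt_Pm H' hw) h5
      rw [vk_mul H hw, vk_mul H hw, vk_neg] at h8
      rw [vk_neg]
      rcases trip_signs H hS ht hw with ⟨k1, k2, k3, k4⟩ | ⟨k1, k2, k3⟩
      · exact ⟨fun _ _ => by linarith, fun _ => Or.inl k4⟩
      · have h9 : vk w (c' : k) < 0 := by
          by_contra h10
          have h11 : 0 ≤ vk w (c' : k) := not_lt.1 h10
          have h12 : -vk w (c' : k) * (vk w (b : k) * vk w (c : k)) ≤ 0 :=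
            mul_nonpos_of_nonpos_of_nonneg (neg_nonpos.2 h11) (mul_pos k1 k2).le
          exact absurd h8 (not_lt.2 h12)
        refine ⟨fun h10 h11 => ?_, fun _ => Or.inl h9⟩
        rcases k3 with k3 | k3
        · exact absurd h10 (not_lt.2 k3.le)
        · exact absurd h11 (not_lt.2 k3.le)
    obtain ⟨m, hm, v, hv, h9⟩ := hG1
    exact ⟨m * n, mul_mem hm hn, v, hv, by rw [map_mul', hA, map_inv', h9]⟩

/-- If the types are known, the point is good. -/
theorem good_of_types_m (H : Hyp ρ σ lam g al s a b c) (hS : Sg σ b c)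
    {P : Submodule E (AlbL E a b c)} (hP : IsPt ρ lam P) (hTP : Ty σ g (-(c : k)) P)
    (hU : ∀ U : Submodule E (AlbL E a b c), IsPt ρ lam U → U ≤ Iln c (E6O.em al) →
      (∀ y ∈ U, ∀ x ∈ P, her σ g y x = 0) → Ty σ g ((b : k) * c) U ∧
        ∀ A : Submodule E (AlbL E a b c), IsPt ρ lam A → (∀ x ∈ P, ∀ y ∈ A, adj (x + y) = 0) →
          (∀ x ∈ opp σ g al U, ∀ y ∈ A, adj (x + y) = 0) → Ty σ g (-(b : k)) A) :
    Good_m ρ σ lam g al P := by
  obtain ⟨U, hUp, hUl, horth⟩ := exists_orth H hP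
  obtain ⟨hTU, hA⟩ := hU U hUp hUl horth
  obtain ⟨A, hAp, h1, h2, h3⟩ := exists_mid_m H hS hP hUp hUl horth hTU
  have hTA := hA A hAp h1 h2
  refine good_adj_m H hS hP (h3 hTA) h1 (neg_ne_zero.2 c.ne_zero) (neg_ne_zero.2 b.ne_zero) hTP hTA
    ?_
  intro w hw
  rw [vk_neg, vk_neg]
  exact ⟨fun _ h4 => by linarith, fun _ h4 => Or.inr (by linarith)⟩

end Vale.Agent.P011.E6X.H493

end

section

open NumberField

namespace Vale.Agent.P011.E6X

open Vale.Agent.P011.E6O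

open Vale.Agent.P011.MPQ Vale.Agent.P011.D4 Vale.Agent.P011.D4.Oct Vale.Agent.P011.E6 Alb

variable {k E : Type} [Field k] [NumberField k] [Field E] [NumberField E] [Algebra k E]
  {ρ σ : E ≃ₐ[k] E} {lam : Eˣ} {g : Fin 3 → Eˣ} {al s : E} {a b c : kˣ}

/-- **The elements near the identity carry the first standard point to a standard point**, up to
an element of the residual. -/
theorem near_slide_m (H : Hyp ρ σ lam g al s a b c) (hS : Sg σ b c) :
    ∃ ε : ℝ, 0 < ε ∧ ∀ h ∈ GO ρ σ lam g a b c, NearS σ g al ε h →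
      ∃ n ∈ Res_m ρ σ lam g a b c, ∃ w : Oct a b c, Perp w ∧
        (Pw al (gl : Oct a b c)).map ((n * h : AlbL E a b c ≃ₗ[E] AlbL E a b c) :
          AlbL E a b c →ₗ[E] AlbL E a b c) = Pw al w := by
  classical
  choose ε hε hε' using H493.near_w H (ρ := ρ) (σ := σ) (lam := lam) (g := g) (al := al)
    (s := s) (a := a) (b := b) (c := c)
  obtain ⟨ε0, h0, h0'⟩ : ∃ ε0 : ℝ, 0 < ε0 ∧ ∀ w, ε0 ≤ ε w := by
    rcases isEmpty_or_nonempty (E →+* ℂ) with he | he
    · exact ⟨1, one_pos, fun w => (he.false w).elim⟩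
    · refine ⟨Finset.univ.inf' Finset.univ_nonempty ε,
        (Finset.lt_inf'_iff _).2 fun w _ => hε w, fun w => Finset.inf'_le _ (Finset.mem_univ w)⟩
  refine ⟨ε0, h0, fun h hh hn => ?_⟩
  have hai : ai E a b c ∈ Res_m ρ σ lam g a b c := aut_Res_m H (autI a b c) (ai_aup (E := E))
  set P := (Pw al (gl : Oct a b c)).map ((ai E a b c * h : AlbL E a b c ≃ₗ[E] AlbL E a b c) :
    AlbL E a b c →ₗ[E] AlbL E a b c) with hP
  have hGO : ai E a b c * h ∈ GO ρ σ lam g a b c := mul_mem (H493.res_le_m hai) hh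
  have hPp : IsPt ρ lam P := H493.isPt_map hGO (H493.isPt_std H)
  have hTP : Ty σ g (-(c : k)) P := fun w hw => tyAt_map (tyAt_Pw H hw) hGO
  have hσg : ∀ i, σ (g i) = g i := H.σg
  have key := H493.good_of_types_m H hS hPp hTP (by
    intro U hU hUl horth
    have hU' : ∀ w, SC σ w → ¬ Cp g b c w → TyAt σ g w ((b : k) * c) U ∧
        ∀ A : Submodule E (AlbL E a b c), IsPt ρ lam A → (∀ x ∈ P, ∀ y ∈ A, adj (x + y) = 0) →
          (∀ x ∈ opp σ g al U, ∀ y ∈ A, adj (x + y) = 0) → TyAt σ g w (-(b : k)) A := by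
      intro w hw hc
      refine hε' w hw h hh (fun x => ?_) P hP hPp U hU hUl horth
      refine (hn w hw hc x).trans ?_
      exact mul_le_mul_of_nonneg_right (h0' w) (H493.nw_nonneg _ _)
    constructor
    · intro w hw
      by_cases hc : Cp g b c w
      · refine tyAt_pos H hw
          (fun x hx => her_pos two_ne_zero H.al2 H.σal hw hσg hc hx) hc.2.2 ?_ hU.dim
        rw [H493.vk_mul H hw]
        exact mul_pos_of_neg_of_neg hc.1 hc.2.1
      · exact (hU' w hw hc).1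
    · intro A hA h1 h2 w hw
      by_cases hc : Cp g b c w
      · refine tyAt_pos H hw
          (fun x hx => her_pos two_ne_zero H.al2 H.σal hw hσg hc hx) hc.2.2 ?_ hA.dim
        rw [H493.vk_neg]
        exact neg_pos.2 hc.1
      · exact (hU' w hw hc).2 A hA h1 h2)
  obtain ⟨n, hn', v, hv, h3⟩ := key
  refine ⟨n * ai E a b c, mul_mem hn' hai, v, hv, ?_⟩
  rw [← h3, hP, ← H493.map_mul', mul_assoc]

end Vale.Agent.P011.E6X

end

section

open NumberField

namespace Vale.Agent.P011.E6X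

open Vale.Agent.P011.E6O

open Vale.Agent.P011.MPQ Vale.Agent.P011.D4 Vale.Agent.P011.D4.Oct Vale.Agent.P011.E6

variable {k E : Type} [Field k] [NumberField k] [Field E] [NumberField E] [Algebra k E]
  {ρ σ : E ≃ₐ[k] E} {lam : Eˣ} {g : Fin 3 → Eˣ} {al s : E} {a b c : kˣ}

/-- **The elements near the identity are in the finite residual.** -/
theorem near_res_m (H : Hyp ρ σ lam g al s a b c) (hS : Sg σ b c) :
    ∃ ε : ℝ, 0 < ε ∧ ∀ h ∈ GO ρ σ lam g a b c, NearS σ g al ε h →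
      h ∈ Res_m ρ σ lam g a b c := by
  obtain ⟨ε, h0, h1⟩ := near_slide_m H hS
  exact ⟨ε, h0, fun h hh hn => mem_res_of_slide_m H hh (h1 h hh hn)⟩

end Vale.Agent.P011.E6X

end

section

open NumberField

namespace Vale.Agent.P011.E6X.H637

open Vale.Agent.P011.MPQ Vale.Agent.P011.D4 Vale.Agent.P011.D4.Oct Vale.Agent.P011.E6

end Vale.Agent.P011.E6X.H637

namespace Vale.Agent.P011.E6X

open Vale.Agent.P011.MPQ Vale.Agent.P011.D4 Vale.Agent.P011.D4.Oct Vale.Agent.P011.E6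

open Vale.Agent.P011.E6O

open Vale.Agent.P011.E6X.H637

variable {k E : Type} [Field k] [NumberField k] [Field E] [NumberField E] [Algebra k E]
  {ρ σ : E ≃ₐ[k] E} {lam : Eˣ} {g : Fin 3 → Eˣ} {al s : E} {a b c b' c' : kˣ}

variable (ρ σ lam g al a b c) in
/-- The elements near `1` belong to the finite residual. -/
def NearRes_m : Prop := ∃ ε : ℝ, 0 < ε ∧ ∀ h ∈ GO ρ σ lam g a b c, NearS σ g al ε h →
  h ∈ Res_m ρ σ lam g a b c

/-- The statement does not depend on the coordinates. -/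
theorem nearRes_trip_m (H : E6X.Hyp ρ σ lam g al s a b c) {j l : Oct a b c}
    (ht : Trip a b' c' gi j l) (hC : ∀ w, SC σ w → Cp g b c w → Cp g b' c' w)
    (hN : NearRes_m ρ σ lam g al a b' c') : NearRes_m ρ σ lam g al a b c := by
  obtain ⟨ε, hε, h1⟩ := hN
  let Ψ : AlbL E a b' c' ≃ₗ[E] AlbL E a b c := tripA E ht
  have hΨ : ∀ x, Ψ x = Alb.omapA (emb (oup E gi) (oup E j) (oup E l)) x := tripA_apply ht
  obtain ⟨C, hC0, hC1⟩ := exists_bound H.al2 (Ψ : AlbL E a b' c' →ₗ[E] AlbL E a b c)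
  obtain ⟨C', hC0', hC1'⟩ := exists_bound H.al2 (Ψ.symm : AlbL E a b c →ₗ[E] AlbL E a b' c')
  refine ⟨ε / (C' * C), by positivity, fun h hh hn => ?_⟩
  let φ : AlbL E a b' c' ≃ₗ[E] AlbL E a b' c' := (Ψ.trans h).trans Ψ.symm
  have hφ : (Ψ.symm.trans φ).trans Ψ = h := by
    apply LinearEquiv.ext
    intro x
    change Ψ (Ψ.symm (h (Ψ (Ψ.symm x)))) = h x
    rw [LinearEquiv.apply_symm_apply, LinearEquiv.apply_symm_apply]
  obtain ⟨e1, e2⟩ := trip_Res_m H ht hΨ (φ := φ)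
  rw [hφ] at e1 e2
  refine e2.1 (h1 φ (e1.2 hh) fun w hw hcw x => ?_)
  have h2 := hn w hw (fun h' => hcw (hC w hw h')) (Ψ x)
  have h3 : φ x - x = Ψ.symm (h (Ψ x) - Ψ x) := by
    rw [map_sub, LinearEquiv.symm_apply_apply]
    rfl
  rw [h3]
  have h4 := hC1' w (h (Ψ x) - Ψ x)
  have h5 := hC1 w x
  calc nw w al (Ψ.symm (h (Ψ x) - Ψ x)) ≤ C' * nw w al (h (Ψ x) - Ψ x) := h4
    _ ≤ C' * (ε / (C' * C) * nw w al (Ψ x)) := by gcongr
    _ ≤ C' * (ε / (C' * C) * (C * nw w al x)) := by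
      refine mul_le_mul_of_nonneg_left (mul_le_mul_of_nonneg_left h5 (by positivity)) hC0'.le
    _ = ε * nw w al x := by field_simp

/-- The sign hypothesis can be removed. -/
theorem nearRes_of_m (H : E6X.Hyp ρ σ lam g al s a b c)
    (h : ∀ b' c' : kˣ, E6X.Hyp ρ σ lam g al s a b' c' → Sg σ b' c' →
      NearRes_m ρ σ lam g al a b' c') : NearRes_m ρ σ lam g al a b c := by
  obtain ⟨t, c₁, hc₁, h1⟩ := exists_c H.hdiv
  have ht₁ := trip1 (a := a) t hc₁
  have H₁ := H.trip ht₁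
  obtain ⟨t', b₁, hb₁, h2⟩ := exists_b H₁.hdiv
  have ht₂ := trip2 (a := a) t' hb₁
  have H₂ := H₁.trip ht₂
  have hv : ∀ (w : E →+* ℂ) (τ : k →+* ℝ), (∀ t : k, w (algebraMap k E t) = (τ t : ℂ)) →
      ∀ t : k, vk w t = τ t := by
    intro w τ hτ t
    rw [vk, hτ, Complex.ofReal_re]
  refine nearRes_trip_m H ht₁ (fun w hw hcp => ?_) (nearRes_trip_m H₁ ht₂ (fun w hw hcp => ?_)
    (h b₁ c₁ H₂ fun w hw => ?_))
  · obtain ⟨τ, hτ, -⟩ := H.exists_tau hw
    obtain ⟨hb, hc, hg⟩ := hcp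
    refine ⟨hb, ?_, hg⟩
    rw [hv w τ hτ] at hb hc ⊢
    exact ((h1 τ).2 hb).2 hc
  · obtain ⟨τ, hτ, -⟩ := H.exists_tau hw
    obtain ⟨hb, hc, hg⟩ := hcp
    refine ⟨?_, hc, hg⟩
    rw [hv w τ hτ] at hb hc ⊢
    exact ((h2 τ).2 hc).2 hb
  · obtain ⟨τ, hτ, -⟩ := H.exists_tau hw
    rw [hv w τ hτ, hv w τ hτ]
    have hc₁0 : τ c₁ ≠ 0 := (map_ne_zero τ).2 c₁.ne_zero
    have hb0 : τ b ≠ 0 := (map_ne_zero τ).2 b.ne_zero
    rcases lt_or_gt_of_ne hc₁0 with hc | hc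
    · refine Or.inl ⟨?_, hc⟩
      refine ((h2 τ).2 hc).2 ?_
      rcases lt_or_gt_of_ne hb0 with hb | hb
      · exact hb
      · exact absurd hc (not_lt.2 ((h1 τ).1 hb).le)
    · exact Or.inr ⟨(h2 τ).1 hc, hc⟩

end Vale.Agent.P011.E6X

end

section

open NumberField Matrix

namespace Vale.Agent.P011.E6X

open Vale.Agent.P011.MPQ Vale.Agent.P011.D4 Vale.Agent.P011.D4.Oct Vale.Agent.P011.E6

open Vale.Agent.P011.E6O

variable {k E : Type} [Field k] [NumberField k] [Field E] [NumberField E] [Algebra k E]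
  {ρ σ : E ≃ₐ[k] E} {lam : Eˣ} {g : Fin 3 → Eˣ} {al s : E} {a b c : kˣ}

/-- The elements near `1` belong to the finite residual. -/
theorem near_res_all_m (H : E6X.Hyp ρ σ lam g al s a b c) :
    ∃ ε : ℝ, 0 < ε ∧ ∀ h ∈ GO ρ σ lam g a b c, NearS σ g al ε h →
      h ∈ Res_m ρ σ lam g a b c :=
  nearRes_of_m H fun _ _ H' hS => near_res_m H' hS

end Vale.Agent.P011.E6X

end
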