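import Vale.Agent.P011.H706.Rl.DTq
import Vale.Agent.P011.H974.Rl.Span
import Vale.Agent.P011.E6.H64.Act
import Vale.Agent.P011.E6W.H964.N0
import Mathlib.NumberTheory.NumberField.InfinitePlace.Embeddings

/-!
Rational curves in the outer groups of type `E₆`: the Cayley transforms.
-/

open Matrix

namespace Vale.Agent.P011.E6O.Gn

open Vale.Agent.P011.MPQ Vale.Agent.P011.D4 Vale.Agent.P011.D4.Oct Vale.Agent.P011.E6
open Vale.Agent.P011.E6H (IsSextic IsForm)
open Vale.Agent.P011.E6W.H964 (Xm Sy Xm_mul)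
open Vale.Agent.P011.H500.Rl

section poly

open Polynomial

variable {k E V : Type} [Field k] [Field E] [Algebra k E] [AddCommGroup V] [Module E V]
  [FiniteDimensional E V]

theorem fin_unit (Y Z : Module.End E V) :
    {t : E | ¬ IsUnit (1 - t • Y + (t * t) • Z)}.Finite := by
  classical
  let A := LinearMap.toMatrixAlgEquiv (Module.finBasis E V)
  let M : Matrix _ _ E[X] := 1 - (X : E[X]) • (A Y).map C + (X * X : E[X]) • (A Z).map C
  have h : ∀ t : E, M.det.eval t = (A (1 - t • Y + (t * t) • Z)).det := fun t => by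
    rw [← coe_evalRingHom, RingHom.map_det, map_add A, map_sub A, map_one A, map_smul A, map_smul A]
    congr 1
    ext i j
    simp [M, Matrix.one_apply, apply_ite (eval t), mul_comm t (A Y i j)]
  have h0 : M.det ≠ 0 := fun e => by simpa [e] using h 0
  refine (M.det.rootSet_finite E).subset fun t ht => ?_
  rw [mem_rootSet_of_ne h0, coe_aeval_eq_eval, h]
  by_contra hn
  exact ht (by simpa using ((Matrix.isUnit_iff_isUnit_det _).2 (Ne.isUnit hn)).map A.symm)

theorem odd_zero [Infinite k] (Y Z : Module.End E V) {c0 c1 c2 : E}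
    (h : ∀ t : k, IsUnit (1 - algebraMap k E t • Y + (algebraMap k E t * algebraMap k E t) • Z) →
      algebraMap k E t * c0 + algebraMap k E t ^ 3 * c1 + algebraMap k E t ^ 5 * c2 = 0) :
    c0 = 0 := by
  have h1 : (C c0 * X + C c1 * X ^ 3 + C c2 * X ^ 5 : E[X]) = 0 := by
    refine eq_zero_of_infinite_isRoot _ (((Set.infinite_range_of_injective
      (algebraMap k E).injective).sdiff (fin_unit Y Z)).mono ?_)
    rintro _ ⟨⟨t, rfl⟩, ht⟩
    have := h t (not_not.1 ht)
    simp only [Set.mem_ofPred_eq, IsRoot, eval_add, eval_mul, eval_C, eval_X, eval_pow]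
    linear_combination this
  simpa [coeff_X, coeff_X_pow] using congrArg (coeff · 1) h1

end poly

section alg

variable {F : Type} [Field F] {a b c : Fˣ}

/-- The action with two matrices, as a linear map. -/
def AM (m m' : Matrix (Fin 3) (Fin 3) (Qt a b)) : Module.End F (Alb a b c) where
  toFun := actM m m'
  map_add' x y := by
    rw [actM, actM, actM, mat_add, H500.Rl.vec_add, Matrix.mul_add, Matrix.add_mul,
      Matrix.add_vecMul, ofMV_add]
  map_smul' t x := by
    rw [actM, actM, mat_smul, H500.Rl.vec_smul, Matrix.mul_smul, Matrix.smul_mul,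
      Matrix.smul_vecMul, ofMV_smul, RingHom.id_apply]

theorem actM_mul (h2 : (2 : F) ≠ 0) (m m' n n' : Matrix (Fin 3) (Fin 3) (Qt a b))
    (v : Alb a b c) : actM m m' (actM n n' v) = actM (m * n) (n' * m') v := by
  rw [actM, actM, actM, H64.mat_ofMV h2 (H64.conj_isHermitian (H64.mat_isHermitian v) n),
    H64.vec_ofMV, Matrix.vecMul_vecMul, Matrix.conjTranspose_mul]
  simp only [Matrix.mul_assoc]

theorem AM_exp (y : Matrix (Fin 3) (Fin 3) F) (t : F) :
    (AM (Xm a b 1 (t • y)) (Xm a b 1 (-(t • y))) : Module.End F (Alb a b c)) =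
      1 + t • DD y + (t * t) • AM (Xm a b 0 y) 0 := by
  refine LinearMap.ext fun v => ?_
  have h := act_expand v (t • ((0, y) : WW F))
  rw [map_smul, map_smul, map_smul, LinearMap.smul_apply, smul_smul] at h
  convert h using 2
  · simp only [xm, ng, Prod.fst_add, Prod.snd_add, Prod.smul_fst, Prod.smul_snd, smul_zero,
      add_zero, zero_add]
    rfl
  · change v + t • DD y v + (t * t) • actM _ _ v = _
    rw [actM, Matrix.vecMul_zero]
    rfl

variable {y : Matrix (Fin 3) (Fin 3) F}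

theorem cay_l (hd : (Dl y (b : F)).det ≠ 0) :
    Xm a b (xc y b) (yc y b) * Xm a b 1 (-y) = Xm a b 1 y := by
  have h1 := Dli_comm hd
  have h2 : (Dl y (b : F))⁻¹ * (1 - (b : F) • (y * y)) = 1 := Matrix.nonsing_inv_mul _ hd.isUnit
  rw [Matrix.mul_sub, Matrix.mul_one, Matrix.mul_smul] at h2
  rw [Xm_mul, xc, yc, ← h1]
  simp only [Matrix.mul_one, Matrix.mul_neg, Matrix.smul_mul, Matrix.sub_mul, Matrix.one_mul,
    Matrix.mul_assoc]
  congr 1
  · linear_combination (norm := module) (2 : F) • h2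
  · abel

theorem cay_r (hd : (Dl y (b : F)).det ≠ 0) :
    Xm a b 1 y * Xm a b (xc y b) (-yc y b) = Xm a b 1 (-y) := by
  have h2 : (1 - (b : F) • (y * y)) * (Dl y (b : F))⁻¹ = 1 := Matrix.mul_nonsing_inv _ hd.isUnit
  rw [Matrix.sub_mul, Matrix.one_mul, Matrix.smul_mul, Matrix.mul_assoc] at h2
  rw [Xm_mul, xc, yc]
  simp only [Matrix.mul_one, Matrix.mul_neg, Matrix.mul_smul, Matrix.mul_sub, Matrix.one_mul]
  congr 1
  · linear_combination (norm := module) (2 : F) • h2
  · abel

theorem det_of_inj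
    (h : Function.Injective (AM (Xm a b 1 (-y)) (Xm a b 1 y) : Module.End F (Alb a b c))) :
    (Dl y (b : F)).det ≠ 0 := by
  intro h0
  obtain ⟨u, u0, hu⟩ := Matrix.exists_vecMul_eq_zero_iff.2 h0
  let M : Matrix (Fin 3) (Fin 3) F := Matrix.of fun _ => u
  have h1 : M * Dl y (b : F) = 0 := by
    ext1 i j
    exact congrFun hu j
  have h2 : Xm a b M (-(M * y)) * Xm a b 1 y = 0 := by
    rw [Dl, Matrix.mul_sub, Matrix.mul_one, Matrix.mul_smul] at h1
    rw [Xm_mul, Matrix.mul_one, Matrix.mul_one, Matrix.neg_mul, smul_neg, ← sub_eq_add_neg,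
      Matrix.mul_assoc, h1, add_neg_cancel]
    rfl
  have h3 := h (a₁ := Alb.ofMV 0 (Xm a b M (-(M * y)) 0)) (a₂ := 0) (by
    rw [map_zero]
    change actM _ _ _ = _
    rw [actM, H64.vec_ofMV, ← Matrix.mul_apply_eq_vecMul, h2]
    have e : Alb.mat (Alb.ofMV 0 (Xm a b M (-(M * y)) 0) : Alb a b c) = 0 := by
      ext1 i j
      fin_cases i <;> fin_cases j <;> simp [Alb.mat, Alb.ofMV]
    rw [e, Matrix.mul_zero, Matrix.zero_mul]
    rfl)
  have h4 := congrArg Alb.vec h3
  rw [H64.vec_ofMV] at h4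
  refine u0 (funext fun j => ?_)
  have h5 := congrArg (·.re) (congrFun h4 j)
  fin_cases j <;> exact h5

end alg

variable {k E : Type} [Field k] [Field E] [Algebra k E] {ρ σ : E ≃ₐ[k] E} {lam : Eˣ}
  {g : Fin 3 → Eˣ} {kap a b c a' b' c' : kˣ}

variable (ρ σ lam g) in
/-- The direction of a rational curve in the group. -/
def Cv (Y : Module.End E (AlbL E a b c)) : Prop :=
  ∃ Z : Module.End E (AlbL E a b c), ∀ t : k,
    IsUnit (1 - algebraMap k E t • Y + (algebraMap k E t * algebraMap k E t) • Z) →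
      ∃ γ ∈ GO ρ σ lam g a b c,
        γ.toLinearMap * (1 - algebraMap k E t • Y + (algebraMap k E t * algebraMap k E t) • Z) =
          1 + algebraMap k E t • Y + (algebraMap k E t * algebraMap k E t) • Z

theorem Cv.smul {Y : Module.End E (AlbL E a b c)} (hY : Cv ρ σ lam g Y) (s : k) :
    Cv ρ σ lam g (algebraMap k E s • Y) := by
  obtain ⟨Z, h2⟩ := hY
  refine ⟨(algebraMap k E s * algebraMap k E s) • Z, fun t => ?_⟩
  have := h2 (t * s)
  rwa [map_mul, mul_smul _ _ Y, mul_mul_mul_comm, mul_smul _ _ Z] at this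

variable [NeZero (2 : E)]

theorem cv_DD {y : Matrix (Fin 3) (Fin 3) E} (hy : InD0 ρ lam y) (hs : Sy σ g y) :
    Cv ρ σ lam g (DD y : Module.End E (AlbL E a b c)) := by
  refine ⟨AM (Xm _ _ 0 y) 0, fun t ht => ?_⟩
  set s := algebraMap k E t with hs'
  have e := AM_exp (a := up E a) (b := up E b) (c := up E c) y (-s)
  rw [neg_smul, neg_neg, neg_smul, neg_mul_neg, ← sub_eq_add_neg] at e
  rw [← e] at ht ⊢
  have hd := det_of_inj ((Module.End.isUnit_iff _).1 ht).1
  obtain ⟨φ, h1, h2⟩ := exists_cay (a := a) (c := c) (inD0_smul (ρ.commutes t) hy)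
    (Sy_smul (σ.commutes t) hs) hd
  refine ⟨φ, h1, LinearMap.ext fun v => (h2 _).trans ?_⟩
  rw [← AM_exp, act_eq]
  refine (actM_mul two_ne_zero _ _ _ _ v).trans ?_
  exact congrArg₂ (actM · · v) (cay_l hd) (cay_r hd)

theorem Cv.trip [NumberField k] [NumberField E] {i j l : Oct a b c} (ht : Trip a' b' c' i j l)
    {Y : Module.End E (AlbL E a' b' c')} (hY : Cv ρ σ lam g Y) :
    Cv ρ σ lam g ((tripA E ht).conjAlgEquiv E Y) := by
  set C := (tripA E ht).conjAlgEquiv E with hC
  obtain ⟨Z, h2⟩ := hY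
  refine ⟨C Z, fun t h => ?_⟩
  have e1 : ∀ s : E, 1 - s • C Y + (s * s) • C Z = C (1 - s • Y + (s * s) • Z) := fun s => by
    rw [map_add, map_sub, map_one, map_smul, map_smul]
  have e2 : ∀ s : E, 1 + s • C Y + (s * s) • C Z = C (1 + s • Y + (s * s) • Z) := fun s => by
    rw [map_add, map_add, map_one, map_smul, map_smul]
  rw [e1] at h
  obtain ⟨γ, g1, g2⟩ := h2 t (by simpa using h.map C.symm)
  refine ⟨_, E6W.H964.conj_trip ht g1, ?_⟩
  rw [e1, e2, ← g2, map_mul]
  rfl

omit [NeZero (2 : E)] in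
theorem sub_top [NumberField k] [NumberField E] (hS : IsSextic ρ σ kap) (hg : IsForm ρ σ lam g)
    {U : Submodule E (Matrix (Fin 3) (Fin 3) E)} (h : ∀ x, InD0 ρ lam x → Sy σ g x → x ∈ U) :
    U = ⊤ := by
  by_contra h0
  obtain ⟨f, f0, hf⟩ := Submodule.exists_le_ker_of_lt_top U (lt_top_iff_ne_top.2 h0)
  obtain ⟨φ⟩ : Nonempty (E →+* ℂ) := inferInstance
  have e : ∀ x, f x = ∑ i, ∑ j, x i j * f (Matrix.single i j 1) := fun x => by
    conv_lhs => rw [Matrix.matrix_eq_sum_single x]
    simp only [map_sum, ← smul_eq_mul, ← map_smul, Matrix.smul_single]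
    simp only [smul_eq_mul, mul_one]
  have h1 : ∀ M : Matrix (Fin 3) (Fin 3) ℂ,
      ∑ i, ∑ j, M i j * φ (f (Matrix.single i j 1)) = 0 := fun M => by
    have hM := H974.Rl.span_sy hS hg φ M
    induction hM using Submodule.span_induction with
    | mem z hz =>
      obtain ⟨x, h1, h2, rfl⟩ := hz
      have h3 := congrArg φ ((e x).symm.trans (hf (h x h1 h2)))
      simpa only [map_sum, map_mul, map_zero, Matrix.map_apply] using h3
    | zero => simp
    | add A B _ _ hA hB => simp only [Matrix.add_apply, add_mul, Finset.sum_add_distrib, hA, hB,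
        add_zero]
    | smul t A _ hA => simp only [Matrix.smul_apply, smul_eq_mul, mul_assoc, ← Finset.mul_sum, hA,
        mul_zero]
  have h2 : ∀ i j, f (Matrix.single i j 1) = 0 := fun i j => by
    simpa [Matrix.single_apply, ite_and] using h1 (Matrix.single i j 1)
  exact f0 (LinearMap.ext fun x => by simp [e x, h2])

/-- **Generation.** -/
theorem gen [NumberField k] [NumberField E] (hS : IsSextic ρ σ kap) (hg : IsForm ρ σ lam g)
    {V : Submodule E (Module.End E (AlbL E a b c))} (h : ∀ Y, Cv ρ σ lam g Y → Y ∈ V)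
    {q : OctL E a b c} (hq : bil q 1 = 0) : H327.Star.Has V q := by
  have key : ∀ m : Fin 8, m ≠ 0 → H327.Star.Has V (D4.H24.ob m) := fun m hm => by
    obtain ⟨a', b', c', i, j, l, ht, rfl⟩ := exists_trip_ob (F := k) (a := a) (b := b) (c := c) m hm
    have hf := tripO_mul (K := E) ht
    have hj := (H706.Rl.tripO_gj (E := E) ht).trans (D4.H24.oup_ob m)
    let T : Matrix (Fin 3) (Fin 3) E →ₗ[E] Module.End E (AlbL E a b c) :=
      ((tripA E ht).conjAlgEquiv E).toLinearMap ∘ₗ ⟨⟨DD, DD_add⟩, DD_smul⟩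
    have h1 : ∀ M {P}, (∀ x, tripA E ht (DD M x) = P (tripA E ht x)) → P ∈ V := fun M P hP => by
      have h2 : M ∈ V.comap T :=
        (sub_top hS hg fun x h1 h2 => h _ ((cv_DD h1 h2).trip ht)).ge Submodule.mem_top
      rwa [show P = T M from LinearMap.ext fun x =>
        ((hP _).trans (congrArg P ((tripA E ht).apply_symm_apply x))).symm]
    rw [H327.Star.Has, ← hj, ← H327.Star.M1_eq, ← H327.Star.M2_eq, ← H327.Star.M3_eq]
    exact ⟨h1 _ fun x => by rw [DD_P1]; exact mapE_P1 hf _ x,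
      h1 _ fun x => by rw [DD_P2]; exact mapE_P2 hf _ x,
      h1 _ fun x => by rw [DD_P3]; exact mapE_P3 hf _ x,
      h1 _ fun x => by rw [DD_M1]; exact mapE_M1 hf _ x,
      h1 _ fun x => by rw [DD_M2]; exact mapE_M2 hf _ x,
      h1 _ fun x => by rw [DD_M3]; exact mapE_M3 hf _ x⟩
  have h0 : D4.H24.oc q 0 = 0 := by
    rw [bil_eq] at hq
    have h1 : 2 * q.fst.re = 0 := by simpa using hq
    exact (mul_eq_zero.1 h1).resolve_left two_ne_zero
  have hz : H327.Star.Has V 0 := by simpa using (key 1 (by decide)).lin (key 1 (by decide)) 0 0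
  rw [← D4.H24.sum_oc q]
  refine Finset.sum_induction _ _ (fun u v hu hv => by simpa using hu.lin hv 1 1) hz fun m _ => ?_
  by_cases hm : m = 0
  · rwa [hm, h0, zero_smul]
  · simpa using (key m hm).lin hz (D4.H24.oc q m) 0

end Vale.Agent.P011.E6O.Gn
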