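import Vale.Agent.P011NE.CpX
import Vale.Agent.P011NE.CpW
import Vale.Agent.P011.H261.Rl.Fin

/-!
A normal subgroup which contains the automorphisms of the octonion algebra is everything.
-/

open NormedSpace Filter Topology NumberField IsDedekindDomain

namespace Vale.Agent.P011.H261.Rl

open Vale.Agent.P011.MPQ Vale.Agent.P011.D4 Vale.Agent.P011.D4.Oct Vale.Agent.P011.E6
open Vale.Agent.P011.E6H

theorem lieOf_of_open {A : Type*} [NormedRing A] [NormedAlgebra ℝ A] [CompleteSpace A]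
    [NormOneClass A] {U V : Set A} (h1 : (1 : A) ∈ closure V)
    (hm : ∀ x ∈ closure V, ∀ y ∈ closure V, x * y ∈ closure V) {δ : ℝ} (hδ : 0 < δ)
    (h : ∀ y ∈ U, dist y 1 < δ → y ∈ V) {X : A} (hX : X ∈ lieOf (closure U)) :
    X ∈ lieOf (closure V) := by
  let _ : NormedAlgebra ℚ A := NormedAlgebra.restrictScalars ℚ ℝ _
  intro t
  have h0 : Tendsto (fun n : ℕ => exp ((n : ℝ)⁻¹ • t • X)) atTop (𝓝 (exp ((0 : ℝ) • t • X))) :=
    (exp_continuous.tendsto _).comp (tendsto_inv_atTop_nhds_zero_nat.smul_const _)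
  rw [zero_smul, exp_zero] at h0
  obtain ⟨n, hn, hn0⟩ := ((h0.eventually (Metric.ball_mem_nhds _ hδ)).and
    (eventually_gt_atTop 0)).exists
  have h3 := hX ((n : ℝ)⁻¹ * t)
  rw [← smul_smul] at h3
  rw [← exp_inv_smul_pow (t • X) hn0]
  exact pow_mem_set h1 hm (closure_mono (fun y hy => h y hy.2 hy.1)
    (Metric.isOpen_ball.inter_closure ⟨hn, h3⟩)) n

section top

variable {k E : Type} [Field k] [Field E] [Algebra k E]
variable {ρ σ : E ≃ₐ[k] E} {lam : Eˣ} {g : Fin 3 → Eˣ} {a b c : kˣ}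

theorem top_of_open {S : Type} [Fintype S] [DecidableEq S] (φ : S → E →+* ℂ)
    {N : Subgroup (G3 ρ σ lam g a b c)} {δ : ℝ} (hδ : 0 < δ)
    (hE : ∀ h : G3 ρ σ lam g a b c, (∀ v, ‖lc (φ v) h.1 - 1‖ < δ) → h ∈ N)
    (hI : ∀ v, ∀ X ∈ Ll σ g (φ v) a b c, (Pi.single v X : ∀ v : S, RE (φ v) a b c) ∈
      lieOf (Lcl φ (⊤ : Subgroup (G3 ρ σ lam g a b c))))
    (hII : ∀ v, Cn (Ll σ g (φ v) a b c) {x | ∃ f ∈ G3 ρ σ lam g a b c, x = lc (φ v) f}) :
    N = ⊤ := by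
  rw [eq_top_iff]
  intro f _
  rcases isEmpty_or_nonempty S with hS | hS
  · exact hE f fun v => hS.elim v
  have h3 : (fun v => lc (φ v) f.1 : ∀ v : S, RE (φ v) a b c) ∈ Lcl φ N := by
    refine mem_of_factors (A := fun v => RE (φ v) a b c) isClosed_closure (one_mem_Lcl φ N)
      (mul_mem_Lcl φ N) (fun v X hX => ?_) (fun v => hII v) fun v => ⟨f.1, f.2, rfl⟩
    refine lieOf_of_open (A := ∀ v : S, RE (φ v) a b c) (one_mem_Lcl φ N) (mul_mem_Lcl φ N) hδ ?_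
      (hI v X hX)
    rintro y ⟨f, -, hf⟩ hy
    refine ⟨f, hE f fun v => ?_, hf⟩
    rw [← hf v, ← dist_eq_norm]
    exact lt_of_le_of_lt (dist_le_pi_dist y 1 v) hy
  obtain ⟨B, hB, hfB⟩ : ∃ B : ℝ, 0 < B ∧ ∀ v, ‖lc (φ v) (f⁻¹).1‖ ≤ B := by
    refine ⟨1 + ∑ v, ‖lc (φ v) (f⁻¹).1‖, by positivity, fun v => ?_⟩
    have : ‖lc (φ v) (f⁻¹).1‖ ≤ ∑ v, ‖lc (φ v) (f⁻¹).1‖ :=
      Finset.single_le_sum (f := fun v => ‖lc (φ v) (f⁻¹).1‖)
        (fun v _ => norm_nonneg _) (Finset.mem_univ v)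
    linarith
  obtain ⟨y, ⟨n, hn, hy⟩, hd⟩ := Metric.mem_closure_iff.1 h3 (δ / B) (div_pos hδ hB)
  have h4 : ∀ v, ‖lc (φ v) (n * f⁻¹).1 - 1‖ < δ := by
    intro v
    have e1 : lc (φ v) (n * f⁻¹).1 - 1 =
        (lc (φ v) n.1 - lc (φ v) f.1) * lc (φ v) (f⁻¹).1 := by
      rw [lc_mul, sub_mul, ← lc_mul (φ v) f, mul_inv_cancel, lc_one]
    have e2 : ‖lc (φ v) n.1 - lc (φ v) f.1‖ < δ / B := by
      rw [← hy v, ← dist_eq_norm, dist_comm]
      exact lt_of_le_of_lt (dist_le_pi_dist (fun v => lc (φ v) f.1) y v) hd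
    rw [e1]
    calc ‖(lc (φ v) n.1 - lc (φ v) f.1) * lc (φ v) (f⁻¹).1‖
        ≤ ‖lc (φ v) n.1 - lc (φ v) f.1‖ * ‖lc (φ v) (f⁻¹).1‖ := norm_mul_le _ _
      _ ≤ ‖lc (φ v) n.1 - lc (φ v) f.1‖ * B :=
          mul_le_mul_of_nonneg_left (hfB v) (norm_nonneg _)
      _ < δ / B * B := mul_lt_mul_of_pos_right e2 hB
      _ = δ := div_mul_cancel₀ _ hB.ne'
  have h6 := N.mul_mem (N.inv_mem (hE _ h4)) hn
  have e3 : (n * f⁻¹)⁻¹ * n = f := by group
  rwa [e3] at h6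

/-- The linear maps as permutations. -/
def toG3 : E6O.GO ρ σ lam g a b c →* G3 ρ σ lam g a b c where
  toFun φ := ⟨φ.1.toEquiv, ⟨⟨fun x y => map_add φ.1 x y, fun t x => map_smul φ.1 t x, φ.2.1⟩,
    φ.2.2.2⟩, ⟨fun x y => map_add φ.1 x y, fun t x => map_smul φ.1 t x, φ.2.1⟩, φ.2.2.1⟩
  map_one' := rfl
  map_mul' _ _ := rfl

theorem toG3_bij : Function.Bijective (toG3 (ρ := ρ) (σ := σ) (lam := lam) (g := g)
    (a := a) (b := b) (c := c)) := by
  refine ⟨fun x y h => Subtype.ext (LinearEquiv.ext fun z => congrArg (fun f => f.1 z) h), ?_⟩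
  intro f
  exact ⟨⟨{ f.1 with
    map_add' := G3.add f
    map_smul' := G3.smul f }, G3.cub f, G3.ph f, G3.her f⟩, rfl⟩

variable [NumberField k] [NumberField E]

theorem top_on {S0 : (E →+* ℂ) → Prop} {N : Subgroup (E6O.GO ρ σ lam g a b c)}
    (hO : ∃ ε : ℝ, 0 < ε ∧ ∀ h : E6O.GO ρ σ lam g a b c,
      (∀ w, S0 w → ∀ x, nm w (h.1 x - x) ≤ ε * nm w x) → h ∈ N)
    (hI : Front ρ σ lam g a b c) (hE : EmbNear ρ σ lam g a b c)
    (hII : ∀ φ, S0 φ → Conn ρ σ lam g a b c φ) : N = ⊤ := by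
  classical
  let S := {v : InfinitePlace k // ∃ w : E →+* ℂ, S0 w ∧
    InfinitePlace.mk (w.comp (algebraMap k E)) = v}
  have hex : ∀ v : S, ∃ w : E →+* ℂ, S0 w ∧ InfinitePlace.mk (w.comp (algebraMap k E)) = v.1 :=
    fun v => v.2
  choose φ h0 hφ using hex
  have hφ' : ∀ v : S, ∀ x, ‖φ v (algebraMap k E x)‖ = v.1 x := by
    intro v x
    rw [← hφ v, InfinitePlace.apply]
    rfl
  obtain ⟨ε, hε, hn⟩ := hO
  obtain ⟨δ, hδ, h1⟩ := hE φ ε hε
  have h2 : N.map toG3 = ⊤ := by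
    refine top_of_open φ hδ (fun h hh => ?_) (hI φ ?_ ⊤ (by simp)) fun v => hII _ (h0 v)
    · obtain ⟨h, rfl⟩ := toG3_bij.2 h
      refine ⟨h, hn h fun w hw x => h1 _ hh w
        ⟨⟨InfinitePlace.mk (w.comp (algebraMap k E)), w, hw, rfl⟩, fun y => ?_⟩ x, rfl⟩
      rw [hφ', InfinitePlace.apply]
      rfl
    · intro v v' h
      refine Subtype.ext (InfinitePlace.ext _ _ fun x => ?_)
      rw [← hφ', ← hφ']
      exact h x
  rw [← Subgroup.comap_map_eq_self_of_injective toG3_bij.1 N, h2, Subgroup.comap_top]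

end top

end Vale.Agent.P011.H261.Rl

namespace Vale.Agent.P011.E6O

open Vale.Agent.P011.MPQ Vale.Agent.P011.Arith Vale.Agent.P011.D4 Vale.Agent.P011.D4.Oct
  Vale.Agent.P011.E6
open Vale.Agent.P011.E6H (IsSextic IsForm Bad bad_iff)
open Vale.Agent.P011.E6W.H7 (exists_good_at exists_pure_sq)
open Vale.Agent.P011.H553.Rl (division_trip' neg_of_not)
open Vale.Agent.P011.H261.Rl (top_on RealE)

variable {k E : Type} [Field k] [NumberField k] [Field E] [NumberField E] [Algebra k E]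
  {ρ σ : E ≃ₐ[k] E} {lam : Eˣ} {g : Fin 3 → Eˣ} {kap a b c : kˣ}

theorem res_of_model {a' b' c' : kˣ} {i j l : Oct a b c} (ht : Trip a' b' c' i j l)
    (h : ∀ φ ∈ GO ρ σ lam g a' b' c', φ ∈ Res_m ρ σ lam g a' b' c') :
    ∀ φ ∈ GO ρ σ lam g a b c, φ ∈ Res_m ρ σ lam g a b c := by
  intro φ hφ
  let Ψ : AlbL E a' b' c' ≃ₗ[E] AlbL E a b c := tripA E ht
  obtain ⟨φ', hφ'⟩ : ∃ φ', φ' = (Ψ.trans φ).trans Ψ.symm := ⟨_, rfl⟩
  have e : (Ψ.symm.trans φ').trans Ψ = φ := by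
    apply LinearEquiv.ext
    intro x
    rw [hφ']
    change Ψ (Ψ.symm (φ (Ψ (Ψ.symm x)))) = φ x
    rw [LinearEquiv.apply_symm_apply, LinearEquiv.apply_symm_apply]
  obtain ⟨e1, e2⟩ := trip_Res'_m (ρ := ρ) (σ := σ) (lam := lam) (γ := g) ht
    (Ψ := Ψ) (tripA_apply ht) (φ := φ')
  rw [e] at e1 e2
  exact e2.1 (h φ' (e1.2 hφ))

omit [NumberField E] in
theorem exists_kap_trip (hS : IsSextic ρ σ kap) (hC : Division a b c)
    (hE : ¬ Division (up E a) (up E b) (up E c)) :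
    ∃ (a' b' c' b1 c1 : kˣ) (i j l : Oct a b c) (i' j' l' : Oct a' b' c'),
      Trip a' b' c' i j l ∧ Trip kap b1 c1 i' j' l' := by
  obtain ⟨a', b', c', i, j, l, ht, -, h1, h2⟩ := exists_good_at hC
    (Set.finite_empty (α := HeightOneSpectrum (𝓞 k)))
  have hC' : Division a' b' c' := division_trip' ht hC
  have hd : ∀ φ : k →+* ℝ, Dfn φ a' b' c' → Dfn φ a b c := fun φ h => by
    by_contra hn
    exact absurd h.1 (not_lt.2 (h2 φ hn).le)
  obtain ⟨i', hi, hi1, hi0, hin, -⟩ := exists_pure_sq a' b' c' kap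
    (fun φ h => neg_of_not hS hE (hd φ h)) (fun φ h3 _ h5 => by
      have h6 : Dfn φ a b c := by
        by_contra hn
        exact absurd h3 (not_lt.2 (h2 φ hn).le)
      exact absurd (h1 φ h6).2.2 (not_lt.2 h5.le))
  have pure_of : ∀ w : Oct a' b' c', dot w 1 = 0 → star w = -w := by
    intro w hw
    apply star_neg_of_pure
    rw [bil_eq_dot, hw, mul_zero]
  obtain ⟨j0, hj0, hj⟩ := exists_perp ![1, i', 1, 1, 1, 1, 1]
  obtain ⟨l0, hl0, hl⟩ := exists_perp ![1, i', j0, i' * j0, 1, 1, 1]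
  have hj1 : dot j0 1 = 0 := hj 0
  have hji : dot j0 i' = 0 := hj 1
  have hl1 : dot l0 1 = 0 := hl 0
  have hli : dot l0 i' = 0 := hl 1
  have hlj : dot l0 j0 = 0 := hl 2
  have hlij : dot l0 (i' * j0) = 0 := hl 3
  obtain ⟨a1, b1, c1, ht'⟩ := exists_trip hC' hi hi0 (pure_of j0 hj1) hj0 (pure_of l0 hl1) hl0
    (by rw [dot_comm, hji]) (by rw [dot_comm, hli]) (by rw [dot_comm, hlj])
    (by rw [dot_comm, hlij])
  have ha1 : a1 = kap := by
    apply Units.ext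
    have h4 := ht'.ii
    rw [norm_eq_of_sq hi, hin, neg_neg] at h4
    exact (smul_one_inj h4).symm
  subst ha1
  exact ⟨a', b', c', b1, c1, i, j, l, i', j0, l0, ht, ht'⟩

theorem res_top (hS : IsSextic ρ σ kap) (hC : Division a b c) (hg : IsForm ρ σ lam g) :
    ∀ φ ∈ GO ρ σ lam g a b c, φ ∈ Res_m ρ σ lam g a b c := by
  have hcn : ∀ {a b c : kˣ}, Division a b c → ∀ φ : E →+* ℂ, ¬ RealE φ →
      H261.Rl.Conn ρ σ lam g a b c φ := fun hC φ hφ =>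
    H132.Rl.hcn_of_thF (fun _ _ h1 h2 h3 => H505.Rl.thmF h1 h2 h3) hS hC hg φ hφ
  have key : ∀ {a b c : kˣ}, (Res_m ρ σ lam g a b c).subgroupOf (GO ρ σ lam g a b c) = ⊤ →
      ∀ φ ∈ GO ρ σ lam g a b c, φ ∈ Res_m ρ σ lam g a b c := fun h =>
    Subgroup.subgroupOf_eq_top.1 h
  by_cases hE : Division (up E a) (up E b) (up E c)
  · obtain ⟨th, s, W⟩ := E6W.H7.exists_WH hS hE hg
    obtain ⟨t, ht, h⟩ := E6W.H7.near_div_m W
      (E6W.H196.ktop_m _ _ fun L _ _ _ => E6W.H7.tiAll_m _ L)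
      (fun W hT => E6W.H183.sixAt W hT)
    refine key (top_on (S0 := fun _ => True) ⟨t, ht, fun φ hφ => h _ φ.2 fun w => hφ w trivial⟩
      (H500.Rl.front hS hC hg) (H138.Rl.embNear hS) fun φ _ => ?_)
    by_cases hφ : RealE φ
    · exact H450.R.conn_real hS hg hE hφ
    · exact hcn hC φ hφ
  · obtain ⟨a', b', c', b1, c1, i, j, l, i', j', l', ht, ht'⟩ := exists_kap_trip hS hC hE
    have hC' := division_trip' ht' (division_trip' ht hC)
    obtain ⟨al, s, H⟩ := E6X.hyp_of hS hg hC'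
    have hal : al ≠ 0 := by
      rintro rfl
      have e : algebraMap k E kap = 0 := by rw [← H.al2]; ring
      exact kap.ne_zero ((map_eq_zero _).mp e)
    obtain ⟨ε, hε, h1⟩ := E6X.near_res_all_m H
    obtain ⟨t, h0, h2⟩ := E6X.open_of
      (N := (Res_m ρ σ lam g kap b1 c1).subgroupOf (GO ρ σ lam g kap b1 c1))
      hal ⟨ε, hε, fun h hn => Subgroup.mem_subgroupOf.2 (h1 h.1 h.2 hn)⟩
    refine res_of_model ht (res_of_model ht' (key (top_on (S0 := Bad σ b1 c1 g)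
      ⟨t, h0, fun φ hφ => h2 φ fun w hw => hφ w (bad_iff.mpr hw)⟩
      (H500.Rl.front hS hC' hg) (H138.Rl.embNear hS) fun φ hφ => hcn hC' φ fun hr => ?_)))
    have h1 : ∀ x, φ (σ x) = φ x := fun x => by rw [hφ.1 x, hr x]
    obtain ⟨x, hx, -, hs⟩ := hS.sq
    have h2 := h1 x
    rw [hs, map_neg, neg_eq_self, map_eq_zero] at h2
    rw [h2] at hx
    have h3 : algebraMap k E (kap : k) = 0 := by rw [← hx]; ring
    exact kap.ne_zero ((map_eq_zero _).1 h3)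

/-- **A normal subgroup which contains the automorphisms is everything.** -/
theorem g2_top (hH : NE.HypE) (hS : IsSextic ρ σ kap) (hC : Division a b c)
    (hg : IsForm ρ σ lam g) (N : Subgroup (GO ρ σ lam g a b c)) (hN : N.Normal)
    (h : ∀ f, autO ρ σ lam g a b c f ∈ N) : N = ⊤ := by
  rw [eq_top_iff]
  intro φ _
  refine (mem_Res_m φ.2).1 (res_top hS hC hg _ φ.2) N ⟨hH, hN, fun ψ hψ => ?_⟩
  obtain ⟨f, rfl⟩ := isAu_iff.1 hψ
  exact h f

end Vale.Agent.P011.E6O
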