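import Vale.Agent.P011.H327.Star.Main

/-!
The Lie algebra of the cubic norm is simple, and its centraliser consists of the scalars.
-/

open Vale.Agent.P011.MPQ Vale.Agent.P011.D4 Vale.Agent.P011.D4.Oct

namespace Vale.Agent.P011.H327.Star

open Vale.Agent.P011.E6 Vale.Agent.P011.E6.Alb

variable {F : Type} [Field F] {a b c : Fˣ}

theorem comp_mem {M ι : Type} [AddCommGroup M] [Module F M] [DecidableEq ι] {I : Submodule F M}
    {φ : M →ₗ[F] M} (hφ : ∀ x ∈ I, φ x ∈ I) {l : ι → F} (hl : Function.Injective l)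
    (s : Finset ι) : ∀ v : ι → M, (∀ i, φ (v i) = l i • v i) → ∑ i ∈ s, v i ∈ I →
      ∀ i ∈ s, v i ∈ I := by
  induction s using Finset.induction_on with
  | empty => simp
  | insert j s hj ih =>
    intro v hv h
    have h1 : ∀ i ∈ s, v i ∈ I := fun i hi => by
      have h2 := I.sub_mem (hφ _ h) (I.smul_mem (l j) h)
      rw [map_sum, Finset.smul_sum, ← Finset.sum_sub_distrib, Finset.sum_insert hj, hv, sub_self,
        zero_add] at h2
      have h3 := ih (fun i => φ (v i) - l j • v i) (fun i => by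
        rw [map_sub, map_smul, hv, map_smul, hv, smul_sub, smul_comm (l j)]) h2 i hi
      rw [hv, ← sub_smul] at h3
      exact (I.smul_mem_iff (sub_ne_zero.2 fun e => hj ((hl e : i = j) ▸ hi))).1 h3
    intro i hi
    rcases Finset.mem_insert.1 hi with rfl | hi
    · rw [Finset.sum_insert hj] at h
      exact (I.add_mem_iff_left (I.sum_mem h1)).1 h
    · exact h1 i hi

theorem one_mem_ideal [NeZero (2 : F)] {S : Submodule F (Oct a b c)}
    (h1 : ∀ u ∈ S, ∀ v, u * v ∈ S) (h2 : ∀ u ∈ S, ∀ v, v * u ∈ S) {u : Oct a b c} (hu : u ∈ S)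
    (h0 : u ≠ 0) : (1 : Oct a b c) ∈ S := by
  have h3 : ∀ v, bil u v • (1 : Oct a b c) - bil u 1 • v ∈ S := fun v => by
    have e : bil u v • (1 : Oct a b c) - bil u 1 • v = u * star v - v * u := by
      rw [← mul_star_add, star_eq u, mul_sub, mul_smul_oct, mul_one]
      abel
    rw [e]
    exact S.sub_mem (h1 _ hu _) (h2 _ hu _)
  by_cases ht : bil u 1 = 0
  · obtain ⟨v, hv⟩ : ∃ v, bil u v ≠ 0 := not_forall.1 fun h => h0 (eq_zero_of_bil h)
    have h4 := h3 v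
    rwa [ht, zero_smul, sub_zero, S.smul_mem_iff hv] at h4
  · have h4 := h1 _ (S.sub_mem (h2 _ (h3 gi) gj) (h1 _ (h3 gi) gj)) (gi * gj)
    have e : (gj * (bil u gi • (1 : Oct a b c) - bil u 1 • gi) -
        (bil u gi • (1 : Oct a b c) - bil u 1 • gi) * gj) * (gi * gj) =
          (-(2 * bil u 1 * a * b)) • (1 : Oct a b c) := by
      apply ext8 <;> simp [gi, gj]
      ring
    rw [e] at h4
    exact (S.smul_mem_iff (by simp [ht, NeZero.ne (2 : F)])).1 h4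

theorem end_ext {X Y : Module.End F (Alb a b c)} (h1 : X e1 = Y e1) (h2 : X e2 = Y e2)
    (h3 : X e3 = Y e3) (k1 : ∀ w, X (o1 w) = Y (o1 w)) (k2 : ∀ w, X (o2 w) = Y (o2 w))
    (k3 : ∀ w, X (o3 w) = Y (o3 w)) : X = Y := by
  refine LinearMap.ext fun x => ?_
  have e : x = x.d1 • e1 + x.d2 • e2 + x.d3 • e3 + o1 x.x1 + o2 x.x2 + o3 x.x3 := by
    ext1 <;> simp [Alb.e1, Alb.e2, Alb.e3, o1, o2, o3]
  rw [e]
  simp only [map_add, map_smul, h1, h2, h3, k1, k2, k3]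

/-- The diagonal derivations. -/
def Hd (r s t : F) : Module.End F (Alb a b c) where
  toFun x := ⟨2 * r * x.d1, 2 * s * x.d2, 2 * t * x.d3, (s + t) • x.x1, (t + r) • x.x2,
    (r + s) • x.x3⟩
  map_add' x y := by ext1 <;> simp [mul_add]
  map_smul' t x := by ext1 <;> simp [mul_left_comm t, smul_comm t]

theorem Hd_apply (r s t : F) (x : Alb a b c) : Hd r s t x = ⟨2 * r * x.d1, 2 * s * x.d2,
  2 * t * x.d3, (s + t) • x.x1, (t + r) • x.x2, (r + s) • x.x3⟩ := rfl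

theorem dr_Hd {r s t : F} (h : r + s + t = 0) : Dr (Hd r s t : Module.End F (Alb a b c)) := by
  intro x
  simp only [Hd_apply, tf, adj, bil_sub_left, bil_smul_left, bil_smul_right, bil_self]
  rw [tri1, tri2, tri3]
  linear_combination (2 * cub x - 2 * bil (x.x1 * x.x2 * x.x3) 1 +
    2 * bil (x.x1 * x.x2 * x.x3) 1) * h - 2 * (r + s + t) * (cub.eq_1 x)

theorem Hd_comm (r s t r' s' t' : F) : (Hd r s t * Hd r' s' t' : Module.End F (Alb a b c)) =
    Hd r' s' t' * Hd r s t := by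
  refine LinearMap.ext fun x => ?_
  apply Alb.ext <;> simp only [Module.End.mul_apply, Hd_apply] <;>
    first | ring1 | exact smul_comm _ _ _

/-- The root operators. -/
def Rt : Fin 6 → Oct a b c → Module.End F (Alb a b c) := ![P1, P2, P3, M1, M2, M3]

theorem dr_Rt (i : Fin 6) (u : Oct a b c) : Dr (Rt i u) := by
  fin_cases i
  exacts [dr_P1 u, dr_P2 u, dr_P3 u, dr_M1 u, dr_M2 u, dr_M3 u]

theorem has_iff {V : Submodule F (Module.End F (Alb a b c))} {u : Oct a b c} :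
    Has V u ↔ ∀ i, Rt i u ∈ V := by
  simp only [Has, Fin.forall_fin_succ, IsEmpty.forall_iff, and_true]
  rfl

theorem H_Rt (i : Fin 6) (u : Oct a b c) : Hd 4 1 (-5) * Rt i u - Rt i u * Hd 4 1 (-5) =
    (![6, -9, 3, -6, 9, -3] i : F) • Rt i u := by
  refine LinearMap.ext fun x => ?_
  rw [LinearMap.sub_apply, Module.End.mul_apply, Module.End.mul_apply, LinearMap.smul_apply]
  fin_cases i <;> apply Alb.ext <;>
    simp [Rt, Hd_apply, P1_apply, P2_apply, P3_apply, M1_apply, M2_apply, M3_apply, bil_smul_right,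
      mul_smul_oct, star_smul_oct] <;>
    first | ring1 | module

variable [CharZero F]

theorem decomp {X : Module.End F (Alb a b c)} (hX : Dr X) : ∃ u : Fin 6 → Oct a b c,
    Hd 4 1 (-5) * (X - ∑ i, Rt i (u i)) = (X - ∑ i, Rt i (u i)) * Hd 4 1 (-5) := by
  obtain ⟨p1, p2, p3⟩ := hX.at1
  obtain ⟨q1, q2, q3⟩ := hX.at2
  obtain ⟨r1, r2, r3⟩ := hX.at3
  have e1' : (P3 1 * M3 1 - M3 1 * P3 1 : Module.End F (Alb a b c)) = Hd 1 (-1) 0 :=
    LinearMap.ext fun x => by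
      rw [brk_P3_M3, Hd_apply]
      ext1 <;> simp [bil_one_one]
  have e2' : (P1 1 * M1 1 - M1 1 * P1 1 : Module.End F (Alb a b c)) = Hd 0 1 (-1) :=
    LinearMap.ext fun x => by
      rw [brk_P1_M1, Hd_apply]
      ext1 <;> simp [bil_one_one]
  let u : Fin 6 → Oct a b c := ![(X e3).x1, (X e1).x2, (X e2).x3, star (X e2).x1,
    star (X e3).x2, star (X e1).x3]
  have hA : Rd (X e1) (X e2) (X e3) = ∑ i, Rt i (u i) + ((X e1).d1 / 2) • Hd 1 (-1) 0 -
      ((X e3).d3 / 2) • Hd 0 1 (-1) := by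
    rw [Rd, e1', e2', Fin.sum_univ_six]
    simp only [Rt, u, Matrix.cons_val]
    abel
  have hD : Dr (X - Rd (X e1) (X e2) (X e3)) := by
    rw [hA]
    exact hX.sub (((dr_sum _ fun i _ => dr_Rt i _).add ((dr_Hd (by ring)).smul _)).sub
      ((dr_Hd (by ring)).smul _))
  have hK : Kl (X - Rd (X e1) (X e2) (X e3)) := by
    refine ⟨?_, ?_, ?_⟩ <;> rw [LinearMap.sub_apply]
    · rw [Rd_e1 _ _ _ p1 p2 p3, sub_self]
    · rw [Rd_e2 _ _ _ q1 q2 q3 hX.sum, sub_self]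
    · rw [Rd_e3 _ _ _ r1 r2 r3, sub_self]
  have e : X - ∑ i, Rt i (u i) = X - Rd (X e1) (X e2) (X e3) + ((X e1).d1 / 2) • Hd 1 (-1) 0 -
      ((X e3).d3 / 2) • Hd 0 1 (-1) := by
    rw [hA]
    abel
  generalize X - Rd (X e1) (X e2) (X e3) = K at hD hK e
  have hc : Hd 4 1 (-5) * K = K * Hd 4 1 (-5) := by
    have k : ∀ (x : Alb a b c) (t : F), Hd 4 1 (-5) x = t • x → Hd 4 1 (-5) (K x) = t • K x →
        Hd 4 1 (-5) (K x) = K (Hd 4 1 (-5) x) := fun x t h1 h2 => by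
      rw [h1, h2, map_smul]
    have k1 : ∀ w : Oct a b c, Hd (4 : F) 1 (-5) (o1 w) = (1 + -5 : F) • o1 w := fun w => by
      ext1 <;> simp [Hd_apply, o1]
    have k2 : ∀ w : Oct a b c, Hd (4 : F) 1 (-5) (o2 w) = (-5 + 4 : F) • o2 w := fun w => by
      ext1 <;> simp [Hd_apply, o2]
    have k3 : ∀ w : Oct a b c, Hd (4 : F) 1 (-5) (o3 w) = (4 + 1 : F) • o3 w := fun w => by
      ext1 <;> simp [Hd_apply, o3]
    refine end_ext (k _ (2 * 4) ?_ ?_) (k _ (2 * 1) ?_ ?_) (k _ (2 * -5) ?_ ?_)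
      (fun w => k _ _ (k1 w) (by rw [hD.on1 hK, k1])) (fun w => k _ _ (k2 w) (by
        rw [hD.on2 hK, k2])) fun w => k _ _ (k3 w) (by rw [hD.on3 hK, k3])
    · ext1 <;> simp [Hd_apply, Alb.e1]
    · rw [hK.1, map_zero, smul_zero]
    · ext1 <;> simp [Hd_apply, Alb.e2]
    · rw [hK.2.1, map_zero, smul_zero]
    · ext1 <;> simp [Hd_apply, Alb.e3]
    · rw [hK.2.2, map_zero, smul_zero]
  refine ⟨u, ?_⟩
  rw [e]
  simp only [mul_sub, sub_mul, mul_add, add_mul, mul_smul_comm, smul_mul_assoc, hc,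
    Hd_comm (4 : F)]

/-- **The centraliser.** -/
theorem scalar_of_comm {m : Module.End F (Alb a b c)} (h : ∀ X, Dr X → m * X = X * m) :
    ∃ t : F, m = t • 1 := by
  have h1 : ∀ X, Dr X → ∀ x, m (X x) = X (m x) := fun X hX x => LinearMap.congr_fun (h X hX) x
  have h2 := h1 _ (dr_Hd (r := 4) (s := 1) (t := -5) (by ring)) e1
  have e : Hd (4 : F) 1 (-5) (e1 : Alb a b c) = (8 : F) • e1 := by
    ext1 <;> simp [Hd_apply, Alb.e1]
    ring
  rw [e, map_smul, Hd_apply] at h2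
  have k : ∀ {s t : F} {w : Oct a b c}, s • w = t • w → s ≠ t → w = 0 := fun {s t w} e hst => by
    rw [← sub_eq_zero, ← sub_smul] at e
    exact (smul_eq_zero.1 e).resolve_left (sub_ne_zero.2 hst)
  have h3 : m e1 = (m e1).d1 • e1 := by
    have a2 := congrArg d2 h2
    have a3 := congrArg d3 h2
    simp only [d2_smul, d3_smul] at a2 a3
    generalize m e1 = y at h2 a2 a3
    refine Alb.ext (by simp [Alb.e1]) ?_ ?_ ?_ ?_ ?_ <;> simp only [Alb.e1, d2_smul, d3_smul,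
      x1_smul, x2_smul, x3_smul, mul_zero, smul_zero]
    · linear_combination (1 / 6 : F) * a2
    · linear_combination (1 / 18 : F) * a3
    · exact k (congrArg x1 h2) (by norm_num)
    · exact k (congrArg x2 h2) (by norm_num)
    · exact k (congrArg x3 h2) (by norm_num)
  generalize (m e1).d1 = t at h3
  have h4 : ∀ X, Dr X → ∀ x y, X x = y → m x = t • x → m y = t • y := by
    rintro X hX x _ rfl hx
    rw [h1 X hX, hx, map_smul]
  have k2 : ∀ w, m (o2 w) = t • o2 w := fun w =>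
    h4 _ (dr_P2 w) e1 _ (by ext1 <;> simp [P2_apply, Alb.e1, o2]) h3
  have k3 : ∀ w, m (o3 w) = t • o3 w := fun w =>
    h4 _ (dr_M3 (star w)) e1 _ (by ext1 <;> simp [M3_apply, Alb.e1, o3]) h3
  have k1 : ∀ w, m (o1 w) = t • o1 w := fun w =>
    h4 _ (dr_P2 (star w)) (o3 1) (o1 w) (by ext1 <;> simp [P2_apply, o1, o3]) (k3 1)
  refine ⟨t, end_ext h3 ?_ ?_ k1 k2 k3⟩
  · exact h4 _ ((dr_P1 1).smul (1 / 2)) (o1 1) _ (by
      ext1 <;> simp [P1_apply, Alb.e2, o1, bil_one_one]) (k1 1)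
  · exact h4 _ ((dr_P2 1).smul (1 / 2)) (o2 1) _ (by
      ext1 <;> simp [P2_apply, Alb.e3, o2, bil_one_one]) (k2 1)

/-- The derivations which normalise a subspace. -/
theorem norm_of_pure {I : Submodule F (Module.End F (Alb a b c))}
    (h : ∀ X ∈ I, ∀ i q, bil q 1 = 0 → Rt i q * X - X * Rt i q ∈ I) {Y : Module.End F (Alb a b c)}
    (hY : Dr Y) : ∀ X ∈ I, Y * X - X * Y ∈ I := by
  let V : Submodule F (Module.End F (Alb a b c)) :=
    { carrier := {Y | ∀ X ∈ I, Y * X - X * Y ∈ I}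
      add_mem' := fun {Y Z} h1 h2 X hX => by
        convert I.add_mem (h1 X hX) (h2 X hX) using 1
        noncomm_ring
      zero_mem' := fun X _ => by simp
      smul_mem' := fun t Y h1 X hX => by
        rw [smul_mul_assoc, mul_smul_comm, ← smul_sub]
        exact I.smul_mem _ (h1 X hX) }
  refine star_main (V := V) (fun Y h1 Z h2 X hX => ?_)
    (fun q hq => has_iff.2 fun i X hX => h X hX i q hq) hY
  convert I.sub_mem (h1 _ (h2 X hX)) (h2 _ (h1 X hX)) using 1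
  noncomm_ring

/-- The centre is trivial. -/
theorem zero_of_comm {X : Module.End F (Alb a b c)} (hX : Dr X)
    (h : ∀ i q, bil q 1 = 0 → Rt i q * X = X * Rt i q) : X = 0 := by
  have h1 : ∀ Y, Dr Y → X * Y = Y * X := fun Y hY => by
    let V : Submodule F (Module.End F (Alb a b c)) :=
      LinearMap.ker (LinearMap.mulLeft F X - LinearMap.mulRight F X)
    have hV : ∀ Y, Y ∈ V ↔ X * Y = Y * X := fun Y => sub_eq_zero
    refine (hV Y).1 (star_main (V := V) (fun Y h1 Z h2 => ?_)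
      (fun q hq => has_iff.2 fun i => (hV _).2 (h i q hq).symm) hY)
    rw [hV] at h1 h2 ⊢
    exact ((Commute.mul_right h1 h2).sub_right (Commute.mul_right h2 h1)).eq
  obtain ⟨t, rfl⟩ := scalar_of_comm h1
  have h2 := hX ⟨1, 1, 1, 0, 0, 0⟩
  rw [LinearMap.smul_apply, tf_smul_right, Module.End.one_apply, tf_adj_self] at h2
  have h3 : t = 0 := by simpa [cub] using h2
  rw [h3, zero_smul]

/-- **Simplicity.** -/
theorem dr_simple {I : Submodule F (Module.End F (Alb a b c))} (h1 : ∀ X ∈ I, Dr X)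
    (h2 : ∀ X ∈ I, ∀ i q, bil q 1 = 0 → Rt i q * X - X * Rt i q ∈ I)
    {X0 : Module.End F (Alb a b c)} (h3 : X0 ∈ I) (h0 : X0 ≠ 0) : ∀ X, Dr X → X ∈ I := by
  have hb : ∀ Y, Dr Y → ∀ X ∈ I, Y * X - X * Y ∈ I := fun Y hY => norm_of_pure h2 hY
  have hb' : ∀ X ∈ I, ∀ Y, Dr Y → X * Y - Y * X ∈ I := fun X hX Y hY => by
    rw [← neg_sub]
    exact I.neg_mem (hb Y hY X hX)
  have hH : Dr (Hd 4 1 (-5) : Module.End F (Alb a b c)) := dr_Hd (by ring)
  obtain ⟨i, u, hu, hu0⟩ : ∃ i u, Rt i u ∈ I ∧ Rt i u ≠ 0 := by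
    by_contra hn
    push Not at hn
    have h4 : ∀ X ∈ I, Hd 4 1 (-5) * X = X * Hd 4 1 (-5) := fun X hX => by
      obtain ⟨u, hu⟩ := decomp (h1 X hX)
      have h5 := comp_mem (I := I) (φ := LinearMap.mulLeft F (Hd 4 1 (-5)) -
        LinearMap.mulRight F (Hd 4 1 (-5))) (hb _ hH)
        (l := fun o : Option (Fin 6) => o.elim 0 ![6, -9, 3, -6, 9, -3]) (by
          rintro (_ | i) (_ | j) <;> (try fin_cases i) <;> (try fin_cases j) <;> norm_num)
        Finset.univ (fun o => o.elim (X - ∑ i, Rt i (u i)) fun i => Rt i (u i)) (by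
          rintro (_ | i)
          · exact (sub_eq_zero.2 hu).trans (zero_smul _ _).symm
          · exact H_Rt i _) (by simpa [Fintype.sum_option] using hX)
      rwa [Finset.sum_eq_zero fun i _ => hn i _ (h5 (some i) (Finset.mem_univ _)), sub_zero] at hu
    refine h0 (zero_of_comm (h1 _ h3) fun i q _ => ?_)
    have h5 := h4 _ (hb _ (dr_Rt i q) _ h3)
    have h6 : (![6, -9, 3, -6, 9, -3] i : F) • (Rt i q * X0 - X0 * Rt i q) = 0 := by
      rw [smul_sub, ← smul_mul_assoc, ← mul_smul_comm, ← H_Rt]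
      have h7 := h4 _ h3
      linear_combination (norm := noncomm_ring) h5 - Rt i q * h7 + h7 * Rt i q
    exact sub_eq_zero.1 ((smul_eq_zero.1 h6).resolve_left (by fin_cases i <;> norm_num))
  have a1 : ∀ u, P1 u ∈ I → ∀ v, M3 (u * v) ∈ I ∧ M2 (v * u) ∈ I := fun u h v =>
    ⟨brk_P1_P2 u v ▸ hb' _ h _ (dr_P2 v), brk_P3_P1 v u ▸ hb _ (dr_P3 v) _ h⟩
  have a2 : ∀ u, P2 u ∈ I → ∀ v, M1 (u * v) ∈ I ∧ M3 (v * u) ∈ I := fun u h v =>
    ⟨brk_P2_P3 u v ▸ hb' _ h _ (dr_P3 v), brk_P1_P2 v u ▸ hb _ (dr_P1 v) _ h⟩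
  have a3 : ∀ u, P3 u ∈ I → ∀ v, M2 (u * v) ∈ I ∧ M1 (v * u) ∈ I := fun u h v =>
    ⟨brk_P3_P1 u v ▸ hb' _ h _ (dr_P1 v), brk_P2_P3 v u ▸ hb _ (dr_P2 v) _ h⟩
  have b1 : ∀ u, M1 u ∈ I → P2 u ∈ I ∧ P3 u ∈ I := fun u h =>
    ⟨mul_one u ▸ brk_M1_M3 u 1 ▸ hb' _ h _ (dr_M3 1), one_mul u ▸ brk_M2_M1 1 u ▸ hb _ (dr_M2 1) _ h⟩
  have b2 : ∀ u, M2 u ∈ I → P3 u ∈ I ∧ P1 u ∈ I := fun u h =>
    ⟨mul_one u ▸ brk_M2_M1 u 1 ▸ hb' _ h _ (dr_M1 1), one_mul u ▸ brk_M3_M2 1 u ▸ hb _ (dr_M3 1) _ h⟩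
  have b3 : ∀ u, M3 u ∈ I → P1 u ∈ I ∧ P2 u ∈ I := fun u h =>
    ⟨mul_one u ▸ brk_M3_M2 u 1 ▸ hb' _ h _ (dr_M2 1), one_mul u ▸ brk_M1_M3 1 u ▸ hb _ (dr_M1 1) _ h⟩
  have c1 : ∀ u, P1 u ∈ I → Has I u := fun u h => by
    obtain ⟨k1, k2⟩ := a1 u h 1
    rw [mul_one] at k1
    rw [one_mul] at k2
    exact ⟨h, (b3 u k1).2, (b2 u k2).1, mul_one u ▸ (a2 u (b3 u k1).2 1).1, k2, k1⟩
  have c2 : P1 u ∈ I := by
    fin_cases i
    · exact hu
    · exact (b3 u (one_mul u ▸ (a2 u hu 1).2)).1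
    · exact (b2 u (mul_one u ▸ (a3 u hu 1).1)).2
    · exact (b3 u (one_mul u ▸ (a2 u (b1 u hu).1 1).2)).1
    · exact (b2 u hu).2
    · exact (b3 u hu).1
  let S : Submodule F (Oct a b c) :=
    { carrier := {u | P1 u ∈ I}
      add_mem' := fun {u v} hu hv => by
        simpa using ((c1 u hu).lin (c1 v hv) 1 1).1
      zero_mem' := by simpa using ((c1 u c2).lin (c1 u c2) 0 0).1
      smul_mem' := fun t u hu => by simpa using ((c1 u hu).lin (c1 u hu) t 0).1 }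
  have c3 : ∀ u ∈ S, ∀ v, u * v ∈ S := fun u h v => (b3 _ (a1 u h v).1).1
  have c4 : (1 : Oct a b c) ∈ S := one_mem_ideal c3 (fun u h v => (b2 _ (a1 u h v).2).2) c2 (by
    rintro rfl
    refine hu0 (LinearMap.ext fun x => ?_)
    fin_cases i <;> ext1 <;>
      simp [Rt, P1_apply, P2_apply, P3_apply, M1_apply, M2_apply, M3_apply])
  exact fun X hX => star_main (fun X hX Y hY => hb' X hX Y (h1 Y hY))
    (fun q _ => c1 q (one_mul q ▸ c3 1 c4 q)) hX

end Vale.Agent.P011.H327.Star
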