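import Vale.Agent.P011NE.Cur
import Vale.Agent.P011NE.Simp
import Vale.Agent.P011NE.Ani
import Vale.Agent.P011.E6X.Orth
import Vale.Agent.P011.H138.Rl.RC

/-!
The Lie algebra of the outer groups of type `E₆` is irreducible under the directions of the
rational curves.
-/

namespace Vale.Agent.P011.E6O.Gn

open Vale.Agent.P011.MPQ Vale.Agent.P011.D4 Vale.Agent.P011.D4.Oct Vale.Agent.P011.E6
open Vale.Agent.P011.E6.Alb
open Vale.Agent.P011.E6H (IsSextic IsForm)
open Vale.Agent.P011.H327.Star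
open Vale.Agent.P011.E6X.H493 (her_add_left her_add_right her_smul_left her_smul_right)

variable {k E : Type} [Field k] [Field E] [Algebra k E] {ρ σ : E ≃ₐ[k] E} {lam : Eˣ}
  {g : Fin 3 → Eˣ} {kap a b c : kˣ}

variable (ρ σ lam g) in
/-- The Lie algebra of the group. -/
def Li (f : Module.End E (AlbL E a b c)) : Prop :=
  Dr f ∧ (∀ x, f (ph ρ lam x) = ph ρ lam (f x)) ∧ ∀ x y, her σ g (f x) y + her σ g x (f y) = 0

variable (ρ σ lam g) in
/-- The directions of rational curves. -/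
def Good (Y : Module.End E (AlbL E a b c)) : Prop := Li ρ σ lam g Y ∧ Cv ρ σ lam g Y

theorem her_ext [NeZero (2 : E)] (hσ : ∀ t, σ (σ t) = t) {x y : AlbL E a b c}
    (h : ∀ z, her σ g x z = her σ g y z) : x = y :=
  H408.wt_inj (g := g) (eq_of_tf fun z => by
    have := h (amap σ z)
    rwa [her, her, amap_amap σ hσ] at this)

theorem ph_surj (hρ3 : ∀ t, ρ (ρ (ρ t)) = t) (hl : ρ lam = lam) :
    Function.Surjective (ph ρ lam : AlbL E a b c → AlbL E a b c) := fun x =>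
  ⟨ph ρ lam (ph ρ lam ((lam : E)⁻¹ • x)), by
    rw [Ani.ph3 hρ3 hl, smul_smul, mul_inv_cancel₀ lam.ne_zero, one_smul]⟩

variable {X Y : Module.End E (AlbL E a b c)}

theorem Li.add (hX : Li ρ σ lam g X) (hY : Li ρ σ lam g Y) : Li ρ σ lam g (X + Y) := by
  refine ⟨hX.1.add hY.1, fun x => ?_, fun x y => ?_⟩
  · rw [LinearMap.add_apply, LinearMap.add_apply, hX.2.1, hY.2.1, ph_add]
  · rw [LinearMap.add_apply, LinearMap.add_apply, her_add_left, her_add_right]
    linear_combination hX.2.2 x y + hY.2.2 x y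

theorem Li.smul (hX : Li ρ σ lam g X) (t : k) : Li ρ σ lam g (algebraMap k E t • X) := by
  refine ⟨hX.1.smul _, fun x => ?_, fun x y => ?_⟩
  · rw [LinearMap.smul_apply, LinearMap.smul_apply, hX.2.1, ph_smul, AlgEquiv.commutes]
  · rw [LinearMap.smul_apply, LinearMap.smul_apply, her_smul_left, her_smul_right,
      AlgEquiv.commutes, ← mul_add, hX.2.2, mul_zero]

theorem Li.neg (hX : Li ρ σ lam g X) : Li ρ σ lam g (-X) := by
  simpa using hX.smul (-1)

theorem Li.zero (hX : Li ρ σ lam g X) : Li ρ σ lam g (0 : Module.End E (AlbL E a b c)) := by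
  simpa using hX.smul 0

theorem Li.br [NeZero (2 : E)] (hX : Li ρ σ lam g X) (hY : Li ρ σ lam g Y) :
    Li ρ σ lam g (X * Y - Y * X) := by
  have e : ∀ x, (X * Y - Y * X) x = X (Y x) + (-1 : E) • Y (X x) := fun x => by
    rw [neg_one_smul, ← sub_eq_add_neg]
    rfl
  refine ⟨hX.1.brk hY.1, fun x => ?_, fun x y => ?_⟩
  · simp only [e, hX.2.1, hY.2.1, ph_add, ph_smul, map_neg, map_one]
  · simp only [e, her_add_left, her_add_right, her_smul_left, her_smul_right, map_neg, map_one]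
    linear_combination hX.2.2 (Y x) y - hY.2.2 (X x) y + hX.2.2 x (Y y) - hY.2.2 x (X y)

theorem Good.smul (hY : Good ρ σ lam g Y) (s : k) : Good ρ σ lam g (algebraMap k E s • Y) :=
  ⟨hY.1.smul s, hY.2.smul s⟩

variable [NumberField k] [NumberField E]

theorem Cv.odd (hY : Cv ρ σ lam g Y) : ∃ Z : Module.End E (AlbL E a b c), ∀ c0 c1 c2 : E,
    (∀ t : k, ∀ γ ∈ GO ρ σ lam g a b c, (∀ v, γ (v + algebraMap k E (-t) • Y v +
      algebraMap k E (t * t) • Z v) = v + algebraMap k E t • Y v + algebraMap k E (t * t) • Z v) →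
      algebraMap k E t * c0 + algebraMap k E t ^ 3 * c1 + algebraMap k E t ^ 5 * c2 = 0) →
    c0 = 0 := by
  obtain ⟨Z, hZ⟩ := hY
  refine ⟨Z, fun c0 c1 c2 h => odd_zero (k := k) Y Z (c1 := c1) (c2 := c2) fun t ht => ?_⟩
  obtain ⟨γ, h1, h2⟩ := hZ t ht
  refine h t γ h1 fun v => ?_
  rw [map_neg, neg_smul, ← sub_eq_add_neg, map_mul]
  exact LinearMap.congr_fun h2 v

theorem Cv.skew (hY : Cv ρ σ lam g Y) {u : AlbL E a b c → AlbL E a b c}
    (u1 : ∀ x y, u (x + y) = u x + u y)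
    (u2 : ∀ (t : k) x, u (algebraMap k E t • x) = algebraMap k E t • u x)
    (u3 : ∀ γ ∈ GO ρ σ lam g a b c, ∀ x, γ (u x) = u (γ x)) (x y : AlbL E a b c) :
    her σ g (u (Y x)) y + her σ g (u x) (Y y) = 0 := by
  obtain ⟨Z, hZ⟩ := hY.odd
  refine hZ _ (her σ g (u (Y x)) (Z y) + her σ g (u (Z x)) (Y y)) 0 fun t γ h1 h2 => ?_
  have h3 := h1.2.2 (u (x + algebraMap k E (-t) • Y x + algebraMap k E (t * t) • Z x))
    (y + algebraMap k E (-t) • Y y + algebraMap k E (t * t) • Z y)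
  rw [u3 γ h1, h2, h2] at h3
  simp only [u1, u2, her_add_left, her_add_right, her_smul_left, her_smul_right,
    AlgEquiv.commutes] at h3
  rw [map_neg, map_mul] at h3
  linear_combination h3 / 2

theorem Cv.good (hS : IsSextic ρ σ kap) (hY : Cv ρ σ lam g Y) : Good ρ σ lam g Y := by
  have h1 := hY.skew (u := fun x => x) (fun _ _ => rfl) (fun _ _ => rfl) fun _ _ _ => rfl
  have h2 := hY.skew (u := ph ρ lam) ph_add (fun t x => by rw [ph_smul, AlgEquiv.commutes])
    fun γ h => h.2.1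
  refine ⟨⟨fun x => ?_, fun x => her_ext (g := g) hS.σ2 fun z => ?_, h1⟩, hY⟩
  · obtain ⟨Z, hZ⟩ := hY.odd
    refine hZ _ (tf x (cross (Y x) (Z x)) + cub (Y x)) (tf (Y x) (adj (Z x))) fun t γ h3 h4 => ?_
    have h5 := h3.1 (x + algebraMap k E (-t) • Y x + algebraMap k E (t * t) • Z x)
    rw [h4, add_assoc, add_assoc] at h5
    simp only [cub_add, adj_add, cub_smul, adj_smul, cross_smul_left, cross_smul_right,
      tf_add_right, tf_smul_left, tf_smul_right, map_neg, map_mul] at h5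
    linear_combination h5 / 2
  · linear_combination h1 (ph ρ lam x) z - h2 x z

theorem fix (hS : IsSextic ρ σ kap) {x : E} (h1 : ρ x = x) (h2 : σ x = x) :
    ∃ t, algebraMap k E t = x := by
  have hf : FiniteDimensional k E := Module.finite_of_finrank_pos (by rw [hS.h6]; norm_num)
  have hG : IsGalois k E := IsGalois.of_card_aut_eq_finrank k E (by
    rw [(H138.Rl.closure_eq_top hS).2, hS.h6])
  refine (IsGalois.mem_range_algebraMap_iff_fixed x).2 fun τ => ?_
  have h3 : Subgroup.closure {ρ, σ} ≤ MulAction.stabilizer (E ≃ₐ[k] E) x :=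
    (Subgroup.closure_le _).2 (by rintro _ (rfl | rfl) <;> assumption)
  exact h3 ((H138.Rl.closure_eq_top hS).1.ge (Subgroup.mem_top τ))

theorem descent (hS : IsSextic ρ σ kap) (hg : IsForm ρ σ lam g)
    {W : AddSubgroup (Module.End E (AlbL E a b c))} (hW : ∀ w ∈ W, Li ρ σ lam g w)
    (hk : ∀ t : k, ∀ w ∈ W, algebraMap k E t • w ∈ W)
    (hX : X ∈ Submodule.span E (W : Set _)) (hL : Li ρ σ lam g X) : X ∈ W := by
  obtain ⟨n, f, w, hf⟩ := Submodule.mem_span_set'.1 hX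
  let T : (Fin n → E) →ₗ[E] Module.End E (AlbL E a b c) :=
    Fintype.linearCombination E fun i => (w i).1
  have hT : ∀ f, T f = ∑ i, f i • (w i).1 := fun _ => rfl
  have s1 : ∀ (s : Finset (Fin n)) (f : Fin n → E) (x : AlbL E a b c),
      (∑ i ∈ s, ρ (f i) • (w i).1) (ph ρ lam x) = ph ρ lam ((∑ i ∈ s, f i • (w i).1) x) ∧
      ∀ y, her σ g ((∑ i ∈ s, σ (f i) • (w i).1) x) y +
        her σ g x ((∑ i ∈ s, f i • (w i).1) y) = 0 := fun s f x => by
    induction s using Finset.induction_on with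
    | empty => exact ⟨hL.zero.2.1 x, hL.zero.2.2 x⟩
    | insert i s hi ih =>
      simp only [Finset.sum_insert hi, LinearMap.add_apply, LinearMap.smul_apply, ph_add, ph_smul,
        her_add_left, her_add_right, her_smul_left, her_smul_right, ih.1, (hW _ (w i).2).2.1]
      exact ⟨trivial, fun y => by
        linear_combination ih.2 y + σ (f i) * (hW _ (w i).2).2.2 x y⟩
  have h1 : ∀ (t : k) f, T f = algebraMap k E t • X → T (ρ ∘ f) = algebraMap k E t • X ∧
      T (σ ∘ f) = algebraMap k E t • X := fun t f h => by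
    have l := hL.smul t
    refine ⟨LinearMap.ext ((ph_surj hS.ρ3 hg.ρlam).forall.2 fun x => ?_),
      LinearMap.ext fun x => her_ext (g := g) hS.σ2 fun y => ?_⟩
    · rw [l.2.1, ← h]
      exact (s1 _ f x).1
    · have := (s1 Finset.univ f x).2 y
      rw [← hT f, h, ← hT fun i => σ (f i)] at this
      exact (eq_neg_of_add_eq_zero_left this).trans (eq_neg_of_add_eq_zero_left (l.2.2 x y)).symm
  have h2 : T f = algebraMap k E 1 • X := by rw [map_one, one_smul, ← hf, hT]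
  have h3 := (h1 1 f h2).1
  have h4 : T (f + ρ ∘ f + ρ ∘ ρ ∘ f) = algebraMap k E 3 • X := by
    rw [map_add, map_add, h2, h3, (h1 1 _ h3).1, map_one, map_ofNat]
    module
  have h5 : T (f + ρ ∘ f + ρ ∘ ρ ∘ f + σ ∘ (f + ρ ∘ f + ρ ∘ ρ ∘ f)) = algebraMap k E 6 • X := by
    rw [map_add, h4, (h1 3 _ h4).2, map_ofNat, map_ofNat]
    module
  have h6 : algebraMap k E 6 • X ∈ W := by
    rw [← h5, hT]
    refine sum_mem fun i _ => ?_
    have h7 : ρ (f i + ρ (f i) + ρ (ρ (f i))) = f i + ρ (f i) + ρ (ρ (f i)) := by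
      rw [map_add, map_add, hS.ρ3]
      ring
    obtain ⟨t, ht⟩ := fix hS (x := f i + ρ (f i) + ρ (ρ (f i)) + σ (f i + ρ (f i) + ρ (ρ (f i))))
      (by rw [map_add, hS.comm, h7]) (by rw [map_add σ _ (σ _), hS.σ2, add_comm])
    exact (congrArg (· • (w i).1 ∈ W) ht).mp (hk t _ (w i).2)
  convert hk 6⁻¹ _ h6 using 1
  rw [smul_smul, ← map_mul, inv_mul_cancel₀ (by norm_num), map_one, one_smul]

theorem genR (hS : IsSextic ρ σ kap) (hg : IsForm ρ σ lam g)
    {V : Submodule E (Module.End E (AlbL E a b c))} (h : ∀ Y, Good ρ σ lam g Y → Y ∈ V)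
    (i : Fin 6) {q : OctL E a b c} (hq : bil q 1 = 0) : Rt i q ∈ V :=
  has_iff.1 (gen hS hg (fun Y hY => h Y (hY.good hS)) hq) i

theorem comm_Rt (hS : IsSextic ρ σ kap) (hg : IsForm ρ σ lam g)
    (h : ∀ Y, Good ρ σ lam g Y → X * Y = Y * X) (i : Fin 6) (q : OctL E a b c) (hq : bil q 1 = 0) :
    Rt i q * X = X * Rt i q :=
  (sub_eq_zero.1 (genR hS hg (V := LinearMap.ker (LinearMap.mulLeft E X - LinearMap.mulRight E X))
    (fun Y hY => sub_eq_zero.2 (h Y hY)) i hq)).symm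

/-- A map which commutes with the Lie algebra is a scalar. -/
theorem scalar (hS : IsSextic ρ σ kap) (hg : IsForm ρ σ lam g)
    (h : ∀ Y, Good ρ σ lam g Y → X * Y = Y * X) : ∃ t : E, ∀ v, X v = t • v := by
  let V : Submodule E (Module.End E (AlbL E a b c)) :=
    LinearMap.ker (LinearMap.mulLeft E X - LinearMap.mulRight E X)
  have hV : ∀ Y, Y ∈ V ↔ X * Y = Y * X := fun Y => sub_eq_zero
  obtain ⟨t, ht⟩ := scalar_of_comm (m := X) fun Y hY => by
    refine (hV Y).1 (star_main (V := V) (fun Y h1 Z h2 => ?_)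
      (fun q hq => has_iff.2 fun i => (hV _).2 (comm_Rt hS hg h i q hq).symm) hY)
    rw [hV] at h1 h2 ⊢
    exact ((Commute.mul_right h1 h2).sub_right (Commute.mul_right h2 h1)).eq
  exact ⟨t, fun v => LinearMap.congr_fun ht v⟩

/-- **Irreducibility.** -/
theorem irr (hS : IsSextic ρ σ kap) (hg : IsForm ρ σ lam g)
    {W : AddSubgroup (Module.End E (AlbL E a b c))}
    (hW : ∀ Y, Good ρ σ lam g Y → ∀ X ∈ W, Y * X - X * Y ∈ W) {X0 : Module.End E (AlbL E a b c)}
    (h0 : X0 ∈ W) (h1 : Li ρ σ lam g X0) (h2 : X0 ≠ 0) (hX : Li ρ σ lam g X) : X ∈ W := by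
  set S : Set (Module.End E (AlbL E a b c)) :=
    {Z | ∃ Y X, Good ρ σ lam g Y ∧ X ∈ W ∧ Li ρ σ lam g X ∧ Z = Y * X - X * Y} with hS'
  have w1 : ∀ w ∈ AddSubgroup.closure S, w ∈ W ∧ Li ρ σ lam g w ∧
      ∀ t : k, algebraMap k E t • w ∈ AddSubgroup.closure S := fun w hw => by
    induction hw using AddSubgroup.closure_induction with
    | mem w hw =>
      obtain ⟨Y, Z, a1, a2, a3, rfl⟩ := hw
      exact ⟨hW Y a1 Z a2, a1.1.br a3, fun t => AddSubgroup.subset_closure ⟨_, Z, a1.smul t, a2, a3,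
        by rw [smul_sub, smul_mul_assoc, mul_smul_comm]⟩⟩
    | zero => exact ⟨zero_mem _, h1.zero, fun t => by simp⟩
    | add A B _ _ hA hB =>
      exact ⟨add_mem hA.1 hB.1, hA.2.1.add hB.2.1, fun t => by
        rw [smul_add]; exact add_mem (hA.2.2 t) (hB.2.2 t)⟩
    | neg A _ hA => exact ⟨neg_mem hA.1, hA.2.1.neg, fun t => by
        rw [smul_neg]; exact neg_mem (hA.2.2 t)⟩
  set I := Submodule.span E (AddSubgroup.closure S : Set (Module.End E (AlbL E a b c))) with hI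
  have w2 : ∀ Z ∈ I, Dr Z ∧ ∀ Y, Good ρ σ lam g Y → Y * Z - Z * Y ∈ I := fun Z hZ => by
    induction hZ using Submodule.span_induction with
    | mem Z hZ => exact ⟨(w1 Z hZ).2.1.1, fun Y hY => Submodule.subset_span
        (AddSubgroup.subset_closure ⟨Y, Z, hY, (w1 Z hZ).1, (w1 Z hZ).2.1, rfl⟩)⟩
    | zero => exact ⟨h1.zero.1, fun Y _ => by simp⟩
    | add A B _ _ hA hB =>
      refine ⟨hA.1.add hB.1, fun Y hY => ?_⟩
      convert add_mem (hA.2 Y hY) (hB.2 Y hY) using 1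
      noncomm_ring
    | smul t A _ hA =>
      refine ⟨hA.1.smul t, fun Y hY => ?_⟩
      rw [mul_smul_comm, smul_mul_assoc, ← smul_sub]
      exact Submodule.smul_mem _ _ (hA.2 Y hY)
  obtain ⟨Y, y1, y2⟩ : ∃ Y, Good ρ σ lam g Y ∧ Y * X0 - X0 * Y ≠ 0 := by
    by_contra hn
    push Not at hn
    exact h2 (zero_of_comm h1.1 (comm_Rt hS hg fun Y hY => (sub_eq_zero.1 (hn Y hY)).symm))
  refine (w1 X (descent hS hg (fun w hw => (w1 w hw).2.1) (fun t w hw => (w1 w hw).2.2 t)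
    (dr_simple (I := I) (fun Z hZ => (w2 Z hZ).1) (fun Z hZ i q hq => ?_) (Submodule.subset_span
      (AddSubgroup.subset_closure ⟨Y, X0, y1, h0, h1, rfl⟩)) y2 X hX.1) hX)).1
  exact genR hS hg (V := I.comap (LinearMap.mulRight E Z - LinearMap.mulLeft E Z))
    (fun Y hY => (w2 Z hZ).2 Y hY) i hq

end Vale.Agent.P011.E6O.Gn
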