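import Vale.Agent.P011NE.SuFin
import Vale.Agent.P011NE.Short
import Vale.Agent.P011.E6W.H183.SqRes

/-!
The special unitary group of the algebra `D ⊗ Q` of degree six.
-/

open Matrix Module

set_option linter.unusedSectionVars false

namespace Vale.Agent.P011.E6W.H183

open Vale.Agent.P011.MPQ hiding mat
open Vale.Agent.P011.D4 Vale.Agent.P011.D4.Oct Vale.Agent.P011.E6
open Vale.Agent.P011.E6O
open Vale.Agent.P011.E6I (MQ toMQ toMQ_apply u0)

variable {k E : Type} [Field k] [NumberField k] [Field E] [NumberField E] [Algebra k E]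
  {ρ σ : E ≃ₐ[k] E} {lam : Eˣ} {g : Fin 3 → Eˣ} {th s : E} {kap a b c : kˣ}

theorem WH.aniso (W : WH ρ σ lam g th s kap a b c) : Aniso a b := fun x hx =>
  Alb.qup_injective (K := E) ((WH.anisoE W (qup E x)
    (by rw [nrd_qup, hx, map_zero])).trans (by simp))

theorem homW_surj (W : WH ρ σ lam g th s kap a b c)
    (f : BW W →ₐ[KW W] Matrix (Fin 6) (Fin 6) (AlgebraicClosure E))
    (hf : ∀ x, (f x).det = algebraMap E (AlgebraicClosure E) (nu (toW W x)))
    {m : (MQ E a b)ˣ} (hm : InD ρ lam (m : MQ E a b)) (hu : IsUn σ g 1 (m : MQ E a b))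
    (hn : nu (m : MQ E a b) = 1) : ∃ u : One.SUD f, toW W ((u : (BW W)ˣ) : BW W) = m := by
  obtain ⟨x, hx⟩ : ∃ x : BW W, toW W x = (m : MQ E a b) := ⟨ofW W hm, rfl⟩
  have hx0 : x ≠ 0 := by
    intro h0
    rw [h0, map_zero] at hx
    exact m.ne_zero hx.symm
  have hxs : x * star x = 1 := by
    have h1 : star x * x = 1 := by
      apply toW_injective W
      rw [map_mul, toW_star, hx, map_one]
      exact isUn_iff.mp hu
    rw [eq_inv_of_mul_eq_one_left h1, mul_inv_cancel₀ hx0]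
  have hxd : (f x).det = 1 := by rw [hf, hx, hn, map_one]
  exact ⟨⟨Units.mk0 x hx0, hxs, hxd⟩, hx⟩

theorem homW_eq (W : WH ρ σ lam g th s kap a b c)
    (f : BW W →ₐ[KW W] Matrix (Fin 6) (Fin 6) (AlgebraicClosure E))
    (hf : ∀ x, (f x).det = algebraMap E (AlgebraicClosure E) (nu (toW W x)))
    {m : (MQ E a b)ˣ} {u : One.SUD f} (h : toW W ((u : (BW W)ˣ) : BW W) = m) :
    (homW W f hf u).1 = H64.actL two_ne_zero m 1 := by
  rw [homW_apply]
  congr 1
  exact Units.ext h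

theorem sq_mem_m (W : WH ρ σ lam g th s kap a b c) (hMP : SixAt W)
    (hT : One.Tdiv k (KW W) (BW W) = ∅) (N : Subgroup (GO ρ σ lam g a b c)) (hi : BigE N)
    {m : (MQ E a b)ˣ} (hm : InD ρ lam (m : MQ E a b)) (hu : IsUn σ g 1 (m : MQ E a b))
    (hn : nu (m : MQ E a b) = 1) : (⟨_, act_mem_GO W hm hu hn⟩ : GO ρ σ lam g a b c) ∈ N := by
  obtain ⟨f, hf⟩ : ∃ f : BW W →ₐ[KW W] Matrix (Fin 6) (Fin 6) (AlgebraicClosure E),
      ∀ x, (f x).det = algebraMap E (AlgebraicClosure E) (nu (toW W x)) := exists_spB W.HI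
  have hS := setW W
  have hdeg : finrank (KW W) (BW W) = 6 ^ 2 := (finrank_BB W.HI).trans (by norm_num)
  have hKf : FiniteDimensional k (KW W) := Module.finite_of_finrank_pos (by rw [hS.rank]; norm_num)
  have hDf : FiniteDimensional k (BW W) := Module.Finite.trans (KW W) (BW W)
  have hM : StarModule (KW W) (BW W) := ⟨hS.star_smul⟩
  have hK : ∃ x : KW W, star x ≠ x := ⟨thK W, fun h => W.th_ne (by
    rw [hS.star_s, neg_eq_self] at h
    rw [← algebraMap_thK W, h, map_zero])⟩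
  have hno := hi.2.1.comap (homW W f hf)
  have hN2 := NE.sud_fin hi.1.2 f hK (by norm_num) hdeg _ hno
    (BigE.not_le W.aniso hi (homW W f hf) fun m hm hu hn => by
      obtain ⟨u, h⟩ := homW_surj W f hf hm hu hn
      exact ⟨u, fun x => by rw [homW_eq W f hf h, H64.actL_apply, Units.val_one]⟩)
  obtain ⟨S, hSf, hpf⟩ := hMP _ f _ (finBasis k (BW W)) (N.comap (homW W f hf)) hN2
  obtain ⟨η, -, h⟩ := One.pf_tdiv hS (by norm_num) hdeg f (finBasis k (BW W)) One.im_sub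
    One.one_im (fun _ ha _ hb => One.mul_im ha hb) hN2
    (fun x hx => One.pow_im (fun g => Subgroup.pow_index_mem _ g) hx) hSf hpf
  obtain ⟨x, hx⟩ := homW_surj W f hf hm hu hn
  obtain ⟨u, hu', hux⟩ := h _ x.2 (by
    rw [hT]
    intro p hp
    exact absurd hp (Set.notMem_empty p))
  have h3 : homW W f hf u = ⟨_, act_mem_GO W hm hu hn⟩ :=
    Subtype.ext (homW_eq W f hf (by rw [hux, hx]))
  exact h3 ▸ hu'

theorem sq_res_m (W : WH ρ σ lam g th s kap a b c) (hMP : SixAt W)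
    (hT : One.Tdiv k (KW W) (BW W) = ∅) {m : (MQ E a b)ˣ} (hm : InD ρ lam (m : MQ E a b))
    (hu : IsUn σ g 1 (m : MQ E a b)) (hn : nu (m : MQ E a b) = 1)
    {φ : AlbL E a b c ≃ₗ[E] AlbL E a b c} (hφ : ∀ x, φ x = Alb.act m 1 x) :
    φ ∈ E6O.Res_m ρ σ lam g a b c := by
  have h : φ = H64.actL two_ne_zero m 1 := by
    apply LinearEquiv.ext
    intro x
    rw [hφ, H64.actL_apply, Units.val_one]
  refine ⟨⟨_, act_mem_GO W hm hu hn⟩, ?_, h.symm⟩
  rw [SetLike.mem_coe, Subgroup.mem_sInf]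
  intro N hN
  exact sq_mem_m W hMP hT N hN hm hu hn

end Vale.Agent.P011.E6W.H183
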