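import Vale.Agent.P011NE.Base
import Vale.Agent.P011.One.AdicDefs
import Vale.Agent.P011S.Defs2

/-!
Noncentral normal subgroups of the special unitary groups in the older letters.
-/

open Matrix Module

namespace Vale.Agent.P011.NE

open Vale.Agent.P011.H925.Full Vale.Agent.P011S

theorem index_of_surj {G G' : Type} [Group G] [Group G'] (e : G →* G')
    (he : Function.Surjective e)
    (h : ∀ N : Subgroup G, N.Normal → ¬ N ≤ Subgroup.center _ → N.index ≠ 0)
    (N : Subgroup G') (hN : N.Normal) (hc : ¬ N ≤ Subgroup.center _) : N.index ≠ 0 := by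
  rw [← Subgroup.index_comap_of_surjective N he]
  refine h _ (hN.comap _) fun h1 => hc fun x hx => ?_
  obtain ⟨y, rfl⟩ := he x
  have hy := Subgroup.mem_center_iff.1 (h1 (show y ∈ N.comap e from hx))
  refine Subgroup.mem_center_iff.2 fun g => ?_
  obtain ⟨z, rfl⟩ := he g
  rw [← map_mul, ← map_mul, hy]

theorem not_split {K D A : Type} [Field K] [DivisionRing D] [Ring A] [Algebra K D] [Algebra K A]
    (φ : D →ₐ[K] A) {n : ℕ} (hA : finrank K A = n ^ 2) (hd : ¬ finrank K D ∣ n) :
    ¬ ∃ m : ℕ, Nonempty (A ≃ₐ[K] Matrix (Fin m) (Fin m) K) := by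
  rintro ⟨m, ⟨e⟩⟩
  have h1 : n = m := by
    have h2 := e.toLinearEquiv.finrank_eq
    rw [hA, Module.finrank_matrix, Fintype.card_fin, Module.finrank_self, mul_one, ← sq] at h2
    exact Nat.pow_left_injective two_ne_zero h2
  let ψ : D →ₐ[K] Module.End K (Fin m → K) :=
    ((Matrix.toLinAlgEquiv' : Matrix (Fin m) (Fin m) K ≃ₐ[K] _).toAlgHom.comp e.toAlgHom).comp φ
  let _ : Module D (Fin m → K) := Module.compHom _ ψ.toRingHom
  have : IsScalarTower K D (Fin m → K) := ⟨fun c d v => by
    change ψ (c • d) v = c • ψ d v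
    rw [map_smul]
    rfl⟩
  have h3 := Module.finrank_mul_finrank K D (Fin m → K)
  rw [Module.finrank_fin_fun] at h3
  exact hd ⟨_, h1.trans h3.symm⟩

/-- The fixed field of the involution. -/
def fixS (K : Type) [Field K] [StarRing K] : Subfield K where
  carrier := {x | star x = x}
  mul_mem' := fun {x y} hx hy => by
    change star (x * y) = x * y
    rw [star_mul, hx, hy, mul_comm]
  one_mem' := star_one _
  add_mem' := fun {x y} hx hy => by
    change star (x + y) = x + y
    rw [star_add, hx, hy]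
  zero_mem' := star_zero _
  neg_mem' := fun {x} hx => by
    change star (-x) = -x
    rw [star_neg, hx]
  inv_mem' := fun x hx => by
    change star x⁻¹ = x⁻¹
    rw [star_inv₀, hx]

/-- The input without the ground field. -/
theorem gk_fin (hC : CProp) {K A Ω : Type} [Field K] [NumberField K] [StarRing K] [Ring A]
    [StarRing A] [Algebra K A] [StarModule K A] [Field Ω] [Algebra K Ω] [Algebra.IsCentral K A]
    [IsSimpleRing A] {n : ℕ} (f : A →ₐ[K] Matrix (Fin n) (Fin n) Ω) (hK : ∃ x : K, star x ≠ x)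
    (hn : 3 ≤ n) (hr : finrank K A = n ^ 2) (ha : ∀ x : A, star x * x = 0 → x = 0)
    (hs : ¬ ∃ m : ℕ, Nonempty (A ≃ₐ[K] Matrix (Fin m) (Fin m) K)) :
    ∀ N : Subgroup (GK f), N.Normal → ¬ N ≤ Subgroup.center _ → N.index ≠ 0 := by
  have hk : NumberField (fixS K) := inferInstance
  exact hC (fixS K) K A Ω n f hk
    { global := Or.inl hk
      fixed := fun x => ⟨fun h => ⟨⟨x, h⟩, rfl⟩, by
        rintro ⟨y, rfl⟩
        exact y.2⟩
      star_ne := hK
      central := inferInstance
      simple := inferInstance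
      le := hn
      rank := hr
      aniso := ha
      nonsplit := fun _ => hs }

/-- Division algebras. -/
theorem sud_fin (hC : CProp) {K D Ω : Type} [Field K] [NumberField K] [StarRing K]
    [DivisionRing D] [StarRing D] [Algebra K D] [StarModule K D] [Field Ω] [Algebra K Ω]
    [Algebra.IsCentral K D] {n : ℕ} (f : D →ₐ[K] Matrix (Fin n) (Fin n) Ω)
    (hK : ∃ x : K, star x ≠ x) (hn : 3 ≤ n) (hr : finrank K D = n ^ 2) :
    ∀ N : Subgroup (One.SUD f), N.Normal → ¬ N ≤ Subgroup.center _ → N.index ≠ 0 := by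
  let e : GK f →* One.SUD f :=
    ((Unitary.toUnits (R := D)).comp (GK f).subtype).codRestrict _ fun x =>
      ⟨Unitary.mul_star_self_of_mem x.1.2, x.2⟩
  refine index_of_surj e ?_ (gk_fin hC f hK hn hr (fun x hx => ?_)
    (not_split (AlgHom.id K D) hr ?_))
  · rintro ⟨u, h1, h2⟩
    exact ⟨⟨⟨u, mul_eq_one_comm.1 h1, h1⟩, h2⟩, Subtype.ext (Units.ext rfl)⟩
  · rcases mul_eq_zero.1 hx with h | h
    · exact star_eq_zero.1 h
    · exact h
  · rw [hr]
    intro h
    have := Nat.le_of_dvd (by omega) h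
    nlinarith

/-- A hermitian matrix and its inverse. -/
structure HF (m : ℕ) (D : Type) [DivisionRing D] [StarRing D] where
  /-- the matrix -/
  H : Matrix (Fin m) (Fin m) D
  /-- the inverse -/
  Hi : Matrix (Fin m) (Fin m) D
  herm : Hᴴ = H
  inv : Hi * H = 1
  inv' : H * Hi = 1

namespace HF

variable {m : ℕ} {D : Type} [DivisionRing D] [StarRing D] (S : HF m D)

/-- The matrix algebra with the adjoint involution. -/
def M (_ : HF m D) : Type := Matrix (Fin m) (Fin m) D

instance : Ring S.M := inferInstanceAs (Ring (Matrix (Fin m) (Fin m) D))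

/-- The matrix of an element. -/
def mt : S.M ≃+* Matrix (Fin m) (Fin m) D := RingEquiv.refl _

theorem hi : S.Hiᴴ * S.H = 1 := by
  rw [← conjTranspose_one, ← S.inv', conjTranspose_mul, S.herm]

instance : StarRing S.M where
  star x := S.mt.symm (S.Hi * (S.mt x)ᴴ * S.H)
  star_involutive x := S.mt.injective (by
    simp only [RingEquiv.apply_symm_apply, conjTranspose_mul, conjTranspose_conjTranspose, S.herm]
    calc _ = (S.Hi * S.H) * S.mt x * (S.Hiᴴ * S.H) := by simp only [Matrix.mul_assoc]
      _ = _ := by rw [S.inv, S.hi, Matrix.one_mul, Matrix.mul_one])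
  star_mul x y := S.mt.injective (by
    simp only [RingEquiv.apply_symm_apply, map_mul, conjTranspose_mul]
    calc _ = S.Hi * (S.mt y)ᴴ * (S.H * S.Hi) * (S.mt x)ᴴ * S.H := by
          rw [S.inv', Matrix.mul_one]
          simp only [Matrix.mul_assoc]
      _ = _ := by simp only [Matrix.mul_assoc])
  star_add x y := S.mt.injective (by
    simp only [RingEquiv.apply_symm_apply, map_add, conjTranspose_add, Matrix.mul_add,
      Matrix.add_mul])

theorem mt_star (x : S.M) : S.mt (star x) = S.Hi * (S.mt x)ᴴ * S.H := rfl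

theorem star_mul_iff (x : S.M) (y : Matrix (Fin m) (Fin m) D) :
    S.mt (star x * x) = y ↔ (S.mt x)ᴴ * S.H * S.mt x = S.H * y := by
  rw [map_mul, mt_star]
  constructor
  · rintro rfl
    rw [← Matrix.mul_assoc, ← Matrix.mul_assoc, ← Matrix.mul_assoc, S.inv', Matrix.one_mul]
  · intro h
    rw [Matrix.mul_assoc, Matrix.mul_assoc, ← Matrix.mul_assoc _ S.H, h, ← Matrix.mul_assoc, S.inv,
      Matrix.one_mul]

variable {K : Type} [Field K] [Algebra K D]

instance : Algebra K S.M := inferInstanceAs (Algebra K (Matrix (Fin m) (Fin m) D))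

instance [StarRing K] [StarModule K D] : StarModule K S.M := ⟨fun c x => S.mt.injective (by
  change S.Hi * (c • S.mt x)ᴴ * S.H = star c • (S.Hi * (S.mt x)ᴴ * S.H)
  rw [conjTranspose_smul, Matrix.mul_smul, Matrix.smul_mul])⟩

end HF

/-- Matrices over division algebras. -/
theorem su_fin (hC : CProp) {K D F : Type} [Field K] [NumberField K] [StarRing K]
    [DivisionRing D] [StarRing D] [Algebra K D] [StarModule K D] [Field F] [Algebra K F]
    [Algebra.IsCentral K D] {m p : ℕ} [NeZero m] (f : D →ₐ[K] Matrix (Fin p) (Fin p) F)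
    (hK : ∃ x : K, star x ≠ x) (hr : finrank K D = p ^ 2) (hn : 3 ≤ m * p)
    (hd : ¬ p ^ 2 ∣ m * p) (S : HF m D)
    (hH : IsAnisotropicForm S.H) :
    ∀ N : Subgroup (P011S.SU f S.H), N.Normal → ¬ N ≤ Subgroup.center _ → N.index ≠ 0 := by
  let f' : S.M →ₐ[K] Matrix (Fin (m * p)) (Fin (m * p)) F :=
    ((Matrix.reindexAlgEquiv K F finProdFinEquiv).toAlgHom.comp
      (Matrix.compAlgEquiv (Fin m) (Fin p) F K).toAlgHom).comp f.mapMatrix
  have hf : ∀ x, (f' x).det = redNorm f (Fin m) (S.mt x) := fun x => by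
    have h1 : f' x = Matrix.reindex finProdFinEquiv finProdFinEquiv
        (Matrix.compRingEquiv (Fin m) (Fin p) F (f.toRingHom.mapMatrix (S.mt x))) := by
      ext i j
      rfl
    rw [h1, Matrix.det_reindex_self]
    rfl
  have : Algebra.IsCentral K S.M :=
    inferInstanceAs (Algebra.IsCentral K (Matrix (Fin m) (Fin m) D))
  have : IsSimpleRing S.M := inferInstanceAs (IsSimpleRing (Matrix (Fin m) (Fin m) D))
  have hp : p ≠ 0 := by
    rintro rfl
    omega
  have hfin : FiniteDimensional K D := Module.finite_of_finrank_pos (by rw [hr]; positivity)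
  have hr' : finrank K S.M = (m * p) ^ 2 := by
    change finrank K (Matrix (Fin m) (Fin m) D) = _
    rw [Module.finrank_matrix, hr, Fintype.card_fin]
    ring
  let e : GK f' →* P011S.SU f S.H :=
    ((Units.map (S.mt : S.M →* Matrix (Fin m) (Fin m) D)).comp
      ((Unitary.toUnits (R := S.M)).comp (GK f').subtype)).codRestrict _ fun x =>
      ⟨by
        have h1 := (S.star_mul_iff x.1.1 1).1 (by
          rw [Unitary.star_mul_self_of_mem x.1.2, map_one])
        rwa [Matrix.mul_one] at h1, (hf x.1.1).symm.trans x.2⟩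
  refine index_of_surj e ?_ (gk_fin hC f' hK hn hr' (fun x hx => ?_)
    (not_split (D := D) (Matrix.scalarAlgHom (Fin m) K) hr' (by rwa [hr])))
  · rintro ⟨u, h1, h2⟩
    have h3 : star (S.mt.symm u.1) * S.mt.symm u.1 = 1 := S.mt.injective (by
      rw [map_one, S.star_mul_iff, Matrix.mul_one]
      exact h1)
    have h4 : S.mt.symm u.1 * star (S.mt.symm u.1) = 1 := by
      have h5 : star (S.mt.symm u.1) = S.mt.symm u.2 := by
        rw [← mul_one (star _), ← map_one S.mt.symm, ← u.3, map_mul, ← mul_assoc, h3, one_mul]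
      rw [h5, ← map_mul, u.3, map_one]
    exact ⟨⟨⟨S.mt.symm u.1, h3, h4⟩, (hf _).trans h2⟩, Subtype.ext (Units.ext rfl)⟩
  · have h1 := (S.star_mul_iff x 0).1 (by rw [hx, map_zero])
    rw [Matrix.mul_zero] at h1
    apply S.mt.injective
    rw [map_zero]
    ext i j
    have h2 := hH.2 (fun l => S.mt x l j) (by
      have h3 := congrFun (congrFun h1 j) j
      rw [Matrix.mul_assoc] at h3
      exact h3)
    exact congrFun h2 i

end Vale.Agent.P011.NE
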