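import Vale.Agent.P011NE.SuFin
import Vale.Agent.P011NE.Short
import Vale.Agent.P011.E6X.SuRes

/-!
The special unitary group of rank two.
-/

set_option linter.unusedSectionVars false

section

open Matrix

namespace Vale.Agent.P011.E6O.H68

open Vale.Agent.P011.MPQ Vale.Agent.P011.D4 Vale.Agent.P011.D4.Oct Vale.Agent.P011.E6

open Vale.Agent.P011.E6.H64 Vale.Agent.P011.E6.Alb

open Vale.Agent.P011.E6I (MQ toMQ)

open Vale.Agent.P011S (UH SU redNorm IsAnisotropicForm)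

section main

variable {k E : Type} [Field k] [Field E] [Algebra k E] {ρ σ : E ≃ₐ[k] E} {lam : Eˣ}
  {g : Fin 3 → Eˣ} {a b c : kˣ} {al : E} (h2 : (2 : E) ≠ 0)

theorem aniso_div {F : Type} [Field F] {a b c : Fˣ} (h : Division a b c) : Aniso a b := by
  intro x hx
  have h1 : (⟨x, 0⟩ : Oct a b c) = 0 := h _ (by
    rw [Oct.norm, hx]
    simp [nrd])
  exact congrArg Oct.fst h1

/-- The special unitary group of rank two belongs to the residual. -/
theorem su_res_m [CharZero k] (hab : Aniso a b) (hα : al * al = up E a) (ha : ρ al = al) (hσa : σ al = -al)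
    {K : Type} [Field K] [StarRing K] [Algebra K E] (S : Dat K E)
    (hρ : ∀ x, S.ρ x = ρ x) (hs : ∀ x, S.s x = σ x) (hl : algebraMap K E S.lam = lam)
    (hG : S.G = g) {β : K} (hβ : algebraMap K E β = up E b)
    (htop : NE.HypE → ∀ N : Subgroup (SU S.f (Hf S β)), N.Normal →
      ¬ N ≤ Subgroup.center _ → N = ⊤)
    (hmem : ∀ m : (MQ E a b)ˣ, InD ρ lam (m : MQ E a b) → IsUn σ g 1 (m : MQ E a b) →
      nu (m : MQ E a b) = 1 → (actL h2 m 1 : AlbL E a b c ≃ₗ[E] _) ∈ GO ρ σ lam g a b c)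
    {m : (MQ E a b)ˣ} (hm : InD ρ lam (m : MQ E a b)) (hu : IsUn σ g 1 (m : MQ E a b))
    (hn : nu (m : MQ E a b) = 1) {φ : AlbL E a b c ≃ₗ[E] AlbL E a b c}
    (hφ : ∀ x, φ x = Alb.act m 1 x) : φ ∈ Res_m ρ σ lam g a b c := by
  subst hG
  have hbs : S.s (up E b : E) = up E b := by
    rw [hs]; exact σ.commutes _
  have hα' : S.s al = -al := by rw [hs, hσa]
  let T : (Matrix (Fin 2) (Fin 2) S.D)ˣ →* (MQ E a b)ˣ :=
    Units.map (th S (spq (b := up E b) h2 hα) : _ →* _)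
  have hT : ∀ x, ((T x : (MQ E a b)ˣ) : MQ E a b) = th S (spq (b := up E b) h2 hα) x :=
    fun _ => rfl
  have h1 : ∀ x ∈ SU S.f (Hf S β), InD ρ lam (T x : MQ E a b) ∧
      IsUn σ S.G 1 (T x : MQ E a b) ∧ nu (T x : MQ E a b) = 1 := by
    rintro x hx0
    obtain ⟨hx1, hx2⟩ := (mem_su S.f (Hf S β) x).1 hx0
    refine ⟨?_, ?_, ?_⟩
    · rw [hT]; exact thD_mem h2 hα S hρ hl ha _
    · rw [isUn_iff hs, hT, mdag_mul_iff S h2 hα hα' hβ hbs]
      exact hx1
    · rw [hT, nu_th S _ h2 (det_spq h2 hα)]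
      exact hx2
  let Φ : SU S.f (Hf S β) →* GO ρ σ lam S.G a b c :=
    { toFun := fun x => ⟨actL h2 (T x.1) 1, hmem _ (h1 x.1 x.2).1 (h1 x.1 x.2).2.1
        (h1 x.1 x.2).2.2⟩
      map_one' := by
        apply Subtype.ext
        apply LinearEquiv.ext
        intro x
        change act (T 1) 1 x = x
        rw [map_one]
        exact act_one_one h2 x
      map_mul' := fun x y => by
        apply Subtype.ext
        apply LinearEquiv.ext
        intro z
        change act (T (x.1 * y.1)) 1 z = act (T x.1) 1 (act (T y.1) 1 z)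
        rw [map_mul, act_act h2, mul_one] }
  have key : ∀ m : (MQ E a b)ˣ, InD ρ lam (m : MQ E a b) → IsUn σ S.G 1 (m : MQ E a b) →
      nu (m : MQ E a b) = 1 → ∃ u, ∀ x, (Φ u).1 x = act m 1 x := by
    intro m hm hu hn
    obtain ⟨x, hx⟩ := exists_thD h2 hα S hρ hl ha hm
    have hinj := th_injective S (spq (b := up E b) h2 hα)
    obtain ⟨y, hy⟩ : ∃ y, th S (spq (b := up E b) h2 hα) y =
        ((m⁻¹ : (MQ E a b)ˣ) : MQ E a b) := by
      have h3 := (mdag_mul_iff S h2 hα hα' hβ hbs x).2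
      have h4 : mdag S.s S.G (m : MQ E a b) * (m : MQ E a b) = 1 := (isUn_iff hs _).1 hu
      have h5 : mdag S.s S.G (m : MQ E a b) = ((m⁻¹ : (MQ E a b)ˣ) : MQ E a b) :=
        Units.eq_inv_of_mul_eq_one_right h4
      refine ⟨Hi S β * xᴴ * Hf S β, ?_⟩
      rw [← mdag_th S h2 hα hα' hβ hbs, hx, h5]
    let x' : (Matrix (Fin 2) (Fin 2) S.D)ˣ :=
      ⟨x, y, hinj (by rw [map_mul, hx, hy, map_one]; exact Units.mul_inv m),
        hinj (by rw [map_mul, hx, hy, map_one]; exact Units.inv_mul m)⟩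
    have hTx : T x' = m := Units.ext hx
    have hxS : x' ∈ SU S.f (Hf S β) := by
      rw [mem_su]
      refine ⟨?_, ?_⟩
      · change xᴴ * Hf S β * x = Hf S β
        rw [← mdag_mul_iff S h2 hα hα' hβ hbs, hx]
        exact (isUn_iff hs _).1 hu
      · change redNorm S.f (Fin 2) x = 1
        rw [← nu_th S (spq (b := up E b) h2 hα) h2 (det_spq h2 hα), hx, hn]
    refine ⟨⟨x', hxS⟩, fun z => ?_⟩
    change act (T x') 1 z = _
    rw [hTx]
  obtain ⟨u, hu'⟩ := key m hm hu hn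
  refine ⟨Φ u, ?_, LinearEquiv.ext fun z => (hu' z).trans (hφ z).symm⟩
  rw [SetLike.mem_coe, Subgroup.mem_sInf]
  intro N hN
  have h7 := htop hN.1 _ (hN.2.1.comap Φ) (BigE.not_le hab hN Φ key)
  have h8 : u ∈ N.comap Φ := by rw [h7]; exact Subgroup.mem_top _
  exact h8

end main

end Vale.Agent.P011.E6O.H68

end

section

open NumberField Matrix

namespace Vale.Agent.P011.E6X

open Vale.Agent.P011.E6O

open Vale.Agent.P011.MPQ Vale.Agent.P011.D4 Vale.Agent.P011.D4.Oct Vale.Agent.P011.E6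

open Vale.Agent.P011.E6I (MQ toMQ)

variable {k E : Type} [Field k] [NumberField k] [Field E] [NumberField E] [Algebra k E]
  {ρ σ : E ≃ₐ[k] E} {lam : Eˣ} {g : Fin 3 → Eˣ} {al s : E} {a b c : kˣ}

/-- The special unitary group of rank two belongs to the finite residual. -/
theorem su_Res_m (H : Hyp ρ σ lam g al s a b c) {m : (MQ E a b)ˣ} (hm : InD ρ lam (m : MQ E a b))
    (hu : IsUn σ g 1 (m : MQ E a b)) (hn : nu (m : MQ E a b) = 1)
    {φ : AlbL E a b c ≃ₗ[E] AlbL E a b c} (hφ : ∀ x, φ x = Alb.act m 1 x) :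
    φ ∈ Res_m ρ σ lam g a b c := by
  obtain ⟨K, _, _, _, _, S, h1, h2, h3, h4, -, h5, h6, h7, h8⟩ := H.exists_dat
  have hα : al * al = up E a := by rw [← pow_two, H.al2]; rfl
  obtain ⟨β, hβ⟩ := h5 (algebraMap k E b) (ρ.commutes _)
  have hβs : star β = β := by
    apply (algebraMap K E).injective
    rw [h7, hβ, AlgEquiv.commutes]
  have hβ0 : β ≠ 0 := fun h => b.ne_zero ((map_eq_zero (algebraMap k E)).1
    (by rw [← hβ, h, map_zero]))
  have hnn : ∀ x : K, x * star x ≠ β := by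
    intro x hx
    apply H.not_norm (h6 x)
    rw [← h7, ← map_mul, hx, hβ]
  have han : ∀ x y : S.D, x * star x + y * algebraMap K S.D (-β) * star y = 0 →
      x = 0 ∧ y = 0 := by
    intro x y h
    apply aniso_b S hβs hnn
    rw [← h, map_neg, mul_neg, neg_mul, ← sub_eq_add_neg, Algebra.smul_def,
      ← Algebra.commutes β y, mul_assoc]
  have hH := H68.aniso_Hf S hβs hβ0 fun x y h => han x y h
  refine H68.su_res_m two_ne_zero (H68.aniso_div H.hdiv) hα H.ρal H.σal S h1 h2 h3 h4 hβ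
    (fun hy N hN hc => H68.su_top S h8 hβs hβ0 (fun x y h => han x y h) N
      (NE.su_fin hy.2 S.f h8 S.finrank_D (by norm_num) (by norm_num)
        ⟨H68.Hf S β, H68.Hi S β, hH.1, H68.Hi_Hf S hβ0, H68.Hf_Hi S hβ0⟩ hH N hN hc))
    (fun m hm hu hn => ?_) hm hu hn hφ
  obtain ⟨ψ, hψ, hψ'⟩ := exists_act H hm hu hn
  have e : (H64.actL two_ne_zero m 1 : AlbL E a b c ≃ₗ[E] _) = ψ := by
    apply LinearEquiv.ext
    intro x
    rw [H64.actL_apply, Units.val_one, hψ']
  rw [e]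
  exact hψ

end Vale.Agent.P011.E6X

end
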